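import Vale.Agent.P209.Nested
import Mathlib.Analysis.Complex.ExponentialBounds

/-!
# Sorting small balls into equal containers
-/

namespace Vale.Agent.P209

/-- Weights dividing one another fill bins exactly. -/
lemma exists_bins_dvd {ι : Type} [DecidableEq ι] (e : ι → ℕ) {q C num : ℕ} (hq : 0 < q)
    (hC : ∀ i, q ^ e i ∣ C) : ∀ (k : ℕ) (T : Finset ι), T.card = k →
      ∑ i ∈ T, q ^ e i ≤ num * C →
      ∃ f : ι → ℕ, (∀ i ∈ T, f i < num) ∧
        ∀ a, ∑ i ∈ T.filter (fun i => f i = a), q ^ e i ≤ C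
  | 0, T, hT, _ => by
    rw [Finset.card_eq_zero] at hT
    exact ⟨fun _ => 0, by simp [hT], by simp [hT]⟩
  | k + 1, T, hT, hsum => by
    obtain ⟨i₀, hi₀, hmin⟩ := T.exists_min_image e (Finset.card_pos.1 (by omega))
    have hw : 0 < q ^ e i₀ := pow_pos hq _
    rw [← Finset.add_sum_erase T _ hi₀] at hsum
    obtain ⟨f, hf, hload⟩ := exists_bins_dvd e hq hC k (T.erase i₀)
      (by rw [Finset.card_erase_of_mem hi₀]; omega) (le_trans (Nat.le_add_left _ _) hsum)
    obtain ⟨a, ha, hlt⟩ : ∃ a < num,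
        ∑ i ∈ (T.erase i₀).filter (fun i => f i = a), q ^ e i < C := by
      by_contra hcon
      push Not at hcon
      have h1 := Finset.sum_fiberwise_of_maps_to (s := T.erase i₀) (t := Finset.range num)
        (g := f) (fun i hi => Finset.mem_range.2 (hf i hi)) (fun i => q ^ e i)
      have h2 := Finset.sum_le_sum fun a (ha : a ∈ Finset.range num) =>
        hcon a (Finset.mem_range.1 ha)
      simp only [Finset.sum_const, Finset.card_range, smul_eq_mul] at h2
      omega
    refine ⟨Function.update f i₀ a, fun i hi => ?_, fun b => ?_⟩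
    · rcases eq_or_ne i i₀ with rfl | hne
      · simpa using ha
      · rw [Function.update_of_ne hne]; exact hf i (Finset.mem_erase.2 ⟨hne, hi⟩)
    · have heq : (T.erase i₀).filter (fun i => Function.update f i₀ a i = b) =
          (T.erase i₀).filter (fun i => f i = b) :=
        Finset.filter_congr fun i hi => by rw [Function.update_of_ne (Finset.ne_of_mem_erase hi)]
      rw [← Finset.insert_erase hi₀, Finset.filter_insert, Function.update_self]
      split_ifs with hb
      · rw [Finset.sum_insert (by simp), heq, ← hb]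
        set l := ∑ i ∈ (T.erase i₀).filter (fun i => f i = a), q ^ e i with hl
        have hdvd : q ^ e i₀ ∣ l := Finset.dvd_sum fun i hi => pow_dvd_pow q
          (hmin i (Finset.mem_of_mem_erase (Finset.mem_filter.1 hi).1))
        have := Nat.le_of_dvd (by omega) (Nat.dvd_sub (hC i₀) hdvd)
        omega
      · rw [heq]; exact hload b

/-- Balls smaller than `S / n` fit, with only a constant factor lost in volume, into few balls of
capacity `S`. -/
theorem exists_containers (n : ℕ) (hn : 1 ≤ n) {ι : Type} [Fintype ι] (S : ℝ) (hS : 0 < S)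
    (r : ι → ℝ) (hr : ∀ i, 0 < r i) (hsmall : ∀ i, r i < S / n) :
    ∃ (N : ℕ) (f : ι → Fin N) (φ : ι → (Fin n → ℂ) → (Fin n → ℂ)),
      (N : ℝ) ≤ 3 * ∑ i, (r i / S) ^ n + n ∧
      (∀ i, ∃ U, closedCapBall n (r i) ⊆ U ∧ IsSymplecticEmbeddingOn (φ i) U) ∧
      (∀ i, φ i '' closedCapBall n (r i) ⊆ openCapBall n S) ∧
      ∀ i i', i ≠ i' → f i = f i' →
        Disjoint (φ i '' closedCapBall n (r i)) (φ i' '' closedCapBall n (r i')) := by
  classical
  obtain ⟨d, rfl⟩ : ∃ d, n = d + 1 := ⟨n - 1, by omega⟩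
  have hx : ∀ i, ((d + 1 : ℕ) : ℝ) < S / r i := fun i => by
    have := hsmall i
    rw [lt_div_iff₀ (by positivity)] at this
    rw [lt_div_iff₀ (hr i)]
    linarith
  choose L j hj1 hj2 hj3 hj4 using fun i => exists_level hn (hx i)
  set Λ := Finset.univ.sup L with hΛ
  have hLΛ : ∀ i, L i ≤ Λ := fun i => Finset.le_sup (f := L) (Finset.mem_univ i)
  set q := 2 ^ (d + 1) with hq
  have hq0 : 0 < q := by positivity
  let cls : ι → Fin (d + 1) := fun i => ⟨j i - (d + 1), by
    have := hj1 i; have := hj2 i; omega⟩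
  let C : Fin (d + 1) → ℕ := fun t => (d + 1 + t) ^ (d + 1) * q ^ Λ
  have hjc : ∀ i t, cls i = t → j i = d + 1 + t := fun i t h => by
    have := congrArg Fin.val h
    have := hj1 i
    simp only [cls] at *
    omega
  let W : Fin (d + 1) → ℕ := fun t =>
    ∑ i ∈ Finset.univ.filter (fun i => cls i = t), q ^ (Λ - L i)
  let num : Fin (d + 1) → ℕ := fun t => ⌈(W t : ℝ) / C t⌉₊
  have hC0 : ∀ t, (0 : ℝ) < C t := fun t => by
    simp only [C]; push_cast; positivity
  have hWC : ∀ t, W t ≤ num t * C t := fun t => by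
    have := Nat.le_ceil ((W t : ℝ) / C t)
    rw [div_le_iff₀ (hC0 t)] at this
    exact_mod_cast this
  choose b hb hbload using fun t => exists_bins_dvd (fun i => Λ - L i) (C := C t) hq0
    (fun i => Dvd.dvd.mul_left (pow_dvd_pow q (Nat.sub_le Λ (L i))) _) _ _ rfl (hWC t)
  let G := Σ t, Fin (num t)
  let g : ι → G := fun i => ⟨cls i, b (cls i) i, hb (cls i) i (by simp)⟩
  have hg : ∀ i (a : G), g i = a → cls i = a.1 ∧ b a.1 i = a.2 := by
    rintro i a rfl; exact ⟨rfl, rfl⟩
  have hpk : ∀ a : G, ∃ P : ι → Piece (d + 1),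
      (∀ i, g i = a → ∀ p ∈ simplex (d + 1) (S / (j i * 2 ^ L i)),
        (P i).map p ∈ simplex (d + 1) S) ∧
      ∀ i i', g i = a → g i' = a → i ≠ i' → ∀ p ∈ simplex (d + 1) (S / (j i * 2 ^ L i)),
        ∀ p' ∈ simplex (d + 1) (S / (j i' * 2 ^ L i')), (P i).map p ≠ (P i').map p' := by
    intro a
    obtain ⟨P, hP, hdis⟩ := packs_levels (n := d) hS (M := d + 1 + a.1) (by omega) Λ
      (fun x : {i // g i = a} => L x.1) (fun x => hLΛ x.1) (by
        rw [← Finset.sum_subtype (Finset.univ.filter fun i => g i = a) (fun i => by simp)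
          (fun i => q ^ (Λ - L i))]
        refine le_trans ?_ (hbload a.1 a.2)
        refine Finset.sum_le_sum_of_subset fun i hi => ?_
        obtain ⟨h1, h2⟩ := hg i a (Finset.mem_filter.1 hi).2
        simp [h1, h2])
    refine ⟨fun i => if h : g i = a then P ⟨i, h⟩ else corner (d + 1), fun i hi p hp => ?_,
      fun i i' hi hi' hne p hp p' hp' => ?_⟩
    · simp only [dif_pos hi]
      refine hP ⟨i, hi⟩ p ?_
      rwa [← hjc i _ (hg i a hi).1]
    · simp only [dif_pos hi, dif_pos hi']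
      refine hdis ⟨i, hi⟩ ⟨i', hi'⟩ (fun h => hne (congrArg Subtype.val h)) p ?_ p' ?_
      · rwa [← hjc i _ (hg i a hi).1]
      · rwa [← hjc i' _ (hg i' a hi').1]
  choose P hP hdis using hpk
  have hrs : ∀ i, r i < S / (j i * 2 ^ L i) := fun i => by
    have h := hj3 i
    have hj : (0 : ℝ) < j i := by exact_mod_cast lt_of_lt_of_le (Nat.succ_pos d) (hj1 i)
    rw [lt_div_iff₀ (hr i)] at h
    rw [lt_div_iff₀ (by positivity)]
    linarith
  choose φ U hU hemb hact using fun i =>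
    exists_toric_embedding (P (g i) i) (hr i) (hrs i) fun p hp => (hP (g i) i rfl p hp).1
  let e := Fintype.equivFin G
  refine ⟨Fintype.card G, fun i => e (g i), φ, ?_, fun i => ⟨U i, hU i, hemb i⟩, fun i => ?_,
    fun i i' hne hf => ?_⟩
  · have h1 : ∀ t, (num t : ℝ) ≤
        3 * ∑ i ∈ Finset.univ.filter (fun i => cls i = t), (r i / S) ^ (d + 1) + 1 := by
      intro t
      refine (Nat.ceil_lt_add_one (div_nonneg (Nat.cast_nonneg (W t)) (hC0 t).le)).le.trans
        (add_le_add ?_ le_rfl)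
      simp only [W]
      rw [Nat.cast_sum, Finset.sum_div, Finset.mul_sum]
      refine Finset.sum_le_sum fun i hi => ?_
      have hjt := hjc i t (Finset.mem_filter.1 hi).2
      have hjr : ((d + 1 : ℕ) : ℝ) ≤ j i := by exact_mod_cast hj1 i
      have hj0 : (0 : ℝ) < j i := lt_of_lt_of_le (by positivity) hjr
      have e1 : ((q ^ (Λ - L i) : ℕ) : ℝ) / C t = (1 / ((j i : ℝ) * 2 ^ L i)) ^ (d + 1) := by
        simp only [C, ← hjt, hq]
        push_cast
        rw [pow_sub₀ _ (by positivity) (hLΛ i), div_pow, one_pow, mul_pow, ← pow_mul 2 (L i),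
          mul_comm (L i), pow_mul]
        field_simp
      rw [e1]
      have h4 := hj4 i
      rw [div_le_iff₀ (hr i)] at h4
      have h5 : 1 / ((j i : ℝ) * 2 ^ L i) ≤ (1 + 1 / ((d + 1 : ℕ) : ℝ)) * (r i / S) := by
        rw [div_le_iff₀ (by positivity)]
        have h6 : ((j i : ℝ) + 1) ≤ (1 + 1 / ((d + 1 : ℕ) : ℝ)) * j i := by
          rw [add_mul, one_mul, one_div_mul_eq_div]
          gcongr
          rw [one_le_div (by positivity)]; exact hjr
        have h7 : S ≤ (1 + 1 / ((d + 1 : ℕ) : ℝ)) * j i * 2 ^ L i * r i :=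
          h4.trans (by have := hr i; gcongr)
        calc (1 : ℝ) = S / S := (div_self hS.ne').symm
          _ ≤ (1 + 1 / ((d + 1 : ℕ) : ℝ)) * j i * 2 ^ L i * r i / S := by gcongr
          _ = _ := by ring
      refine (pow_le_pow_left₀ (by positivity) h5 _).trans ?_
      rw [mul_pow]
      refine mul_le_mul_of_nonneg_right ?_ (by have := hr i; positivity)
      have h8 : 1 + 1 / ((d + 1 : ℕ) : ℝ) ≤ Real.exp (1 / ((d + 1 : ℕ) : ℝ)) := by
        linarith [Real.add_one_le_exp (1 / ((d + 1 : ℕ) : ℝ))]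
      refine (pow_le_pow_left₀ (by positivity) h8 _).trans ?_
      rw [← Real.exp_nat_mul, mul_one_div_cancel (by positivity)]
      exact Real.exp_one_lt_three.le
    calc (Fintype.card G : ℝ) = ∑ t, (num t : ℝ) := by simp [G]
      _ ≤ ∑ t, (3 * ∑ i ∈ Finset.univ.filter (fun i => cls i = t), (r i / S) ^ (d + 1) + 1) :=
          Finset.sum_le_sum fun t _ => h1 t
      _ = _ := by
          rw [Finset.sum_add_distrib, ← Finset.mul_sum, Finset.sum_fiberwise]
          simp
  · rintro _ ⟨z, hz, rfl⟩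
    obtain ⟨p, hp, hpe⟩ := hact i z (hU i hz)
    show Real.pi * ∑ j, ‖φ i z j‖ ^ 2 < S
    rw [Finset.mul_sum]
    simp only [hpe]
    exact (hP (g i) i rfl p hp).2
  · rw [Set.disjoint_left]
    rintro _ ⟨z, hz, rfl⟩ ⟨z', hz', heq⟩
    obtain ⟨p, hp, hpe⟩ := hact i z (hU i hz)
    obtain ⟨p', hp', hpe'⟩ := hact i' z' (hU i' hz')
    have hgg : g i' = g i := (e.injective hf).symm
    rw [hgg] at hpe'
    refine hdis (g i) i i' rfl hgg hne p hp p' hp' (funext fun l => ?_)
    rw [← hpe l, ← hpe' l, heq]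

/-- Nesting of packings. -/
theorem hasBallPacking_nest {n k m : ℕ} {R : ℝ} (f : Fin k → Fin m) (S : Fin m → ℝ)
    (r : Fin k → ℝ) (φ : Fin k → (Fin n → ℂ) → (Fin n → ℂ))
    (hφ : ∀ i, ∃ U, closedCapBall n (r i) ⊆ U ∧ IsSymplecticEmbeddingOn (φ i) U)
    (hin : ∀ i, φ i '' closedCapBall n (r i) ⊆ openCapBall n (S (f i)))
    (hdisj : ∀ i i', i ≠ i' → f i = f i' →
      Disjoint (φ i '' closedCapBall n (r i)) (φ i' '' closedCapBall n (r i')))
    (h : HasBallPacking n R S) : HasBallPacking n R r := by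
  obtain ⟨g, hg, hgin, hgdis⟩ := h
  choose U hU hφ using hφ
  choose V hV hg using hg
  have hmem : ∀ i, ∀ z ∈ closedCapBall n (r i), φ i z ∈ closedCapBall n (S (f i)) := fun i z hz =>
    show Real.pi * _ ≤ _ from (show Real.pi * _ < _ from hin i ⟨z, hz, rfl⟩).le
  refine ⟨fun i => g (f i) ∘ φ i, fun i => ⟨U i ∩ φ i ⁻¹' V (f i),
    fun z hz => ⟨hU i hz, hV _ (hmem i z hz)⟩, ?_⟩, fun i => ?_, fun i i' hne => ?_⟩
  · obtain ⟨oU, cU, iU, sU⟩ := hφ i
    obtain ⟨oV, cV, iV, sV⟩ := hg (f i)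
    have ho := cU.continuousOn.isOpen_inter_preimage oU oV
    have hs := IsSymp.comp ho oV ⟨cV, sV⟩
      ⟨cU.mono Set.inter_subset_left, fun z hz => sU z hz.1⟩ fun z hz => hz.2
    exact ⟨ho, hs.1, iV.comp (iU.mono Set.inter_subset_left) fun z hz => hz.2, hs.2⟩
  · rintro _ ⟨z, hz, rfl⟩
    exact hgin _ ⟨_, hmem i z hz, rfl⟩
  · show Disjoint ((g (f i) ∘ φ i) '' _) ((g (f i') ∘ φ i') '' _)
    rw [Set.disjoint_left]
    rintro _ ⟨z, hz, rfl⟩ ⟨z', hz', heq⟩
    by_cases hf : f i = f i'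
    · rw [Function.comp_apply, Function.comp_apply, ← hf] at heq
      have := (hg (f i)).2.2.1 (hV _ (hf ▸ hmem i' z' hz')) (hV _ (hmem i z hz)) heq
      exact Set.disjoint_left.1 (hdisj i i' hne hf) ⟨z, hz, rfl⟩ ⟨z', hz', this⟩
    · exact Set.disjoint_left.1 (hgdis hf) ⟨_, hmem i z hz, rfl⟩ ⟨_, hmem i' z' hz', heq⟩

end Vale.Agent.P209
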