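import Vale.Agent.P209.Shear
import Mathlib.Analysis.SpecialFunctions.SmoothTransition
import Mathlib.Algebra.BigOperators.Field
import Mathlib.Algebra.Order.BigOperators.Ring.Finset
import Mathlib.Analysis.Calculus.ContDiff.Operations

/-!
# Packings from compositions of bounded multiplicity

Balls are first moved to translated simplices in the first coordinates, then separated by moving
along the corners of a simplex of twice their size in `2 * M + 1` further coordinates.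
-/

namespace Vale.Agent.P209

open scoped ContDiff

noncomputable section

/-- Smooth partition of unity on the line, centred at the integers. -/
def bump (l : ℕ) (t : ℝ) : ℝ :=
  Real.smoothTransition (t - l + 1) - Real.smoothTransition (t - l)

lemma bump_nonneg (l : ℕ) (t : ℝ) : 0 ≤ bump l t :=
  sub_nonneg.2 (Real.smoothTransition.monotone (by linarith))

lemma bump_eq_zero {l : ℕ} {t : ℝ} (h : t ≤ l - 1 ∨ l + 1 ≤ t) : bump l t = 0 := by
  rcases h with h | h
  · rw [bump, Real.smoothTransition.zero_of_nonpos (by linarith),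
      Real.smoothTransition.zero_of_nonpos (by linarith), sub_zero]
  · rw [bump, Real.smoothTransition.one_of_one_le (by linarith),
      Real.smoothTransition.one_of_one_le (by linarith), sub_self]

lemma sum_bump {M : ℕ} {t : ℝ} (h0 : 0 ≤ t) (h1 : t ≤ (2 * M : ℕ)) :
    ∑ l : Fin (2 * M + 1), bump l t = 1 := by
  rw [Fin.sum_univ_eq_sum_range (fun l => bump l t)]
  have e : ∀ l : ℕ, bump l t = (fun i : ℕ => Real.smoothTransition (t - i + 1)) l -
      (fun i : ℕ => Real.smoothTransition (t - i + 1)) (l + 1) := by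
    intro l; simp only [bump]; congr 2; push_cast; ring
  rw [Finset.sum_congr rfl fun l _ => e l, Finset.sum_range_sub',
    Real.smoothTransition.one_of_one_le (by simp; linarith),
    Real.smoothTransition.zero_of_nonpos (by push_cast at h1 ⊢; linarith), sub_zero]

lemma bump_disjoint {t t' : ℝ} (h : t + 2 ≤ t') (l : ℕ) : bump l t = 0 ∨ bump l t' = 0 := by
  rcases le_or_gt t ((l : ℝ) - 1) with h1 | h1
  · exact Or.inl (bump_eq_zero (Or.inl h1))
  · exact Or.inr (bump_eq_zero (Or.inr (by linarith)))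

lemma contDiff_bump (l : ℕ) : ContDiff ℝ ∞ (bump l) := by
  unfold bump
  exact (Real.smoothTransition.contDiff.comp ((contDiff_id.sub contDiff_const).add contDiff_const)).sub
    (Real.smoothTransition.contDiff.comp (contDiff_id.sub contDiff_const))

variable {n a : ℕ}

/-- Cutoff of the region where `c ≤ L p / |p|`. -/
def cut (L : ℕ) (iA : Fin a ↪ Fin n) (KA : Finset (Fin n)) (c : Fin a → ℕ) (p : Fin n → ℝ) : ℝ :=
  ∏ j, Real.smoothTransition (((L : ℝ) * p (iA j) / ∑ x ∈ KA, p x - c j) * ((a : ℝ) + 1) + 1)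

lemma cut_nonneg (L : ℕ) (iA : Fin a ↪ Fin n) (KA : Finset (Fin n)) (c : Fin a → ℕ)
    (p : Fin n → ℝ) : 0 ≤ cut L iA KA c p :=
  Finset.prod_nonneg fun _ _ => Real.smoothTransition.nonneg _

lemma cut_le_one (L : ℕ) (iA : Fin a ↪ Fin n) (KA : Finset (Fin n)) (c : Fin a → ℕ)
    (p : Fin n → ℝ) : cut L iA KA c p ≤ 1 :=
  Finset.prod_le_one (fun _ _ => Real.smoothTransition.nonneg _)
    fun _ _ => Real.smoothTransition.le_one _

/-- Slot parameter of the `i`-th ball. -/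
def slotPos {k : ℕ} (L : ℕ) (iA : Fin a ↪ Fin n) (KA : Finset (Fin n)) (c : Fin k → Fin a → ℕ)
    (i : Fin k) (p : Fin n → ℝ) : ℝ :=
  2 * ∑ j ∈ Finset.univ.filter (· < i), cut L iA KA (c j) p

lemma slotPos_gap {k : ℕ} {L : ℕ} {iA : Fin a ↪ Fin n} {KA : Finset (Fin n)}
    {c : Fin k → Fin a → ℕ} {i i' : Fin k} (h : i < i') {p : Fin n → ℝ}
    (hi : cut L iA KA (c i) p = 1) :
    slotPos L iA KA c i p + 2 ≤ slotPos L iA KA c i' p := by
  have hsub : insert i (Finset.univ.filter (· < i)) ⊆ Finset.univ.filter (· < i') := by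
    intro x hx
    simp only [Finset.mem_insert, Finset.mem_filter, Finset.mem_univ, true_and] at hx ⊢
    rcases hx with rfl | hx
    · exact h
    · exact hx.trans h
  have := Finset.sum_le_sum_of_subset_of_nonneg hsub
    (f := fun j => cut L iA KA (c j) p) fun j _ _ => cut_nonneg _ _ _ _ _
  rw [Finset.sum_insert (by simp), hi] at this
  simp only [slotPos]
  linarith

lemma slotPos_nonneg {k : ℕ} {L : ℕ} {iA : Fin a ↪ Fin n} {KA : Finset (Fin n)}
    {c : Fin k → Fin a → ℕ} {i : Fin k} {p : Fin n → ℝ} : 0 ≤ slotPos L iA KA c i p :=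
  mul_nonneg zero_le_two (Finset.sum_nonneg fun j _ => cut_nonneg _ _ _ _ _)

lemma slotPos_le {k : ℕ} {L M : ℕ} {iA : Fin a ↪ Fin n} {KA : Finset (Fin n)}
    (hA : ∀ j, iA j ∈ KA) {c : Fin k → Fin a → ℕ} {i : Fin k}
    (hmult : ∀ T : Fin a → ℕ, ∑ j, T j ≤ L →
      (Finset.univ.filter fun i => ∀ j, c i j ≤ T j).card ≤ M)
    {p : Fin n → ℝ} (hp : ∀ x ∈ KA, 0 ≤ p x) (hx : 0 < ∑ x ∈ KA, p x) :
    slotPos L iA KA c i p ≤ (2 * M : ℕ) := by
  classical
  set X : Fin a → ℝ := fun j => (L : ℝ) * p (iA j) / ∑ x ∈ KA, p x with hX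
  set η : ℝ := 1 / (a + 1) with hη
  have hX0 : ∀ j, 0 ≤ X j := fun j =>
    div_nonneg (mul_nonneg (Nat.cast_nonneg L) (hp _ (hA j))) hx.le
  have hη0 : 0 < η := by positivity
  have hsum : ∑ j, X j ≤ L := by
    simp only [hX, ← Finset.sum_div, ← Finset.mul_sum]
    rw [div_le_iff₀ hx]
    refine mul_le_mul_of_nonneg_left ?_ (Nat.cast_nonneg L)
    calc ∑ j, p (iA j) = ∑ x ∈ Finset.univ.map iA, p x := (Finset.sum_map _ _ _).symm
      _ ≤ _ := Finset.sum_le_sum_of_subset_of_nonneg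
        (fun x hx => by obtain ⟨j, -, rfl⟩ := Finset.mem_map.1 hx; exact hA j)
        fun x hx _ => hp x hx
  set T : Fin a → ℕ := fun j => ⌊X j + η⌋₊ with hT
  have hTL : ∑ j, T j ≤ L := by
    refine Nat.lt_succ_iff.1 (Nat.cast_lt (α := ℝ).1 ?_)
    push_cast
    calc ∑ j, (T j : ℝ) ≤ ∑ j, (X j + η) :=
          Finset.sum_le_sum fun j _ => Nat.floor_le (by have := hX0 j; positivity)
      _ = ∑ j, X j + a * η := by simp [Finset.sum_add_distrib]
      _ < (L : ℝ) + 1 := by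
          have : a * η < 1 := by rw [hη, mul_one_div, div_lt_one (by positivity)]; linarith
          linarith
  have hsupp : ∀ j, cut L iA KA (c j) p ≤ if ∀ l, c j l ≤ T l then 1 else 0 := by
    intro j
    split_ifs with h
    · exact cut_le_one _ _ _ _ _
    · push_neg at h
      obtain ⟨l, hl⟩ := h
      refine le_of_eq (Finset.prod_eq_zero (Finset.mem_univ l)
        (Real.smoothTransition.zero_of_nonpos ?_))
      have h1 : X l + η < c j l := (Nat.floor_lt (by have := hX0 l; positivity)).1 hl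
      have e : η * (a + 1) = 1 := by rw [hη]; field_simp
      have : (X l - c j l) * (a + 1) ≤ (-η) * (a + 1) :=
        mul_le_mul_of_nonneg_right (by linarith) (by positivity)
      linarith [show (X l - c j l) * (a + 1) = ((L : ℝ) * p (iA l) / ∑ x ∈ KA, p x - c j l) * (a + 1)
        from rfl]
  calc slotPos L iA KA c i p ≤ 2 * ∑ j, cut L iA KA (c j) p :=
        mul_le_mul_of_nonneg_left (Finset.sum_le_univ_sum_of_nonneg fun j => cut_nonneg _ _ _ _ _)
          zero_le_two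
    _ ≤ 2 * ∑ j, (if ∀ l, c j l ≤ T l then (1:ℝ) else 0) :=
        mul_le_mul_of_nonneg_left (Finset.sum_le_sum fun j _ => hsupp j) zero_le_two
    _ ≤ _ := by
        rw [Finset.sum_boole]
        push_cast
        gcongr
        exact hmult T hTL

/-- Translation vector of the first shear. -/
def shift1 (KB : Finset (Fin n)) (iA : Fin a ↪ Fin n) (R s δ : ℝ) (L : ℕ) (c : Fin a → ℕ)
    (p : Fin n → ℝ) : Fin n → ℝ :=
  ∑ j, ((c j : ℝ) * R / L * ((s - (∑ x ∈ KB, (p x + δ))) / s)) • (Pi.single (iA j) 1 : Fin n → ℝ)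

/-- Translation vector of the second shear. -/
def shift2 {b : ℕ} (iB : Fin b ↪ Fin n) (KA : Finset (Fin n)) (R : ℝ) (T : (Fin n → ℝ) → ℝ)
    (p : Fin n → ℝ) : Fin n → ℝ :=
  ∑ l : Fin b, ((R - ∑ x ∈ KA, p x) / 2 * bump l (T p)) • (Pi.single (iB l) 1 : Fin n → ℝ)

lemma sum_smul_single_apply {m : ℕ} (e : Fin m ↪ Fin n) (g : Fin m → ℝ) (l : Fin m) :
    (∑ j, g j • (Pi.single (e j) 1 : Fin n → ℝ)) (e l) = g l := by
  simp [Finset.sum_apply, Pi.single_apply, e.injective.eq_iff]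

lemma sum_smul_single_nonneg {m : ℕ} (e : Fin m ↪ Fin n) {g : Fin m → ℝ} (hg : ∀ j, 0 ≤ g j)
    (x : Fin n) : 0 ≤ (∑ j, g j • (Pi.single (e j) 1 : Fin n → ℝ)) x := by
  rw [Finset.sum_apply]
  exact Finset.sum_nonneg fun j _ => mul_nonneg (hg j) (by
    simp only [Pi.single_apply]; split_ifs <;> norm_num)

lemma sum_smul_single_sum {m : ℕ} (e : Fin m ↪ Fin n) (g : Fin m → ℝ) {S : Finset (Fin n)}
    (hS : ∀ j, e j ∈ S) :
    ∑ x ∈ S, (∑ j, g j • (Pi.single (e j) 1 : Fin n → ℝ)) x = ∑ j, g j := by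
  simp only [Finset.sum_apply, Pi.smul_apply, smul_eq_mul]
  rw [Finset.sum_comm]
  exact Finset.sum_congr rfl fun j _ => by simp [Pi.single_apply, hS j]

/-- Everything about one ball. -/
lemma scatter_core {M L : ℕ} (hL : 0 < L) (iA : Fin a ↪ Fin n) (iB : Fin (2 * M + 1) ↪ Fin n)
    {x0 : Fin n} {KA KB : Finset (Fin n)} (hKA : KA = KBᶜ)
    (hAmem : ∀ j, iA j ∈ KA) (hBmem : ∀ l, iB l ∈ KB) (hx0 : x0 ∈ KA) (hA0 : ∀ j, iA j ≠ x0)
    {R w s ρ δ : ℝ} (hR : 0 < R) (hs0 : 0 < s) (hδ0 : 0 < δ) (hδn : ρ + n * δ < min s w)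
    {ψ : ℂ → ℂ} (hprop : ∀ z ∈ Metric.ball (0 : ℂ) (Real.sqrt (ρ / Real.pi)),
      (∀ e f, areaForm (fderiv ℝ ψ z e) (fderiv ℝ ψ z f) = areaForm e f) ∧
        0 < (ψ z).re ∧ |(ψ z).im| < 1 / 2 ∧ (ψ z).re ≤ Real.pi * ‖z‖ ^ 2 + δ)
    (c : Fin a → ℕ) (hcsum : ∑ j, (c j : ℝ) * R / L = R - s) (h2s : 2 * s ≤ R)
    (T : (Fin n → ℝ) → ℝ) (hT : ∀ p : Fin n → ℝ, (∀ x ∈ KA, 0 ≤ p x) → 0 < ∑ x ∈ KA, p x →
      0 ≤ T p ∧ T p ≤ (2 * M : ℕ))
    (z : Fin n → ℂ) (hz : z ∈ openCapBall n ρ) :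
    let h1 := shift1 KB iA R s δ L c
    let h2 := shift2 iB KA R T
    let y := shear ψ KA h1 z
    let q := shear ψ KB h2 y
    let P : Fin n → ℝ := fun x => Real.pi * ‖q x‖ ^ 2
    let D := Metric.ball (0 : ℂ) (Real.sqrt (ρ / Real.pi))
    z ∈ shearDomain ψ KA h1 D Set.univ ∧
      y ∈ shearDomain ψ KB h2 D {p | 0 < ∑ x ∈ KA, p x} ∧
      ∑ x, P x < R ∧ P x0 < w ∧
      (∀ x ∈ KA, pmask KB y x = P x) ∧
      cut L iA KA c (pmask KB y) = 1 ∧
      (∑ x ∈ KB, P x < R - ∑ x ∈ KA, P x) ∧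
      ∀ l : Fin (2 * M + 1), (R - ∑ x ∈ KA, P x) / 2 * bump l (T (pmask KB y)) ≤ P (iB l) := by
  intro h1 h2 y q PP D
  show _ ∧ _
  let P : (Fin n → ℂ) → Fin n → ℝ := fun z x => Real.pi * ‖z x‖ ^ 2
  have hBA : ∀ x, x ∈ KB ↔ x ∉ KA := fun x => by simp [hKA]
  have hsi : 0 < s := hs0
  have hmemD : ∀ x, z x ∈ D := by
    intro x
    rw [mem_ball_zero_iff, Real.lt_sqrt (norm_nonneg _), lt_div_iff₀ Real.pi_pos]
    have h := Finset.single_le_sum (fun k _ => sq_nonneg ‖z k‖) (Finset.mem_univ x)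
    have h' : Real.pi * ∑ k, ‖z k‖ ^ 2 < ρ := hz
    nlinarith [mul_le_mul_of_nonneg_left h Real.pi_pos.le]
  have hball : ∑ x, P z x < ρ := by simpa [P, Finset.mul_sum] using (show _ < ρ from hz)
  have hsplit : ∀ q : Fin n → ℝ, ∑ x, q x = ∑ x ∈ KA, q x + ∑ x ∈ KB, q x := fun q => by
    rw [hKA, Finset.sum_compl_add_sum]
  have hPnn : ∀ y x, 0 ≤ P y x := fun y x => by positivity
  have hδm := min_le_left (s) w
  set p1 := fun x => (ψ (z x)).re with hp1
  have hp1a : ∀ x, 0 < p1 x ∧ p1 x ≤ P z x + δ := fun x =>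
    ⟨(hprop _ (hmemD x)).2.1, (hprop _ (hmemD x)).2.2.2⟩
  have hmask : ∑ x ∈ KB, (pmask KA z x + δ) = ∑ x ∈ KB, (P z x + δ) :=
    Finset.sum_congr rfl fun x hx => by simp [pmask, (hBA x).1 hx, P]
  set v := s - ∑ x ∈ KB, (P z x + δ) with hv
  have hA1 : ∑ x ∈ KA, p1 x < v := by
    have e1 : ∑ x ∈ KA, p1 x ≤ ∑ x ∈ KA, (P z x + δ) :=
      Finset.sum_le_sum fun x _ => (hp1a x).2
    have e2 := hsplit (fun x => P z x + δ)
    have e3 : ∑ x, (P z x + δ) = ∑ x, P z x + n * δ := by simp [Finset.sum_add_distrib]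
    linarith [hδn]
  have hApos : 0 < ∑ x ∈ KA, p1 x := Finset.sum_pos (fun x _ => (hp1a x).1) ⟨x0, hx0⟩
  have hv0 : 0 < v := hApos.trans hA1
  have hvs : v ≤ s := by
    have : 0 ≤ ∑ x ∈ KB, (P z x + δ) :=
      Finset.sum_nonneg fun x _ => add_nonneg (hPnn z x) (hδ0).le
    linarith
  set g : Fin a → ℝ := fun j => (c j : ℝ) * R / L * (v / s) with hg
  have hg0 : ∀ j, 0 ≤ g j := fun j => by positivity
  have hh : h1 (pmask KA z) = ∑ j, g j • (Pi.single (iA j) 1 : Fin n → ℝ) := by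
    simp only [h1, shift1, hmask, hg, ← hv]
  have hd1 : z ∈ shearDomain (ψ) KA (h1) (D) Set.univ :=
    ⟨fun x _ => hmemD x, trivial, fun x _ => by
      rw [hh]; exact add_pos_of_pos_of_nonneg (hp1a x).1 (sum_smul_single_nonneg _ hg0 x)⟩
  have hyA : ∀ x ∈ KA, P y x = p1 x + h1 (pmask KA z) x := fun x hx =>
    shear_in hx (hd1.2.2 x hx).le
  have hyB : ∀ x ∈ KB, P y x = P z x := fun x hx => by
    simp only [P, y, shear_out ((hBA x).1 hx)]
  have hy_pm : ∀ x ∈ KA, pmask KB y x = P y x := fun x hx => by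
    simp [pmask, show x ∉ KB from fun h => (hBA x).1 h hx, P]
  have hsumg : ∑ j, g j = (R - s) * (v / s) := by
    rw [← hcsum, hg, Finset.sum_mul]
  set X := ∑ x ∈ KA, P y x with hX
  have hXe : X = ∑ x ∈ KA, p1 x + ∑ j, g j := by
    rw [hX, Finset.sum_congr rfl hyA, Finset.sum_add_distrib, hh,
      sum_smul_single_sum iA g hAmem]
  have hXpos : 0 < X := by
    rw [hXe]; exact add_pos_of_pos_of_nonneg hApos (Finset.sum_nonneg fun j _ => hg0 j)
  have hXlt : X < R * (v / s) := by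
    rw [hXe, hsumg, sub_mul, mul_div_cancel₀ _ hsi.ne']; linarith
  have hXsum : ∑ x ∈ KA, pmask KB y x = X := Finset.sum_congr rfl hy_pm
  have hroom : X + 2 * (s - v) < R := by
    have h3 : v / s ≤ 1 := (div_le_one hsi).2 hvs
    have : R * (v / s) + 2 * (s - v) ≤ R := by
      have e : R * (v / s) + 2 * (s - v) - R = (R - 2 * s) * (v / s - 1) := by
        field_simp; ring
      nlinarith [mul_nonneg (sub_nonneg.2 h2s) (sub_nonneg.2 h3)]
    linarith
  have hR_X : 0 < R - X := by linarith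
  have hpm0 : ∀ x ∈ KA, 0 ≤ pmask KB y x := fun x hx => by rw [hy_pm x hx]; exact hPnn y x
  obtain ⟨ht0, ht1⟩ := hT (pmask KB y) hpm0 (by rw [hXsum]; exact hXpos)
  set t := T (pmask KB y) with ht
  set g' : Fin (2 * M + 1) → ℝ := fun l => (R - X) / 2 * bump l t with hg'
  have hg'0 : ∀ l, 0 ≤ g' l := fun l => mul_nonneg (by linarith) (bump_nonneg _ _)
  have hh' : h2 (pmask KB y) = ∑ l, g' l • (Pi.single (iB l) 1 : Fin n → ℝ) := by
    simp only [h2, shift2, hXsum, hg', ← ht]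
  have hyD : ∀ x ∈ KB, y x ∈ D := fun x hx => by
    rw [mem_ball_zero_iff, show ‖y x‖ = ‖z x‖ from shear_out ((hBA x).1 hx), ← mem_ball_zero_iff]
    exact hmemD x
  have hd2 : y ∈ shearDomain ψ KB h2 D {p | 0 < ∑ x ∈ KA, p x} := by
    refine ⟨hyD, show 0 < ∑ x ∈ KA, pmask KB y x by rw [hXsum]; exact hXpos, fun x hx => ?_⟩
    rw [hh']
    exact add_pos_of_pos_of_nonneg (hprop _ (hyD x hx)).2.1 (sum_smul_single_nonneg _ hg'0 x)
  have hqA : ∀ x ∈ KA, P q x = P y x := fun x hx => by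
    simp only [P, q, shear_out (fun h : x ∈ KB => (hBA x).1 h hx)]
  have hqB : ∀ x ∈ KB, P q x = (ψ (y x)).re + h2 (pmask KB y) x := fun x hx =>
    shear_in hx (hd2.2.2 x hx).le
  have hqX : ∑ x ∈ KA, P q x = X := Finset.sum_congr rfl hqA
  have hqBsum : ∑ x ∈ KB, P q x < R - X := by
    rw [Finset.sum_congr rfl hqB, Finset.sum_add_distrib, hh',
      sum_smul_single_sum iB g' hBmem]
    have e1 : ∑ x ∈ KB, (ψ (y x)).re ≤ ∑ x ∈ KB, (P z x + δ) :=
      Finset.sum_le_sum fun x hx => by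
        have := (hprop _ (hyD x hx)).2.2.2
        rw [← hyB x hx]; simpa [P] using this
    simp only [hg', ← Finset.mul_sum, sum_bump ht0 ht1]
    linarith
  refine ⟨hd1, hd2, ?_, ?_, fun x hx => (hy_pm x hx).trans (hqA x hx).symm, ?_,
    show ∑ x ∈ KB, P q x < R - ∑ x ∈ KA, P q x by rw [hqX]; exact hqBsum, fun l => ?_⟩
  · show ∑ x, P q x < R
    rw [hsplit, hqX]; linarith
  · show P q x0 < w
    rw [hqA x0 hx0, hyA x0 hx0, hh, Finset.sum_apply, Finset.sum_eq_zero fun j _ => by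
      simp [Pi.single_apply, Ne.symm (hA0 j)], add_zero]
    have : P z x0 ≤ ∑ x, P z x := Finset.single_le_sum (fun x _ => hPnn z x) (Finset.mem_univ _)
    have := min_le_right (s) w
    have := (hp1a x0).2
    have : (1:ℝ) ≤ n := by exact_mod_cast (Fin.pos x0)
    nlinarith [hδn, hδ0]
  · refine Finset.prod_eq_one fun j _ => Real.smoothTransition.one_of_one_le ?_
    rw [hXsum, hy_pm _ (hAmem j), hyA _ (hAmem j), hh, sum_smul_single_apply]
    have hle : (c j : ℝ) ≤ L * (p1 (iA j) + g j) / X := by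
      rw [le_div_iff₀ hXpos]
      have hL' : (0:ℝ) < L := by exact_mod_cast hL
      have e : (L:ℝ) * g j = c j * (R * (v / s)) := by simp only [hg]; field_simp
      have := mul_le_mul_of_nonneg_left hXlt.le (Nat.cast_nonneg (α := ℝ) (c j))
      nlinarith [(hp1a (iA j)).1]
    nlinarith [mul_nonneg (sub_nonneg.2 hle) (by positivity : (0:ℝ) ≤ a + 1)]
  · show (R - ∑ x ∈ KA, P q x) / 2 * _ ≤ P q (iB l)
    rw [hqX, hqB _ (hBmem l), hh', sum_smul_single_apply]
    exact le_add_of_nonneg_left (hprop _ (hyD _ (hBmem l))).2.1.le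

/-- Coordinates `0`, then `a` translated ones, then `2 * M + 1` coordinates of slots. -/
theorem scatter_embeddings (n a M L : ℕ) (hn : n = 1 + a + (2 * M + 1)) (hL : 0 < L) {k : ℕ}
    (R w : ℝ) (hR : 0 < R) (r : Fin k → ℝ) (hr : ∀ i, 0 < r i)
    (m : Fin k → ℕ) (hrs : ∀ i, r i < (m i : ℝ) * R / L) (hrw : ∀ i, r i < w)
    (hm2 : ∀ i, 2 * m i ≤ L) (c : Fin k → Fin a → ℕ) (hc : ∀ i, ∑ j, c i j + m i = L)
    (hmult : ∀ T : Fin a → ℕ, ∑ j, T j ≤ L →
      (Finset.univ.filter fun i => ∀ j, c i j ≤ T j).card ≤ M) :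
    ∃ f : Fin k → (Fin n → ℂ) → (Fin n → ℂ),
      (∀ i, ∃ U, closedCapBall n (r i) ⊆ U ∧ IsSymplecticEmbeddingOn (f i) U) ∧
      (∀ i, f i '' closedCapBall n (r i) ⊆
        openCapBall n R ∩ {z | Real.pi * ‖z ⟨0, by omega⟩‖ ^ 2 < w}) ∧
      Pairwise fun i i' => Disjoint (f i '' closedCapBall n (r i)) (f i' '' closedCapBall n (r i')) := by
  classical
  let iA : Fin a ↪ Fin n := ⟨fun j => ⟨1 + j, by omega⟩, fun x y h => by simpa [Fin.ext_iff] using h⟩
  let iB : Fin (2 * M + 1) ↪ Fin n :=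
    ⟨fun l => ⟨1 + a + l, by omega⟩, fun x y h => by simpa [Fin.ext_iff] using h⟩
  set KB := Finset.univ.map iB with hKB
  set KA := KBᶜ with hKA
  have hBA : ∀ x, x ∈ KB ↔ x ∉ KA := fun x => by simp [hKA]
  have hAmem : ∀ j, iA j ∈ KA := fun j => by
    simp only [hKA, hKB, Finset.mem_compl, Finset.mem_map, Finset.mem_univ, true_and, not_exists]
    intro l h; have h' := congrArg Fin.val h; change 1 + a + (l : ℕ) = 1 + (j : ℕ) at h'; omega
  have hBmem : ∀ l, iB l ∈ KB := fun l => Finset.mem_map_of_mem _ (Finset.mem_univ l)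
  let x0 : Fin n := ⟨0, by omega⟩
  have hx0 : x0 ∈ KA := by
    simp only [hKA, hKB, Finset.mem_compl, Finset.mem_map, Finset.mem_univ, true_and, not_exists]
    intro l h; have h' := congrArg Fin.val h; change 1 + a + (l : ℕ) = 0 at h'; omega
  set s : Fin k → ℝ := fun i => (m i : ℝ) * R / L with hs
  set ρ : Fin k → ℝ := fun i => (r i + min (s i) w) / 2 with hρ
  have hρ1 : ∀ i, r i < ρ i := fun i => by
    have := lt_min (hrs i) (hrw i); simp only [hρ, hs] at *; linarith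
  have hρ2 : ∀ i, ρ i < min (s i) w := fun i => by
    have := lt_min (hrs i) (hrw i); simp only [hρ, hs] at *; linarith
  set δ : Fin k → ℝ := fun i => (min (s i) w - ρ i) / (n + 1) with hδ
  have hδ0 : ∀ i, 0 < δ i := fun i => div_pos (by linarith [hρ2 i]) (by positivity)
  have hδn : ∀ i, ρ i + n * δ i < min (s i) w := fun i => by
    have : (n + 1 : ℝ) * δ i = min (s i) w - ρ i := by rw [hδ]; field_simp
    nlinarith [hδ0 i]
  choose ψ hψ hinj hprop using fun i => exists_disc_map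
    (Real.sqrt_pos.mpr (div_pos ((hr i).trans (hρ1 i)) Real.pi_pos)) (hδ0 i)
  set D : Fin k → Set ℂ := fun i => Metric.ball 0 (Real.sqrt (ρ i / Real.pi)) with hD
  have hDo : ∀ i, IsOpen (D i) := fun i => Metric.isOpen_ball
  set h1 : Fin k → (Fin n → ℝ) → Fin n → ℝ :=
    fun i => shift1 KB iA R (s i) (δ i) L (c i) with hh1
  set h2 : Fin k → (Fin n → ℝ) → Fin n → ℝ :=
    fun i => shift2 iB KA R (slotPos L iA KA c i) with hh2
  set V : Set (Fin n → ℝ) := {p | 0 < ∑ x ∈ KA, p x} with hV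
  have hVo : IsOpen V := isOpen_lt continuous_const (by fun_prop)
  have hproj : ∀ x, ContDiff ℝ ∞ (fun p : Fin n → ℝ => p x) := fun x => contDiff_apply ℝ ℝ x
  have hc1 : ∀ i, ContDiffOn ℝ ∞ (h1 i) Set.univ := fun i => by
    refine ContDiff.contDiffOn (contDiff_pi.2 fun x => ?_)
    simp only [hh1, shift1, Finset.sum_apply, Pi.smul_apply, smul_eq_mul]
    refine ContDiff.sum fun j _ => ContDiff.mul ?_ contDiff_const
    exact contDiff_const.mul ((contDiff_const.sub
      (ContDiff.sum fun x _ => (hproj x).add contDiff_const)).div_const _)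
  have hcs : ContDiff ℝ ∞ (fun p : Fin n → ℝ => ∑ x ∈ KA, p x) := ContDiff.sum fun x _ => hproj x
  have hc2 : ∀ i, ContDiffOn ℝ ∞ (h2 i) V := fun i => by
    refine contDiffOn_pi.2 fun x => ?_
    simp only [hh2, shift2, Finset.sum_apply, Pi.smul_apply, smul_eq_mul]
    refine ContDiffOn.sum fun l _ => ContDiffOn.mul ?_ contDiffOn_const
    refine ((contDiff_const.sub hcs).div_const _).contDiffOn.mul ((contDiff_bump l).comp_contDiffOn ?_)
    refine contDiffOn_const.mul (ContDiffOn.sum fun j _ => ?_)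
    refine contDiffOn_prod fun l' _ => Real.smoothTransition.contDiff.comp_contDiffOn ?_
    exact ((((contDiff_const.mul (hproj _)).contDiffOn.div hcs.contDiffOn
      fun p hp => ne_of_gt hp).sub contDiffOn_const).mul contDiffOn_const).add contDiffOn_const
  set g1 : Fin k → (Fin n → ℂ) → Fin n → ℂ := fun i => shear (ψ i) KA (h1 i) with hg1
  set g2 : Fin k → (Fin n → ℂ) → Fin n → ℂ := fun i => shear (ψ i) KB (h2 i) with hg2
  set U : Fin k → Set (Fin n → ℂ) := fun i => openCapBall n (ρ i) with hU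
  set P : (Fin n → ℂ) → Fin n → ℝ := fun z x => Real.pi * ‖z x‖ ^ 2 with hP
  have hA0 : ∀ j, iA j ≠ x0 := fun j h => by
    have h' := congrArg Fin.val h
    change 1 + (j : ℕ) = 0 at h'
    omega
  have hcs : ∀ i, ∑ j, (c i j : ℝ) * R / L = R - s i := fun i => by
    have : (∑ j, (c i j : ℝ)) + m i = L := by exact_mod_cast hc i
    have hL' : (0:ℝ) < L := by exact_mod_cast hL
    rw [← Finset.sum_div, ← Finset.sum_mul, show ∑ j, (c i j : ℝ) = L - m i by linarith, hs]
    field_simp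
  have h2s : ∀ i, 2 * s i ≤ R := fun i => by
    have : (2 * m i : ℝ) ≤ L := by exact_mod_cast hm2 i
    rw [hs, ← mul_div_assoc, div_le_iff₀ (by exact_mod_cast hL)]
    nlinarith
  have core := fun i z (hz : z ∈ U i) => scatter_core hL iA iB hKA hAmem hBmem hx0 hA0 hR
    ((hr i).trans (hrs i)) (hδ0 i) (hδn i) (hprop i) (c i) (hcs i) (h2s i)
    (slotPos L iA KA c i) (fun _ hp hX => ⟨slotPos_nonneg, slotPos_le hAmem hmult hp hX⟩) z hz
  refine ⟨fun i z => g2 i (g1 i z), fun i => ⟨U i, fun z hz => lt_of_le_of_lt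
    (show Real.pi * ∑ j, ‖z j‖ ^ 2 ≤ r i from hz) (hρ1 i), ?_⟩, fun i => ?_, ?_⟩
  · have hUo : IsOpen (U i) := isOpen_lt (by fun_prop) continuous_const
    have s1 : IsSymp (g1 i) (shearDomain (ψ i) KA (h1 i) (D i) Set.univ) :=
      isSymp_shear (hDo i) (hψ i) (fun z hz => (hprop i z hz).1) isOpen_univ (hc1 i)
    have s2 : IsSymp (g2 i) (shearDomain (ψ i) KB (h2 i) (D i) V) :=
      isSymp_shear (hDo i) (hψ i) (fun z hz => (hprop i z hz).1) hVo (hc2 i)
    have s3 := IsSymp.comp hUo (isOpen_shearDomain (hDo i) (hψ i) hVo (hc2 i)) s2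
      ⟨s1.1.mono fun z hz => (core i z hz).1, fun z hz => s1.2 z (core i z hz).1⟩
      fun z hz => (core i z hz).2.1
    refine ⟨hUo, s3.1, fun z hz z' hz' he => ?_, s3.2⟩
    exact injOn_shear (hinj i) (fun y hy => (hprop i y hy).2.2.1) (core i z hz).1 (core i z' hz').1
      (injOn_shear (hinj i) (fun y hy => (hprop i y hy).2.2.1) (core i z hz).2.1
        (core i z' hz').2.1 he)
  · rintro _ ⟨z, hz, rfl⟩
    have h := core i z (lt_of_le_of_lt (show _ ≤ r i from hz) (hρ1 i))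
    exact ⟨by simpa [openCapBall, hP, Finset.mul_sum] using h.2.2.1, h.2.2.2.1⟩
  · have main : ∀ i i', i < i' →
        Disjoint ((fun z => g2 i (g1 i z)) '' closedCapBall n (r i))
          ((fun z => g2 i' (g1 i' z)) '' closedCapBall n (r i')) := by
      intro i i' hii
      rw [Set.disjoint_left]
      rintro _ ⟨z, hz, rfl⟩ ⟨z', hz', he⟩
      obtain ⟨-, -, -, -, hp, hcut, hsum, hlow⟩ :=
        core i z (lt_of_le_of_lt (show _ ≤ r i from hz) (hρ1 i))
      obtain ⟨-, -, -, -, hp', -, -, hlow'⟩ :=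
        core i' z' (lt_of_le_of_lt (show _ ≤ r i' from hz') (hρ1 i'))
      change g2 i' (g1 i' z') = g2 i (g1 i z) at he
      change ∀ x ∈ KA, pmask KB (g1 i' z') x = P (g2 i' (g1 i' z')) x at hp'
      change ∀ l : Fin (2 * M + 1), (R - ∑ x ∈ KA, P (g2 i' (g1 i' z')) x) / 2 *
        bump l (slotPos L iA KA c i' (pmask KB (g1 i' z'))) ≤ P (g2 i' (g1 i' z')) (iB l) at hlow'
      change ∀ x ∈ KA, pmask KB (g1 i z) x = P (g2 i (g1 i z)) x at hp
      change ∀ l : Fin (2 * M + 1), (R - ∑ x ∈ KA, P (g2 i (g1 i z)) x) / 2 *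
        bump l (slotPos L iA KA c i (pmask KB (g1 i z))) ≤ P (g2 i (g1 i z)) (iB l) at hlow
      change ∑ x ∈ KB, P (g2 i (g1 i z)) x < R - ∑ x ∈ KA, P (g2 i (g1 i z)) x at hsum
      rw [he] at hp' hlow'
      have hpe : pmask KB (g1 i' z') = pmask KB (g1 i z) := by
        funext x
        by_cases hx : x ∈ KA
        · rw [hp x hx, hp' x hx]
        · simp [pmask, (hBA x).2 hx]
      rw [hpe] at hlow'
      have hgap := slotPos_gap hii (iA := iA) hcut
      set t := slotPos L iA KA c i (pmask KB (g1 i z))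
      set t' := slotPos L iA KA c i' (pmask KB (g1 i z))
      set q := g2 i (g1 i z)
      set u := (R - ∑ x ∈ KA, P q x) / 2 with hu
      have hu0 : 0 ≤ u := by
        have : 0 ≤ ∑ x ∈ KB, P q x := Finset.sum_nonneg fun x _ => by positivity
        rw [hu]; linarith
      have ht0 : 0 ≤ t := slotPos_nonneg
      have hApos : 0 < ∑ x ∈ KA, pmask KB (g1 i z) x :=
        (core i z (lt_of_le_of_lt (show _ ≤ r i from hz) (hρ1 i))).2.1.2.1
      have hnn : ∀ x ∈ KA, 0 ≤ pmask KB (g1 i z) x := fun x hx => by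
        rw [hp x hx]; positivity
      have ht1 : t' ≤ (2 * M : ℕ) := slotPos_le hAmem hmult hnn hApos
      have key : ∀ l : Fin (2 * M + 1), u * bump l t + u * bump l t' ≤ P q (iB l) := fun l => by
        rcases bump_disjoint hgap l with e | e
        · rw [e, mul_zero, zero_add]; exact hlow' l
        · rw [e, mul_zero, add_zero]; exact hlow l
      have := Finset.sum_le_sum fun l (_ : l ∈ Finset.univ) => key l
      rw [Finset.sum_add_distrib, ← Finset.mul_sum, ← Finset.mul_sum,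
        sum_bump ht0 (by linarith), sum_bump (by linarith) ht1, ← Finset.sum_map Finset.univ iB (P q),
        ← hKB] at this
      linarith
    intro i i' hne
    rcases lt_or_gt_of_ne hne with h | h
    · exact main i i' h
    · exact (main i' i h).symm

end

end Vale.Agent.P209
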