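import Vale.Agent.P209.Disc
import Mathlib.Data.Matrix.Mul
import Mathlib.LinearAlgebra.Complex.FiniteDimensional
import Mathlib.Topology.Algebra.Module.FiniteDimension
import Mathlib.Analysis.SpecialFunctions.ExpDeriv
import Mathlib.Analysis.Calculus.FDeriv.Pi
import Mathlib.Analysis.Calculus.ContDiff.Operations

/-!
# Toric packings

An affine unimodular copy of the open simplex of size `s` inside the open simplex of size `R`
gives a symplectic embedding of every closed ball of capacity less than `s` into the open ball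
of capacity `R`; disjoint simplices give disjoint balls.
-/

namespace Vale.Agent.P209

open scoped ContDiff
open Complex (I)
open Matrix

noncomputable section

variable {n : ℕ}

/-- An integral affine unimodular map of `ℝ^n`. -/
structure Piece (n : ℕ) where
  A : Matrix (Fin n) (Fin n) ℤ
  B : Matrix (Fin n) (Fin n) ℤ
  hBA : B * A = 1
  b : Fin n → ℝ

/-- The open simplex of size `s`. -/
def simplex (n : ℕ) (s : ℝ) : Set (Fin n → ℝ) := {p | (∀ j, 0 < p j) ∧ ∑ j, p j < s}

/-- Real version of an integral matrix. -/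
def rmat (A : Matrix (Fin n) (Fin n) ℤ) : Matrix (Fin n) (Fin n) ℝ := A.map (Int.castRingHom ℝ)

lemma rmat_mul (A B : Matrix (Fin n) (Fin n) ℤ) : rmat (A * B) = rmat A * rmat B :=
  Matrix.map_mul

lemma rmat_one : rmat (1 : Matrix (Fin n) (Fin n) ℤ) = 1 := by
  simp [rmat]

/-- The affine map of a piece. -/
def Piece.map (P : Piece n) (p : Fin n → ℝ) : Fin n → ℝ := P.b + rmat P.A *ᵥ p

/-- The affine symplectic map of a piece, in complex notation. -/
def Piece.lift (P : Piece n) (w : Fin n → ℂ) : Fin n → ℂ := fun j =>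
  ⟨P.map (fun k => (w k).re) j, ((rmat P.B)ᵀ *ᵥ fun k => (w k).im) j⟩

/-- From action-angle coordinates to `ℂ`. -/
def pol (w : ℂ) : ℂ :=
  (Real.sqrt (w.re / Real.pi) : ℂ) * Complex.exp (((2 * Real.pi * w.im : ℝ) : ℂ) * I)

lemma norm_sq_pol {w : ℂ} (hw : 0 ≤ w.re) : Real.pi * ‖pol w‖ ^ 2 = w.re := by
  rw [pol, norm_mul, Complex.norm_exp_ofReal_mul_I, mul_one, Complex.norm_real,
    Real.norm_of_nonneg (Real.sqrt_nonneg _), Real.sq_sqrt (by positivity)]
  field_simp

/-- Symplectic maps of an open set. -/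
def IsSymp (f : (Fin n → ℂ) → (Fin n → ℂ)) (U : Set (Fin n → ℂ)) : Prop :=
  ContDiffOn ℝ ∞ f U ∧ ∀ z ∈ U, ∀ u v, omega0 (fderiv ℝ f z u) (fderiv ℝ f z v) = omega0 u v

lemma IsSymp.comp {f g : (Fin n → ℂ) → (Fin n → ℂ)} {U V : Set (Fin n → ℂ)} (hU : IsOpen U)
    (hV : IsOpen V) (hg : IsSymp g V) (hf : IsSymp f U) (h : Set.MapsTo f U V) :
    IsSymp (g ∘ f) U := by
  refine ⟨hg.1.comp hf.1 h, fun z hz u v => ?_⟩
  have h1 : DifferentiableAt ℝ f z :=
    (hf.1.differentiableOn (by simp)).differentiableAt (hU.mem_nhds hz)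
  have h2 : DifferentiableAt ℝ g (f z) :=
    (hg.1.differentiableOn (by simp)).differentiableAt (hV.mem_nhds (h hz))
  rw [fderiv_comp z h2 h1]
  simp only [ContinuousLinearMap.comp_apply]
  rw [hg.2 _ (h hz), hf.2 z hz]

/-- Componentwise maps with area preserving components are symplectic. -/
lemma isSymp_pointwise {ψ : ℂ → ℂ} {D : Set ℂ} (hD : IsOpen D) (hψ : ContDiffOn ℝ ∞ ψ D)
    (hs : ∀ z ∈ D, ∀ e f, areaForm (fderiv ℝ ψ z e) (fderiv ℝ ψ z f) = areaForm e f) :
    IsSymp (fun z j => ψ (z j)) {z : Fin n → ℂ | ∀ j, z j ∈ D} := by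
  refine ⟨contDiffOn_pi.mpr fun j => hψ.comp (contDiff_apply ℝ ℂ j).contDiffOn fun z hz => hz j,
    fun z hz u v => ?_⟩
  have h : HasFDerivAt (fun (z : Fin n → ℂ) j => ψ (z j))
      (ContinuousLinearMap.pi fun j => (fderiv ℝ ψ (z j)).comp (ContinuousLinearMap.proj j)) z :=
    hasFDerivAt_pi.mpr fun j =>
      (((hψ.differentiableOn (by simp)).differentiableAt (hD.mem_nhds (hz j))).hasFDerivAt).comp z
        (hasFDerivAt_apply j z)
  rw [h.fderiv]
  simp only [omega0, ContinuousLinearMap.pi_apply, ContinuousLinearMap.comp_apply,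
    ContinuousLinearMap.proj_apply]
  exact Finset.sum_congr rfl fun j _ => hs _ (hz j) _ _

lemma contDiffAt_pol {w : ℂ} (hw : 0 < w.re) : ContDiffAt ℝ ∞ pol w := by
  have hre : ContDiffAt ℝ ∞ (fun z : ℂ => z.re) w := Complex.reCLM.contDiff.contDiffAt
  have him : ContDiffAt ℝ ∞ (fun z : ℂ => z.im) w := Complex.imCLM.contDiff.contDiffAt
  have hof : ∀ {f : ℂ → ℝ}, ContDiffAt ℝ ∞ f w → ContDiffAt ℝ ∞ (fun z => (f z : ℂ)) w :=
    fun hf => Complex.ofRealCLM.contDiff.contDiffAt.comp w hf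
  exact (hof ((hre.div_const _).sqrt (by positivity))).mul
    (((hof (contDiffAt_const.mul him)).mul contDiffAt_const).cexp)

lemma fderiv_pol {w : ℂ} (hw : 0 < w.re) (e f : ℂ) :
    areaForm (fderiv ℝ pol w e) (fderiv ℝ pol w f) = areaForm e f := by
  set r := Real.sqrt (w.re / Real.pi) with hr
  set θ := 2 * Real.pi * w.im with hθ
  have hrpos : 0 < r := Real.sqrt_pos.mpr (by positivity)
  have main : ∀ e : ℂ, fderiv ℝ pol w e =
      ((e.re / Real.pi / (2 * r) : ℝ) + ((r * (2 * Real.pi * e.im) : ℝ) : ℂ) * I) *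
        Complex.exp ((θ : ℂ) * I) := by
    intro e
    apply fderiv_eq_of_line ((contDiffAt_pol hw).differentiableAt (by simp))
    have h0 : w + (0 : ℝ) • e = w := by simp
    have hxt : HasDerivAt (fun t : ℝ => (w + t • e).re) e.re 0 := by
      simpa using ((hasDerivAt_id (0 : ℝ)).mul_const e.re).const_add w.re
    have hyt : HasDerivAt (fun t : ℝ => (w + t • e).im) e.im 0 := by
      simpa using ((hasDerivAt_id (0 : ℝ)).mul_const e.im).const_add w.im
    have h1 := ((hxt.div_const Real.pi).sqrt (by simp only [h0]; positivity)).ofReal_comp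
    have h2 := (((hyt.const_mul (2 * Real.pi)).ofReal_comp).mul_const I).cexp
    refine (h1.mul h2).congr_deriv ?_
    simp only [h0, r, θ]
    push_cast
    ring
  rw [main e, main f, show Complex.exp ((θ : ℂ) * I) = (Real.cos θ : ℂ) + (Real.sin θ : ℂ) * I by
    rw [Complex.exp_mul_I, ← Complex.ofReal_cos, ← Complex.ofReal_sin]]
  simp only [areaForm, Complex.mul_re, Complex.mul_im, Complex.add_re, Complex.add_im,
    Complex.ofReal_re, Complex.ofReal_im, Complex.I_re, Complex.I_im]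
  field_simp
  linear_combination (4 * Real.pi ^ 2 * r ^ 2 * (e.re * f.im - f.re * e.im)) * Real.sin_sq_add_cos_sq θ

lemma Piece.fderiv_lift (P : Piece n) (z u v : Fin n → ℂ) :
    omega0 (fderiv ℝ P.lift z u) (fderiv ℝ P.lift z v) = omega0 u v := by
  set G : (Fin n → ℂ) →ₗ[ℝ] (Fin n → ℂ) :=
    { toFun := fun w j => ⟨(rmat P.A *ᵥ fun k => (w k).re) j,
        ((rmat P.B)ᵀ *ᵥ fun k => (w k).im) j⟩
      map_add' := fun w w' => by
        funext j
        apply Complex.ext <;>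
          simp [Matrix.mulVec, dotProduct, mul_add, Finset.sum_add_distrib]
      map_smul' := fun c w => by
        funext j
        apply Complex.ext <;>
          simp [Matrix.mulVec, dotProduct, Finset.mul_sum, mul_left_comm] } with hG
  have hlift : P.lift = fun w => (fun j => (P.b j : ℂ)) + G.toContinuousLinearMap w := by
    funext w j
    apply Complex.ext <;> simp [Piece.lift, Piece.map, G]
  have hd : fderiv ℝ P.lift z = G.toContinuousLinearMap := by
    rw [hlift]
    exact (G.toContinuousLinearMap.hasFDerivAt.const_add _).fderiv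
  rw [hd]
  have key : ∀ p q : Fin n → ℝ, (rmat P.A *ᵥ p) ⬝ᵥ ((rmat P.B)ᵀ *ᵥ q) = p ⬝ᵥ q := by
    intro p q
    rw [Matrix.mulVec_transpose, dotProduct_comm, ← Matrix.dotProduct_mulVec,
      Matrix.mulVec_mulVec, ← rmat_mul, P.hBA, rmat_one, Matrix.one_mulVec, dotProduct_comm]
  have h1 := key (fun k => (u k).re) (fun k => (v k).im)
  have h2 := key (fun k => (v k).re) (fun k => (u k).im)
  simp only [dotProduct] at h1 h2
  simp only [omega0, areaForm, LinearMap.coe_toContinuousLinearMap', Finset.sum_sub_distrib, G,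
    LinearMap.coe_mk, AddHom.coe_mk]
  rw [h1, show ∑ j, ((rmat P.B)ᵀ *ᵥ fun k => (u k).im) j * (rmat P.A *ᵥ fun k => (v k).re) j
      = ∑ j, (u j).im * (v j).re by
    simp only [mul_comm _ ((rmat P.A *ᵥ fun k => (v k).re) _), mul_comm (u _).im]; exact h2]

lemma Piece.isSymp_lift (P : Piece n) : IsSymp P.lift Set.univ := by
  refine ⟨ContDiff.contDiffOn (contDiff_pi.mpr fun j => ?_), fun z _ u v => P.fderiv_lift z u v⟩
  have h : (fun w => P.lift w j) = fun w : Fin n → ℂ =>
      ((P.b j + ∑ k, rmat P.A j k * (w k).re : ℝ) : ℂ) +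
        ((∑ k, rmat P.B k j * (w k).im : ℝ) : ℂ) * I := by
    funext w
    rw [← Complex.mk_eq_add_mul_I]
    rfl
  rw [h]
  have hre : ∀ k, ContDiff ℝ ∞ (fun w : Fin n → ℂ => (w k).re) := fun k =>
    Complex.reCLM.contDiff.comp (contDiff_apply ℝ ℂ k)
  have him : ∀ k, ContDiff ℝ ∞ (fun w : Fin n → ℂ => (w k).im) := fun k =>
    Complex.imCLM.contDiff.comp (contDiff_apply ℝ ℂ k)
  have h1 : ContDiff ℝ ∞ (fun w : Fin n → ℂ => P.b j + ∑ k, rmat P.A j k * (w k).re) :=
    contDiff_const.add (ContDiff.sum fun k _ => contDiff_const.mul (hre k))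
  have h2 : ContDiff ℝ ∞ (fun w : Fin n → ℂ => ∑ k, rmat P.B k j * (w k).im) :=
    ContDiff.sum fun k _ => contDiff_const.mul (him k)
  exact (Complex.ofRealCLM.contDiff.comp h1).add
    ((Complex.ofRealCLM.contDiff.comp h2).mul contDiff_const)

/-- Embedding of a ball from one piece. -/
lemma exists_toric_embedding (P : Piece n) {r s : ℝ} (hr : 0 < r) (hrs : r < s)
    (hP : ∀ p ∈ simplex n s, ∀ j, 0 < P.map p j) :
    ∃ (f : (Fin n → ℂ) → (Fin n → ℂ)) (U : Set (Fin n → ℂ)), closedCapBall n r ⊆ U ∧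
      IsSymplecticEmbeddingOn f U ∧
      ∀ z ∈ U, ∃ p ∈ simplex n s, ∀ j, Real.pi * ‖f z j‖ ^ 2 = P.map p j := by
  set r' := (r + s) / 2 with hr'
  have hr'pos : 0 < r' := by linarith
  set δ := (s - r') / (n + 1) with hδ
  have hδpos : 0 < δ := div_pos (by linarith) (by positivity)
  set a := Real.sqrt (r' / Real.pi) with ha
  obtain ⟨ψ, hψ, hinj, hprop⟩ := exists_disc_map (Real.sqrt_pos.mpr (div_pos hr'pos Real.pi_pos)) hδpos
  set U := openCapBall n r' with hUdef
  have hU : IsOpen U := isOpen_lt (by fun_prop) continuous_const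
  have hmem : ∀ z ∈ U, ∀ j, z j ∈ Metric.ball (0 : ℂ) a := by
    intro z hz j
    rw [mem_ball_zero_iff, ha, Real.lt_sqrt (norm_nonneg _), lt_div_iff₀ Real.pi_pos]
    have h := Finset.single_le_sum (fun k _ => sq_nonneg ‖z k‖) (Finset.mem_univ j)
    have h' : Real.pi * ∑ k, ‖z k‖ ^ 2 < r' := hz
    nlinarith [mul_le_mul_of_nonneg_left h Real.pi_pos.le]
  have hsimp : ∀ z ∈ U, (fun j => (ψ (z j)).re) ∈ simplex n s := by
    intro z hz
    refine ⟨fun j => (hprop _ (hmem z hz j)).2.1, ?_⟩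
    have h' : Real.pi * ∑ k, ‖z k‖ ^ 2 < r' := hz
    calc ∑ j, (ψ (z j)).re ≤ ∑ j : Fin n, (Real.pi * ‖z j‖ ^ 2 + δ) :=
          Finset.sum_le_sum fun j _ => (hprop _ (hmem z hz j)).2.2.2
      _ = Real.pi * ∑ j, ‖z j‖ ^ 2 + n * δ := by
          simp [Finset.sum_add_distrib, Finset.mul_sum]
      _ < s := by
          have : (n + 1) * δ = s - r' := by rw [hδ]; field_simp
          nlinarith
  set V := {w : Fin n → ℂ | ∀ j, 0 < (w j).re} with hVdef
  have hV : IsOpen V := by
    simp only [hVdef, Set.setOf_forall]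
    exact isOpen_iInter_of_finite fun j =>
      isOpen_lt continuous_const (Complex.continuous_re.comp (continuous_apply j))
  have h1 : IsSymp (fun (z : Fin n → ℂ) j => ψ (z j)) U := by
    have h := isSymp_pointwise (n := n) Metric.isOpen_ball hψ fun z hz => (hprop z hz).1
    exact ⟨h.1.mono hmem, fun z hz => h.2 z (hmem z hz)⟩
  have h2 : IsSymp (fun (z : Fin n → ℂ) j => pol (z j)) V :=
    isSymp_pointwise (D := {w : ℂ | 0 < w.re}) (isOpen_lt continuous_const Complex.continuous_re)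
      (fun w hw => (contDiffAt_pol hw).contDiffWithinAt) fun w hw => fderiv_pol hw
  have h3 := IsSymp.comp hU isOpen_univ P.isSymp_lift h1 fun _ _ => trivial
  have h4 := IsSymp.comp hU hV h2 h3 fun z hz j => hP _ (hsimp z hz) j
  refine ⟨_, U, fun z hz => lt_of_le_of_lt (show Real.pi * ∑ j, ‖z j‖ ^ 2 ≤ r from hz)
    (by linarith : r < r'), ⟨hU, h4.1, ?_, h4.2⟩, fun z hz => ⟨_, hsimp z hz, fun j => ?_⟩⟩
  · intro z hz z' hz' heq
    have hx : ∀ j, P.map (fun k => (ψ (z k)).re) j = P.map (fun k => (ψ (z' k)).re) j := by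
      intro j
      have e1 := norm_sq_pol (w := P.lift (fun k => ψ (z k)) j) (hP _ (hsimp z hz) j).le
      have e2 := norm_sq_pol (w := P.lift (fun k => ψ (z' k)) j) (hP _ (hsimp z' hz') j).le
      have e3 : pol (P.lift (fun k => ψ (z k)) j) = pol (P.lift (fun k => ψ (z' k)) j) :=
        congrFun heq j
      rw [e3] at e1
      exact e1.symm.trans e2
    have inv : ∀ p : Fin n → ℝ, rmat P.B *ᵥ (rmat P.A *ᵥ p) = p := fun p => by
      rw [Matrix.mulVec_mulVec, ← rmat_mul, P.hBA, rmat_one, Matrix.one_mulVec]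
    have hre : (fun k => (ψ (z k)).re) = fun k => (ψ (z' k)).re := by
      have h := add_left_cancel (funext hx : P.b + rmat P.A *ᵥ (fun k => (ψ (z k)).re) = _)
      rw [← inv (fun k => (ψ (z k)).re), h, inv]
    have hint : ∀ j, ∃ m : ℤ, ((rmat P.B)ᵀ *ᵥ fun k => (ψ (z k)).im) j =
        ((rmat P.B)ᵀ *ᵥ fun k => (ψ (z' k)).im) j + m := by
      intro j
      have e3 : pol (P.lift (fun k => ψ (z k)) j) = pol (P.lift (fun k => ψ (z' k)) j) :=
        congrFun heq j
      simp only [pol, Piece.lift] at e3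
      rw [show P.map (fun k => (ψ (z k)).re) j = P.map (fun k => (ψ (z' k)).re) j from hx j,
        mul_right_inj' (by
          rw [Complex.ofReal_ne_zero]
          exact (Real.sqrt_pos.mpr (div_pos (hP _ (hsimp z' hz') j) Real.pi_pos)).ne')] at e3
      obtain ⟨m, hm⟩ := Complex.exp_eq_exp_iff_exists_int.mp e3
      refine ⟨m, ?_⟩
      have := congrArg Complex.im hm
      simp at this
      nlinarith [Real.pi_pos]
    choose m hm using hint
    have invT : ∀ q : Fin n → ℝ, (rmat P.A)ᵀ *ᵥ ((rmat P.B)ᵀ *ᵥ q) = q := fun q => by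
      rw [Matrix.mulVec_mulVec, ← Matrix.transpose_mul, ← rmat_mul, P.hBA, rmat_one,
        Matrix.transpose_one, Matrix.one_mulVec]
    have hq : ∀ k, (ψ (z k)).im = (ψ (z' k)).im + ((P.Aᵀ *ᵥ m) k : ℤ) := by
      intro k
      have h : (rmat P.A)ᵀ *ᵥ ((rmat P.B)ᵀ *ᵥ fun k => (ψ (z k)).im) =
          (rmat P.A)ᵀ *ᵥ (((rmat P.B)ᵀ *ᵥ fun k => (ψ (z' k)).im) + fun j => (m j : ℝ)) :=
        congrArg _ (funext hm)
      rw [Matrix.mulVec_add, invT, invT] at h
      have h' := congrFun h k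
      simp only [Pi.add_apply] at h'
      rw [h']
      simp [Matrix.mulVec, dotProduct, rmat]
    funext k
    apply hinj (hmem z hz k) (hmem z' hz' k)
    apply Complex.ext (congrFun hre k)
    have b1 := abs_lt.mp (hprop _ (hmem z hz k)).2.2.1
    have b2 := abs_lt.mp (hprop _ (hmem z' hz' k)).2.2.1
    have h := hq k
    have hlo : (-1 : ℝ) < ((P.Aᵀ *ᵥ m) k : ℤ) := by linarith
    have hhi : (((P.Aᵀ *ᵥ m) k : ℤ) : ℝ) < 1 := by linarith
    norm_cast at hlo hhi
    rw [show (P.Aᵀ *ᵥ m) k = 0 by omega] at h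
    simpa using h
  · exact norm_sq_pol (hP _ (hsimp z hz) j).le

/-- Packing by pieces. -/
theorem hasBallPacking_of_pieces {k : ℕ} {R : ℝ} {r : Fin k → ℝ} (P : Fin k → Piece n)
    (s : Fin k → ℝ) (hr : ∀ i, 0 < r i) (hrs : ∀ i, r i < s i)
    (hpos : ∀ i, ∀ p ∈ simplex n (s i), ∀ j, 0 < (P i).map p j)
    (hsum : ∀ i, ∀ p ∈ simplex n (s i), ∑ j, (P i).map p j < R)
    (hdisj : ∀ i i', i ≠ i' → ∀ p ∈ simplex n (s i), ∀ p' ∈ simplex n (s i'),
      (P i).map p ≠ (P i').map p') :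
    HasBallPacking n R r := by
  choose f U hU hemb hf using fun i => exists_toric_embedding (P i) (hr i) (hrs i) (hpos i)
  refine ⟨f, fun i => ⟨U i, hU i, hemb i⟩, fun i => ?_, fun i i' hii' => ?_⟩
  · rintro _ ⟨z, hz, rfl⟩
    obtain ⟨p, hp, hpe⟩ := hf i z (hU i hz)
    show Real.pi * ∑ j, ‖f i z j‖ ^ 2 < R
    rw [Finset.mul_sum, Finset.sum_congr rfl fun j _ => hpe j]
    exact hsum i p hp
  · show Disjoint (f i '' closedCapBall n (r i)) (f i' '' closedCapBall n (r i'))
    rw [Set.disjoint_left]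
    rintro _ ⟨z, hz, rfl⟩ ⟨z', hz', heq⟩
    obtain ⟨p, hp, hpe⟩ := hf i z (hU i hz)
    obtain ⟨p', hp', hpe'⟩ := hf i' z' (hU i' hz')
    refine hdisj i i' hii' p hp p' hp' (funext fun j => ?_)
    rw [← hpe j, ← hpe' j, heq]

end

end Vale.Agent.P209
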