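import Vale.Agent.P209.Scatter

/-!
# Slots in products of corner blocks

The separating coordinates are split into `P` blocks of eight; in block `p` a ball in slot `l` sits
at corner `l / 2 ^ p % 8`, so that two balls in slots at distance at least four are separated in
some block, whatever the two scales of that block are.
-/

namespace Vale.Agent.P209

open scoped ContDiff

noncomputable section

lemma sum_bump_range {N : ℕ} {t : ℝ} (h0 : 0 ≤ t) (h1 : t ≤ N) :
    ∑ l ∈ Finset.range (N + 1), bump l t = 1 := by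
  have e : ∀ l : ℕ, bump l t = (fun i : ℕ => Real.smoothTransition (t - i + 1)) l -
      (fun i : ℕ => Real.smoothTransition (t - i + 1)) (l + 1) := by
    intro l; simp only [bump]; congr 2; push_cast; ring
  rw [Finset.sum_congr rfl fun l _ => e l, Finset.sum_range_sub',
    Real.smoothTransition.one_of_one_le (by simp; linarith),
    Real.smoothTransition.zero_of_nonpos (by push_cast; linarith), sub_zero]

/-- Weight of corner `e` of block `p` at slot parameter `t`. -/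
def code (N p : ℕ) (e : Fin 8) (t : ℝ) : ℝ :=
  ∑ l ∈ (Finset.range (N + 1)).filter (fun l => l / 2 ^ p % 8 = (e : ℕ)), bump l t

lemma code_nonneg (N p : ℕ) (e : Fin 8) (t : ℝ) : 0 ≤ code N p e t :=
  Finset.sum_nonneg fun l _ => bump_nonneg l t

lemma sum_code {N : ℕ} (p : ℕ) {t : ℝ} (h0 : 0 ≤ t) (h1 : t ≤ N) :
    ∑ e : Fin 8, code N p e t = 1 := by
  rw [← sum_bump_range h0 h1, ← Finset.sum_fiberwise_of_maps_to
    (s := Finset.range (N + 1)) (t := (Finset.univ : Finset (Fin 8)))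
    (g := fun l => (⟨l / 2 ^ p % 8, Nat.mod_lt _ (by norm_num)⟩ : Fin 8)) (fun _ _ => Finset.mem_univ _)]
  refine Finset.sum_congr rfl fun e _ => Finset.sum_congr ?_ fun _ _ => rfl
  ext l; simp [Fin.ext_iff]

lemma contDiff_code (N p : ℕ) (e : Fin 8) : ContDiff ℝ ∞ (code N p e) :=
  ContDiff.sum fun l _ => contDiff_bump l

/-- Two slot parameters at distance four have disjoint corners in some block. -/
lemma code_separated {N P : ℕ} (hN : N < 2 ^ P) {t t' : ℝ} (h0 : 0 ≤ t) (h : t + 4 ≤ t')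
    (h1 : t' ≤ N) : ∃ p < P, ∀ e, code N p e t = 0 ∨ code N p e t' = 0 := by
  have hf : ⌊t⌋₊ + 4 ≤ ⌊t'⌋₊ := by
    refine Nat.le_floor ?_
    push_cast
    linarith [Nat.floor_le h0]
  have hfN : ⌊t'⌋₊ ≤ N := Nat.floor_le_of_le h1
  obtain ⟨D, hD⟩ : ∃ D, ⌊t'⌋₊ = ⌊t⌋₊ + D := ⟨⌊t'⌋₊ - ⌊t⌋₊, by omega⟩
  have hD3 : 1 ≤ D / 3 := (Nat.le_div_iff_mul_le (by norm_num)).2 (by omega)
  obtain ⟨p, hp⟩ : ∃ p, p = Nat.log 2 (D / 3) := ⟨_, rfl⟩
  have hp1 : 3 * 2 ^ p ≤ D := by
    have := Nat.pow_log_le_self 2 (show D / 3 ≠ 0 by omega)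
    rw [← hp] at this
    omega
  have hp2 : D < 6 * 2 ^ p := by
    have := Nat.lt_pow_succ_log_self (show 1 < 2 by norm_num) (D / 3)
    rw [← hp, Nat.succ_eq_add_one, pow_succ] at this
    omega
  refine ⟨p, ?_, fun e => ?_⟩
  · by_contra hge
    have := Nat.pow_le_pow_right (show 0 < 2 by norm_num) (not_lt.1 hge)
    omega
  rw [or_iff_not_imp_left]
  intro hne
  obtain ⟨l, hl, hbl⟩ := Finset.exists_ne_zero_of_sum_ne_zero hne
  refine Finset.sum_eq_zero fun m hm => ?_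
  by_contra hbm
  simp only [Finset.mem_filter, Finset.mem_range] at hl hm
  have near : ∀ {l : ℕ} {s : ℝ}, 0 ≤ s → bump l s ≠ 0 → ⌊s⌋₊ ≤ l ∧ l ≤ ⌊s⌋₊ + 1 := by
    intro l s hs hb
    have a1 : (l : ℝ) - 1 < s := lt_of_not_ge fun h => hb (bump_eq_zero (Or.inl h))
    have a2 : s < (l : ℝ) + 1 := lt_of_not_ge fun h => hb (bump_eq_zero (Or.inr h))
    constructor
    · exact Nat.lt_succ_iff.1 ((Nat.floor_lt hs).2 (by push_cast; linarith))
    · have : (l : ℝ) < ((⌊s⌋₊ + 1 + 1 : ℕ) : ℝ) := by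
        push_cast; linarith [Nat.lt_floor_add_one s]
      exact Nat.lt_succ_iff.1 (by exact_mod_cast this)
  have n1 := near h0 hbl
  have n2 := near (by linarith : 0 ≤ t') hbm
  set q := 2 ^ p
  have hq : 0 < q := Nat.two_pow_pos p
  have low : l / q + 1 ≤ m / q := by
    rw [← Nat.add_div_right _ hq]; exact Nat.div_le_div_right (by omega)
  have high : m / q ≤ l / q + 6 := by
    rw [← Nat.add_mul_div_right _ _ hq]; exact Nat.div_le_div_right (by omega)
  omega

variable {n : ℕ}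

/-- The action coordinates of `z`. -/
def act (z : Fin n → ℂ) (x : Fin n) : ℝ := Real.pi * ‖z x‖ ^ 2

lemma pmask_eq_act {K : Finset (Fin n)} {z : Fin n → ℂ} {x : Fin n} (h : x ∉ K) :
    pmask K z x = act z x := by
  simp [pmask, act, h]

/-- The first shear of one ball. -/
lemma scatter_base {a L : ℕ} (hL : 0 < L) (iA : Fin a ↪ Fin n) {x0 : Fin n}
    {KA KB : Finset (Fin n)} (hKA : KA = KBᶜ) (hAmem : ∀ j, iA j ∈ KA) (hx0 : x0 ∈ KA)
    (hA0 : ∀ j, iA j ≠ x0) {R w s ρ δ : ℝ} (hR : 0 < R) (hsi : 0 < s) (hδ0 : 0 < δ)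
    (hδn : ρ + n * δ < min s w) {ψ : ℂ → ℂ}
    (hψ : ContDiffOn ℝ ∞ ψ (Metric.ball 0 (Real.sqrt (ρ / Real.pi))))
    (hinj : Set.InjOn ψ (Metric.ball 0 (Real.sqrt (ρ / Real.pi))))
    (hprop : ∀ z ∈ Metric.ball (0 : ℂ) (Real.sqrt (ρ / Real.pi)),
      (∀ e f, areaForm (fderiv ℝ ψ z e) (fderiv ℝ ψ z f) = areaForm e f) ∧
        0 < (ψ z).re ∧ |(ψ z).im| < 1 / 2 ∧ (ψ z).re ≤ Real.pi * ‖z‖ ^ 2 + δ)
    (c : Fin a → ℕ) (hcs : ∑ j, (c j : ℝ) * R / L = R - s) (h2s : 2 * s ≤ R) :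
    ∃ f : (Fin n → ℂ) → (Fin n → ℂ), IsSymplecticEmbeddingOn f (openCapBall n ρ) ∧
      ∀ z ∈ openCapBall n ρ, (∀ x ∈ KB, f z x ∈ Metric.ball (0 : ℂ) (Real.sqrt (ρ / Real.pi))) ∧
        ∑ x ∈ KA, act (f z) x + 2 * ∑ x ∈ KB, (act (f z) x + δ) < R ∧
        (act (f z) x0 < w ∧ act (f z) x0 ≤ act z x0 + δ) ∧ 0 < ∑ x ∈ KA, act (f z) x ∧
        cut L iA KA c (act (f z)) = 1 := by
  have hKAo : ∀ x, x ∈ KB ↔ x ∉ KA := fun x => by simp [hKA]
  set D := Metric.ball (0 : ℂ) (Real.sqrt (ρ / Real.pi))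
  set U0 := openCapBall n ρ
  have hU0 : IsOpen U0 := isOpen_lt (by fun_prop) continuous_const
  set h1 := shift1 KB iA R s δ L c with hh1
  refine ⟨shear ψ KA h1, ?_⟩
  have base : ∀ z ∈ U0, z ∈ shearDomain ψ KA h1 D Set.univ ∧
      (∀ x ∈ KB, shear ψ KA h1 z x ∈ D) ∧
      ∑ x ∈ KA, act (shear ψ KA h1 z) x +
        2 * ∑ x ∈ KB, (act (shear ψ KA h1 z) x + δ) < R ∧
      (act (shear ψ KA h1 z) x0 < w ∧ act (shear ψ KA h1 z) x0 ≤ act z x0 + δ) ∧
      0 < ∑ x ∈ KA, act (shear ψ KA h1 z) x ∧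
      cut L iA KA c (act (shear ψ KA h1 z)) = 1 := by
    intro z hz
    have hmemD : ∀ x, z x ∈ D := by
      intro x
      rw [mem_ball_zero_iff, Real.lt_sqrt (norm_nonneg _), lt_div_iff₀ Real.pi_pos]
      have h := Finset.single_le_sum (fun k _ => sq_nonneg ‖z k‖) (Finset.mem_univ x)
      have h' : Real.pi * ∑ k, ‖z k‖ ^ 2 < ρ := hz
      nlinarith [mul_le_mul_of_nonneg_left h Real.pi_pos.le]
    have hball : ∑ x, act z x < ρ := by
      simpa [act, Finset.mul_sum] using (show _ < ρ from hz)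
    have hPnn : ∀ y x, 0 ≤ act (n := n) y x := fun y x => by unfold act; positivity
    have hδm := min_le_left s w
    set p1 := fun x => (ψ (z x)).re with hp1
    have hp1a : ∀ x, 0 < p1 x ∧ p1 x ≤ act z x + δ := fun x =>
      ⟨(hprop _ (hmemD x)).2.1, (hprop _ (hmemD x)).2.2.2⟩
    have hmask : ∑ x ∈ KB, (pmask KA z x + δ) = ∑ x ∈ KB, (act z x + δ) :=
      Finset.sum_congr rfl fun x hx => by rw [pmask_eq_act ((hKAo x).1 hx)]
    set v := s - ∑ x ∈ KB, (act z x + δ) with hv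
    have hA1 : ∑ x ∈ KA, p1 x < v := by
      have e1 : ∑ x ∈ KA, p1 x ≤ ∑ x ∈ KA, (act z x + δ) :=
        Finset.sum_le_sum fun x _ => (hp1a x).2
      have e2 := Finset.sum_compl_add_sum (KB) (fun x => act z x + δ)
      have e3 : ∑ x, (act z x + δ) = ∑ x, act z x + n * δ := by simp [Finset.sum_add_distrib]
      rw [← hKA] at e2
      linarith
    have hApos : 0 < ∑ x ∈ KA, p1 x := Finset.sum_pos (fun x _ => (hp1a x).1) ⟨x0, hx0⟩
    have hv0 : 0 < v := hApos.trans hA1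
    have hvs : v ≤ s := by
      have : 0 ≤ ∑ x ∈ KB, (act z x + δ) :=
        Finset.sum_nonneg fun x _ => add_nonneg (hPnn z x) hδ0.le
      linarith
    set g : Fin a → ℝ := fun l => (c l : ℝ) * R / L * (v / s) with hg
    have hg0 : ∀ l, 0 ≤ g l := fun l => by positivity
    have hh : h1 (pmask KA z) = ∑ l, g l • (Pi.single (iA l) 1 : Fin n → ℝ) := by
      simp only [hh1, shift1, hmask, hg, ← hv]
    have hd1 : z ∈ shearDomain ψ KA h1 D Set.univ :=
      ⟨fun x _ => hmemD x, trivial, fun x _ => by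
        rw [hh]; exact add_pos_of_pos_of_nonneg (hp1a x).1 (sum_smul_single_nonneg _ hg0 x)⟩
    have hyA : ∀ x ∈ KA, act (shear ψ KA h1 z) x = p1 x + h1 (pmask KA z) x := fun x hx =>
      shear_in hx (hd1.2.2 x hx).le
    have hyB : ∀ x ∈ KB, act (shear ψ KA h1 z) x = act z x := fun x hx => by
      simp only [act, shear_out ((hKAo x).1 hx)]
    have hsumg : ∑ l, g l = (R - s) * (v / s) := by rw [← hcs, hg, Finset.sum_mul]
    set X := ∑ x ∈ KA, act (shear ψ KA h1 z) x with hX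
    have hXe : X = ∑ x ∈ KA, p1 x + ∑ l, g l := by
      rw [hX, Finset.sum_congr rfl hyA, Finset.sum_add_distrib, hh,
        sum_smul_single_sum iA g hAmem]
    have hXpos : 0 < X := by
      rw [hXe]; exact add_pos_of_pos_of_nonneg hApos (Finset.sum_nonneg fun l _ => hg0 l)
    have hXlt : X < R * (v / s) := by
      rw [hXe, hsumg, sub_mul, mul_div_cancel₀ _ hsi.ne']; linarith
    refine ⟨hd1, fun x hx => ?_, ?_, ?_, hXpos, ?_⟩
    · rw [mem_ball_zero_iff, shear_out ((hKAo x).1 hx), ← mem_ball_zero_iff]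
      exact hmemD x
    · rw [Finset.sum_congr rfl fun x hx => by rw [hyB x hx],
        show ∑ x ∈ KB, (act z x + δ) = s - v by rw [hv]; ring]
      have h3 : v / s ≤ 1 := (div_le_one hsi).2 hvs
      have e : R * (v / s) + 2 * (s - v) - R = (R - 2 * s) * (v / s - 1) := by
        field_simp; ring
      nlinarith [mul_nonneg (sub_nonneg.2 h2s) (sub_nonneg.2 h3)]
    · rw [hyA x0 hx0, hh, Finset.sum_apply, Finset.sum_eq_zero fun l _ => by
        simp [Pi.single_apply, Ne.symm (hA0 l)], add_zero]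
      have : act z x0 ≤ ∑ x, act z x :=
        Finset.single_le_sum (fun x _ => hPnn z x) (Finset.mem_univ _)
      have := min_le_right s w
      have hup := (hp1a x0).2
      have : (1:ℝ) ≤ n := by exact_mod_cast (Fin.pos x0)
      exact ⟨by nlinarith, hup⟩
    · refine Finset.prod_eq_one fun l _ => Real.smoothTransition.one_of_one_le ?_
      rw [hyA _ (hAmem l), hh, sum_smul_single_apply]
      have hle : (c l : ℝ) ≤ L * (p1 (iA l) + g l) / X := by
        rw [le_div_iff₀ hXpos]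
        have hL' : (0:ℝ) < L := by exact_mod_cast hL
        have e : (L:ℝ) * g l = c l * (R * (v / s)) := by simp only [hg]; field_simp
        have := mul_le_mul_of_nonneg_left hXlt.le (Nat.cast_nonneg (α := ℝ) (c l))
        nlinarith [(hp1a (iA l)).1]
      nlinarith [mul_nonneg (sub_nonneg.2 hle) (by positivity : (0:ℝ) ≤ a + 1)]
  have hc1 : ContDiffOn ℝ ∞ h1 Set.univ := by
    refine ContDiff.contDiffOn (contDiff_pi.2 fun x => ?_)
    simp only [hh1, shift1, Finset.sum_apply, Pi.smul_apply, smul_eq_mul]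
    refine ContDiff.sum fun j _ => ContDiff.mul ?_ contDiff_const
    exact contDiff_const.mul ((contDiff_const.sub
      (ContDiff.sum fun x _ => (contDiff_apply ℝ ℝ x).add contDiff_const)).div_const _)
  have s1 := isSymp_shear (n := n) (K := KA) Metric.isOpen_ball hψ
    (fun y hy => (hprop y hy).1) isOpen_univ hc1
  refine ⟨⟨hU0, s1.1.mono fun z hz => (base z hz).1, fun z hz z' hz' he =>
    injOn_shear hinj (fun y hy => (hprop y hy).2.2.1) (base z hz).1 (base z' hz').1 he,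
    fun z hz => s1.2 z (base z hz).1⟩, fun z hz => ?_⟩
  exact (base z hz).2

/-- One block of slots. -/
lemma scatter_step {N j : ℕ} {KA pre K post : Finset (Fin n)}
    (iK : Fin 8 ↪ Fin n) (hK : K = Finset.univ.map iK)
    (hpre : pre = (K ∪ post)ᶜ) (hdis : Disjoint K post) (hKA : ∀ x ∈ KA, x ∉ K)
    {R ρ δ : ℝ} (hδ0 : 0 < δ) {ψ : ℂ → ℂ}
    (hψ : ContDiffOn ℝ ∞ ψ (Metric.ball 0 (Real.sqrt (ρ / Real.pi))))
    (hinj : Set.InjOn ψ (Metric.ball 0 (Real.sqrt (ρ / Real.pi))))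
    (hprop : ∀ z ∈ Metric.ball (0 : ℂ) (Real.sqrt (ρ / Real.pi)),
      (∀ e f, areaForm (fderiv ℝ ψ z e) (fderiv ℝ ψ z f) = areaForm e f) ∧
        0 < (ψ z).re ∧ |(ψ z).im| < 1 / 2 ∧ (ψ z).re ≤ Real.pi * ‖z‖ ^ 2 + δ)
    (T : (Fin n → ℝ) → ℝ) (hTs : ContDiffOn ℝ ∞ T {p | 0 < ∑ x ∈ KA, p x})
    (hTloc : ∀ p p', (∀ x ∈ KA, p x = p' x) → T p = T p')
    (hTb : ∀ p : Fin n → ℝ, (∀ x ∈ KA, 0 ≤ p x) → 0 < ∑ x ∈ KA, p x → 0 ≤ T p ∧ T p ≤ N)
    {U0 : Set (Fin n → ℂ)} (f : (Fin n → ℂ) → (Fin n → ℂ)) (hf : IsSymplecticEmbeddingOn f U0)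
    (hD : ∀ z ∈ U0, ∀ x ∈ K, f z x ∈ Metric.ball (0 : ℂ) (Real.sqrt (ρ / Real.pi)))
    (hroom : ∀ z ∈ U0, ∑ x ∈ pre, act (f z) x + 2 * (∑ x ∈ K, (act (f z) x + δ) +
      ∑ x ∈ post, (act (f z) x + δ)) < R)
    (hpos : ∀ z ∈ U0, 0 < ∑ x ∈ KA, act (f z) x) :
    ∃ g : (Fin n → ℂ) → (Fin n → ℂ), IsSymplecticEmbeddingOn g U0 ∧ ∀ z ∈ U0,
      (∀ x ∉ K, ‖g z x‖ = ‖f z x‖) ∧
      ∑ x ∈ postᶜ, act (g z) x + 2 * ∑ x ∈ post, (act (g z) x + δ) < R ∧
      ∃ U : ℝ, ∑ e, act (g z) (iK e) < 2 * U ∧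
        ∀ e, U * code N j e (T (act (g z))) ≤ act (g z) (iK e) := by
  have hiK : ∀ e, iK e ∈ K := fun e => hK ▸ Finset.mem_map_of_mem _ (Finset.mem_univ e)
  set D := Metric.ball (0 : ℂ) (Real.sqrt (ρ / Real.pi))
  let Uof : (Fin n → ℝ) → ℝ := fun p => (R - ∑ x ∈ pre, p x) / 2 - ∑ x ∈ post, (p x + δ)
  set h := fun p : Fin n → ℝ =>
    ∑ e, (Uof p * code N j e (T p)) • (Pi.single (iK e) 1 : Fin n → ℝ) with hh
  set V : Set (Fin n → ℝ) := {p | 0 < ∑ x ∈ KA, p x}
  have hVo : IsOpen V := isOpen_lt continuous_const (by fun_prop)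
  have hproj : ∀ x, ContDiff ℝ ∞ (fun p : Fin n → ℝ => p x) := fun x => contDiff_apply ℝ ℝ x
  have hcV : ContDiffOn ℝ ∞ h V := by
    refine contDiffOn_pi.2 fun x => ?_
    simp only [hh, Finset.sum_apply, Pi.smul_apply, smul_eq_mul]
    refine ContDiffOn.sum fun e _ => ContDiffOn.mul ?_ contDiffOn_const
    refine ContDiffOn.mul (ContDiff.contDiffOn ?_) ((contDiff_code N j e).comp_contDiffOn hTs)
    exact ((contDiff_const.sub (ContDiff.sum fun x _ => hproj x)).div_const _).sub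
      (ContDiff.sum fun x _ => (hproj x).add contDiff_const)
  have hnot1 : ∀ x ∈ post, x ∉ K := fun x hx h' => Finset.disjoint_left.1 hdis h' hx
  have hnot0 : ∀ x ∈ pre, x ∉ K := fun x hx h' => by
    rw [hpre] at hx
    exact Finset.mem_compl.1 hx (Finset.mem_union_left _ h')
  refine ⟨fun z => shear ψ K h (f z), ?_⟩
  have step : ∀ z ∈ U0, f z ∈ shearDomain ψ K h D V ∧
      ((∀ x ∉ K, ‖shear ψ K h (f z) x‖ = ‖f z x‖) ∧
      ∑ x ∈ postᶜ, act (shear ψ K h (f z)) x + 2 * ∑ x ∈ post, (act (shear ψ K h (f z)) x + δ) < R ∧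
      ∃ U : ℝ, ∑ e, act (shear ψ K h (f z)) (iK e) < 2 * U ∧
        ∀ e, U * code N j e (T (act (shear ψ K h (f z)))) ≤ act (shear ψ K h (f z)) (iK e)) := by
    intro z hz
    have hy := hroom z hz
    have hbD := hD z hz
    have hp4 := hpos z hz
    set y := f z
    set C := ∑ x ∈ post, (act y x + δ) with hC
    set B := ∑ x ∈ K, (act y x + δ) with hB
    set A := ∑ x ∈ pre, act y x with hAdef
    have hTe : T (pmask K y) = T (act y) := hTloc _ _ fun x hx => pmask_eq_act (hKA x hx)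
    have hUe : Uof (pmask K y) = (R - A) / 2 - C := by
      simp only [Uof]
      rw [Finset.sum_congr (s₁ := pre) rfl fun x hx => pmask_eq_act (hnot0 x hx),
        Finset.sum_congr (s₁ := post) rfl fun x hx => by rw [pmask_eq_act (hnot1 x hx)]]
    set U := (R - A) / 2 - C with hU
    have hBU : B < U := by rw [hU]; linarith
    have hann : ∀ x, 0 ≤ act y x := fun x => by unfold act; positivity
    have hB0 : 0 ≤ B := Finset.sum_nonneg fun x _ => add_nonneg (hann x) hδ0.le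
    obtain ⟨ht0, ht1⟩ := hTb (act y) (fun x _ => hann x) hp4
    set g : Fin 8 → ℝ := fun e => U * code N j e (T (act y)) with hg
    have hg0 : ∀ e, 0 ≤ g e := fun e => mul_nonneg (by linarith) (code_nonneg _ _ _ _)
    have hhe : h (pmask K y) = ∑ e, g e • (Pi.single (iK e) 1 : Fin n → ℝ) := by
      simp only [hh, hUe, hTe, hg]
    have hd : y ∈ shearDomain ψ K h D V := by
      refine ⟨hbD, ?_, fun x hx => ?_⟩
      · show 0 < ∑ x ∈ KA, pmask K y x
        rw [Finset.sum_congr rfl fun x hx => pmask_eq_act (hKA x hx)]; exact hp4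
      · rw [hhe]
        exact add_pos_of_pos_of_nonneg (hprop _ (hbD x hx)).2.1 (sum_smul_single_nonneg _ hg0 x)
    set q := shear ψ K h y
    have hqo : ∀ x, x ∉ K → act q x = act y x := fun x hx => by
      simp only [act, q, shear_out hx]
    have hqi : ∀ x ∈ K, act q x = (ψ (y x)).re + h (pmask K y) x := fun x hx =>
      shear_in hx (hd.2.2 x hx).le
    have hqsum : ∑ x ∈ K, act q x ≤ B + U := by
      rw [Finset.sum_congr rfl hqi, Finset.sum_add_distrib, hhe,
        sum_smul_single_sum iK g hiK]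
      refine add_le_add (Finset.sum_le_sum fun x hx => (hprop _ (hbD x hx)).2.2.2) ?_
      simp only [hg, ← Finset.mul_sum, sum_code j ht0 ht1, mul_one, le_refl]
    have hTq : T (act q) = T (act y) := hTloc _ _ fun x hx => hqo x (hKA x hx)
    refine ⟨hd, fun x hx => shear_out hx, ?_, U, ?_, fun e => ?_⟩
    · have hc' : postᶜ = pre ∪ K := by
        ext x
        simp only [Finset.mem_union, Finset.mem_compl, hpre]
        have := fun h' => hnot1 x h'
        tauto
      rw [hc', Finset.sum_union (Finset.disjoint_left.2 hnot0),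
        Finset.sum_congr rfl fun x hx => hqo x (hnot0 x hx),
        Finset.sum_congr (s₁ := post) rfl fun x hx => by rw [hqo x (hnot1 x hx)]]
      linarith
    · calc ∑ e, act q (iK e) = ∑ x ∈ K, act q x := by rw [hK, Finset.sum_map]
        _ ≤ B + U := hqsum
        _ < 2 * U := by linarith
    · rw [hTq, hqi _ (hiK e), hhe, sum_smul_single_apply]
      exact le_add_of_nonneg_left (hprop _ (hbD _ (hiK e))).2.1.le
  have s2 := isSymp_shear (n := n) (K := K) Metric.isOpen_ball hψ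
    (fun y hy => (hprop y hy).1) hVo hcV
  have hopen := isOpen_shearDomain (n := n) (K := K) Metric.isOpen_ball hψ hVo hcV
  have s3 := IsSymp.comp hf.1 hopen s2 ⟨hf.2.1, hf.2.2.2⟩ fun z hz => (step z hz).1
  exact ⟨⟨hf.1, s3.1, fun z hz z' hz' he => hf.2.2.1 hz hz' (injOn_shear hinj
      (fun y hy => (hprop y hy).2.2.1) (step z hz).1 (step z' hz').1 he), s3.2⟩,
    fun z hz => (step z hz).2⟩

theorem scatter_embeddings'' (n a M P L : ℕ) (hn : n = 1 + a + 8 * P) (hMP : 4 * M + 2 ≤ 2 ^ P)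
    (hL : 0 < L) {k : ℕ} (R w η : ℝ) (hR : 0 < R) (hη : 0 < η) (r : Fin k → ℝ) (hr : ∀ i, 0 < r i)
    (m : Fin k → ℕ) (hrs : ∀ i, r i < (m i : ℝ) * R / L) (hrw : ∀ i, r i < w)
    (hm2 : ∀ i, 2 * m i ≤ L) (c : Fin k → Fin a → ℕ) (hc : ∀ i, ∑ j, c i j + m i = L)
    (hmult : ∀ T : Fin a → ℕ, ∑ j, T j ≤ L →
      (Finset.univ.filter fun i => ∀ j, c i j ≤ T j).card ≤ M) :
    ∃ f : Fin k → (Fin n → ℂ) → (Fin n → ℂ),
      (∀ i, ∃ U, closedCapBall n (r i) ⊆ U ∧ IsSymplecticEmbeddingOn (f i) U) ∧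
      (∀ i, f i '' closedCapBall n (r i) ⊆
        openCapBall n R ∩ {z | Real.pi * ‖z ⟨0, by omega⟩‖ ^ 2 < w}) ∧
      (∀ i, ∀ z ∈ closedCapBall n (r i),
        Real.pi * ‖f i z ⟨0, by omega⟩‖ ^ 2 < Real.pi * ‖z ⟨0, by omega⟩‖ ^ 2 + η) ∧
      Pairwise fun i i' => Disjoint (f i '' closedCapBall n (r i)) (f i' '' closedCapBall n (r i')) := by
  classical
  let iA : Fin a ↪ Fin n := ⟨fun j => ⟨1 + j, by omega⟩, fun x y h => by simpa [Fin.ext_iff] using h⟩
  let iB : Fin P × Fin 8 ↪ Fin n :=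
    ⟨fun q => ⟨1 + a + 8 * q.1 + q.2, by omega⟩, fun x y h => by
      have h' := congrArg Fin.val h
      change 1 + a + 8 * (x.1 : ℕ) + x.2 = 1 + a + 8 * (y.1 : ℕ) + y.2 at h'
      exact Prod.ext (Fin.ext (by omega)) (Fin.ext (by omega))⟩
  let rest : ℕ → Finset (Fin n) := fun j =>
    (Finset.univ.filter fun q : Fin P × Fin 8 => j ≤ (q.1 : ℕ)).map iB
  let blk : ℕ → Finset (Fin n) := fun j =>
    (Finset.univ.filter fun q : Fin P × Fin 8 => j = (q.1 : ℕ)).map iB
  have hsplit : ∀ j, rest j = blk j ∪ rest (j + 1) ∧ Disjoint (blk j) (rest (j + 1)) := fun j => by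
    constructor
    · simp only [rest, blk, ← Finset.map_union, ← Finset.filter_or]
      congr 1; ext q; simp; omega
    · simp only [rest, blk, Finset.disjoint_map, Finset.disjoint_filter]
      intro q _ h; omega
  set KA := (rest 0)ᶜ with hKA
  let x0 : Fin n := ⟨0, by omega⟩
  have hout : ∀ (x : Fin n), (x : ℕ) < 1 + a → ∀ j, x ∉ rest j := fun x hx j h => by
    obtain ⟨q, -, hq⟩ := Finset.mem_map.1 h
    have h' := congrArg Fin.val hq
    change 1 + a + 8 * (q.1 : ℕ) + q.2 = x at h'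
    omega
  have hAmem : ∀ j, iA j ∈ KA := fun j =>
    Finset.mem_compl.2 (hout _ (show 1 + (j : ℕ) < 1 + a by omega) 0)
  have hx0 : x0 ∈ KA := Finset.mem_compl.2 (hout _ (show 0 < 1 + a by omega) 0)
  have hA0 : ∀ j, iA j ≠ x0 := fun j h => by
    have h' := congrArg Fin.val h
    change 1 + (j : ℕ) = 0 at h'
    omega
  have hKAj : ∀ j, ∀ x ∈ KA, x ∉ blk j ∧ x ∉ rest j := fun j x hx => by
    have h0 : x ∉ rest 0 := Finset.mem_compl.1 hx
    exact ⟨fun h => h0 (Finset.map_subset_map.2 (fun q hq => by simp) h),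
      fun h => h0 (Finset.map_subset_map.2 (fun q hq => by simp) h)⟩
  set N := 4 * M + 1 with hN
  set T : Fin k → (Fin n → ℝ) → ℝ := fun i p => 2 * slotPos L iA KA c i p with hT
  have hTb : ∀ i (p : Fin n → ℝ), (∀ x ∈ KA, 0 ≤ p x) → 0 < ∑ x ∈ KA, p x →
      0 ≤ T i p ∧ T i p ≤ N := fun i p hp hX => by
    refine ⟨mul_nonneg zero_le_two slotPos_nonneg, ?_⟩
    have := slotPos_le hAmem (i := i) hmult hp hX
    simp only [hT, hN]; push_cast at this ⊢; linarith
  have hblk : ∀ j (hj : j < P), blk j = Finset.univ.map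
      ⟨fun e => iB (⟨j, hj⟩, e), fun x y h => by simpa using iB.injective h⟩ := by
    intro j hj
    ext x
    simp only [blk, Finset.mem_map, Finset.mem_filter, Finset.mem_univ, true_and]
    constructor
    · rintro ⟨⟨p, e⟩, hp, rfl⟩
      subst hp
      exact ⟨e, rfl⟩
    · rintro ⟨e, rfl⟩; exact ⟨_, rfl, rfl⟩
  have hcloc : ∀ (d : Fin a → ℕ) (p p' : Fin n → ℝ), (∀ x ∈ KA, p x = p' x) →
      cut L iA KA d p = cut L iA KA d p' := fun d p p' h => by
    unfold cut
    rw [Finset.sum_congr rfl h]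
    exact Finset.prod_congr rfl fun l _ => by rw [h _ (hAmem l)]
  have hTloc : ∀ i (p p' : Fin n → ℝ), (∀ x ∈ KA, p x = p' x) → T i p = T i p' := fun i p p' h => by
    simp only [hT, slotPos]
    rw [Finset.sum_congr rfl fun j _ => hcloc (c j) p p' h]
  have hTs : ∀ i, ContDiffOn ℝ ∞ (T i) {p | 0 < ∑ x ∈ KA, p x} := fun i => by
    refine contDiffOn_const.mul (contDiffOn_const.mul (ContDiffOn.sum fun l _ => ?_))
    refine contDiffOn_prod fun l' _ => Real.smoothTransition.contDiff.comp_contDiffOn ?_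
    exact ((((contDiff_const.mul (contDiff_apply ℝ ℝ _)).contDiffOn.div
      (ContDiff.sum fun x _ => contDiff_apply ℝ ℝ x).contDiffOn
      fun p hp => ne_of_gt hp).sub contDiffOn_const).mul contDiffOn_const).add contDiffOn_const
  -- one ball
  have ball : ∀ i, ∃ (ρ : ℝ) (f : (Fin n → ℂ) → (Fin n → ℂ)), r i < ρ ∧
      IsSymplecticEmbeddingOn f (openCapBall n ρ) ∧ ∀ z ∈ openCapBall n ρ,
        ∑ x, act (f z) x < R ∧ (act (f z) x0 < w ∧ act (f z) x0 < act z x0 + η) ∧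
        0 < ∑ x ∈ KA, act (f z) x ∧
        cut L iA KA (c i) (act (f z)) = 1 ∧
        ∀ p : Fin P, ∃ U : ℝ, ∑ e, act (f z) (iB (p, e)) < 2 * U ∧
          ∀ e, U * code N p e (T i (act (f z))) ≤ act (f z) (iB (p, e)) := by
    intro i
    set s := (m i : ℝ) * R / L with hs
    set ρ := (r i + min s w) / 2 with hρ
    have hρ1 : r i < ρ := by have := lt_min (hrs i) (hrw i); linarith
    have hρ2 : ρ < min s w := by have := lt_min (hrs i) (hrw i); linarith
    set δ := min ((min s w - ρ) / (n + 1)) (η / 2) with hδ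
    have hδ0 : 0 < δ := lt_min (div_pos (by linarith) (by positivity)) (by linarith)
    have hδη : δ < η := lt_of_le_of_lt (min_le_right _ _) (by linarith)
    have hδn : ρ + n * δ < min s w := by
      have : (n + 1 : ℝ) * δ ≤ min s w - ρ := by
        rw [← le_div_iff₀' (by positivity)]; exact min_le_left _ _
      nlinarith
    have hsi : 0 < s := (hr i).trans (hrs i)
    obtain ⟨ψ, hψ, hinj, hprop⟩ :=
      exists_disc_map (Real.sqrt_pos.mpr (div_pos ((hr i).trans hρ1) Real.pi_pos)) hδ0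
    set D := Metric.ball (0 : ℂ) (Real.sqrt (ρ / Real.pi))
    set U0 := openCapBall n ρ
    refine ⟨ρ, ?_⟩
    have hcs : ∑ j, (c i j : ℝ) * R / L = R - s := by
      have : (∑ j, (c i j : ℝ)) + m i = L := by exact_mod_cast hc i
      have hL' : (0:ℝ) < L := by exact_mod_cast hL
      rw [← Finset.sum_div, ← Finset.sum_mul, show ∑ j, (c i j : ℝ) = L - m i by linarith, hs]
      field_simp
    have h2s : 2 * s ≤ R := by
      have : (2 * m i : ℝ) ≤ L := by exact_mod_cast hm2 i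
      rw [hs, ← mul_div_assoc, div_le_iff₀ (by exact_mod_cast hL)]
      nlinarith
    have main : ∀ j ≤ P, ∃ f : (Fin n → ℂ) → (Fin n → ℂ), IsSymplecticEmbeddingOn f U0 ∧
        ∀ z ∈ U0, (∀ x ∈ rest j, f z x ∈ D) ∧
          ∑ x ∈ (rest j)ᶜ, act (f z) x + 2 * ∑ x ∈ rest j, (act (f z) x + δ) < R ∧
          (act (f z) x0 < w ∧ act (f z) x0 ≤ act z x0 + δ) ∧ 0 < ∑ x ∈ KA, act (f z) x ∧
          cut L iA KA (c i) (act (f z)) = 1 ∧
          ∀ p : Fin P, (p : ℕ) < j → ∃ U : ℝ, ∑ e, act (f z) (iB (p, e)) < 2 * U ∧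
            ∀ e, U * code N p e (T i (act (f z))) ≤ act (f z) (iB (p, e)) := by
      intro j
      induction j with
      | zero =>
        intro _
        obtain ⟨f, hf, hb⟩ := scatter_base hL iA hKA hAmem hx0 hA0 hR hsi hδ0 hδn hψ hinj hprop
          (c i) hcs h2s
        refine ⟨f, hf, fun z hz => ?_⟩
        obtain ⟨b1, b2, b3, b4, b5⟩ := hb z hz
        exact ⟨b1, b2, b3, b4, b5, fun p hp => absurd hp (Nat.not_lt_zero _)⟩
      | succ j ih =>
        intro hj
        obtain ⟨f, hf, hinv⟩ := ih (by omega)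
        obtain ⟨g, hg, hgp⟩ := scatter_step (j := j) (N := N)
          ⟨fun e => iB (⟨j, by omega⟩, e), fun x y h => by simpa using iB.injective h⟩
          (hblk j (by omega)) (congrArg _ (hsplit j).1) (hsplit j).2 (fun x hx => (hKAj j x hx).1)
          hδ0 hψ hinj hprop (T i) (hTs i) (hTloc i) (hTb i) f hf
          (fun z hz x hx => (hinv z hz).1 x (by rw [(hsplit j).1]; exact Finset.mem_union_left _ hx))
          (fun z hz => by
            have := (hinv z hz).2.1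
            rw [show ∑ x ∈ rest j, (act (f z) x + δ) = ∑ x ∈ blk j, (act (f z) x + δ) +
                ∑ x ∈ rest (j + 1), (act (f z) x + δ) by
              rw [(hsplit j).1, Finset.sum_union (hsplit j).2]] at this
            exact this)
          (fun z hz => (hinv z hz).2.2.2.1)
        refine ⟨g, hg, fun z hz => ?_⟩
        obtain ⟨i1, i2, i3, i4, i5, i6⟩ := hinv z hz
        obtain ⟨g1, g2, U, g3, g4⟩ := hgp z hz
        have hq : ∀ x, x ∉ blk j → act (g z) x = act (f z) x := fun x hx => by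
          simp only [act, g1 x hx]
        have hqA : ∀ x ∈ KA, act (g z) x = act (f z) x := fun x hx => hq x (hKAj j x hx).1
        refine ⟨fun x hx => ?_, g2, ?_, ?_, ?_, fun p hp => ?_⟩
        · rw [mem_ball_zero_iff, g1 x fun h' => Finset.disjoint_left.1 (hsplit j).2 h' hx,
            ← mem_ball_zero_iff]
          exact i1 x (by rw [(hsplit j).1]; exact Finset.mem_union_right _ hx)
        · rw [hqA x0 hx0]; exact i3
        · rw [Finset.sum_congr rfl hqA]; exact i4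
        · rw [hcloc (c i) _ _ hqA]; exact i5
        · rcases Nat.lt_succ_iff_lt_or_eq.1 hp with hp | hp
          · obtain ⟨U', hU1, hU2⟩ := i6 p hp
            have hne : ∀ e, iB (p, e) ∉ blk j := fun e h' => by
              obtain ⟨q', hq', he⟩ := Finset.mem_map.1 h'
              have h2 : q' = (p, e) := iB.injective he
              have h3 := (Finset.mem_filter.1 hq').2
              rw [h2] at h3
              exact absurd h3 (Nat.ne_of_gt hp)
            refine ⟨U', ?_, fun e => ?_⟩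
            · rw [Finset.sum_congr rfl fun e _ => hq _ (hne e)]; exact hU1
            · rw [hTloc i _ _ hqA, hq _ (hne e)]; exact hU2 e
          · subst hp
            exact ⟨U, g3, g4⟩
    obtain ⟨f, hf, hinv⟩ := main P le_rfl
    refine ⟨f, hρ1, hf, fun z hz => ?_⟩
    obtain ⟨-, i2, i3, i4, i5, i6⟩ := hinv z hz
    have he : rest P = ∅ := by simp [rest]
    rw [he] at i2
    exact ⟨by simpa using i2, ⟨i3.1, i3.2.trans_lt (by linarith)⟩, i4, i5, fun p => i6 p p.isLt⟩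
  choose ρ f hρ hf hinv using ball
  refine ⟨f, fun i => ⟨_, fun z hz => lt_of_le_of_lt (show _ ≤ r i from hz) (hρ i), hf i⟩,
    fun i => ?_, fun i z hz => (hinv i z (lt_of_le_of_lt (show _ ≤ r i from hz) (hρ i))).2.1.2, ?_⟩
  · rintro _ ⟨z, hz, rfl⟩
    obtain ⟨h1, h2, -⟩ := hinv i z (lt_of_le_of_lt (show _ ≤ r i from hz) (hρ i))
    exact ⟨by simpa [openCapBall, act, Finset.mul_sum] using h1, h2.1⟩
  · have main : ∀ i i', i < i' →
        Disjoint (f i '' closedCapBall n (r i)) (f i' '' closedCapBall n (r i')) := by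
      intro i i' hii
      rw [Set.disjoint_left]
      rintro _ ⟨z, hz, rfl⟩ ⟨z', hz', he⟩
      obtain ⟨-, -, hA, hcut, hU⟩ := hinv i z (lt_of_le_of_lt (show _ ≤ r i from hz) (hρ i))
      obtain ⟨-, -, -, -, hU'⟩ := hinv i' z' (lt_of_le_of_lt (show _ ≤ r i' from hz') (hρ i'))
      rw [he] at hU'
      set q := act (f i z)
      have hnn : ∀ x ∈ KA, 0 ≤ q x := fun x _ => by simp only [q, act]; positivity
      have hgap : T i q + 4 ≤ T i' q := by
        have := slotPos_gap hii (iA := iA) hcut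
        simp only [hT]; linarith
      obtain ⟨p, hp, hsep⟩ := code_separated (show N < 2 ^ P by omega) (hTb i q hnn hA).1 hgap
        (hTb i' q hnn hA).2
      obtain ⟨U, hU1, hU2⟩ := hU ⟨p, hp⟩
      obtain ⟨U', hU1', hU2'⟩ := hU' ⟨p, hp⟩
      have key : ∀ e, U * code N p e (T i q) + U' * code N p e (T i' q) ≤ q (iB (⟨p, hp⟩, e)) :=
        fun e => by
          rcases hsep e with h0 | h0
          · rw [h0, mul_zero, zero_add]; exact hU2' e
          · rw [h0, mul_zero, add_zero]; exact hU2 e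
      have := Finset.sum_le_sum fun e (_ : e ∈ Finset.univ) => key e
      rw [Finset.sum_add_distrib, ← Finset.mul_sum, ← Finset.mul_sum,
        sum_code p (hTb i q hnn hA).1 (hTb i q hnn hA |>.2),
        sum_code p (hTb i' q hnn hA).1 (hTb i' q hnn hA).2] at this
      linarith
    intro i i' hne
    rcases lt_or_gt_of_ne hne with h | h
    · exact main i i' h
    · exact (main i' i h).symm

theorem scatter_embeddings' (n a M P L : ℕ) (hn : n = 1 + a + 8 * P) (hMP : 4 * M + 2 ≤ 2 ^ P)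
    (hL : 0 < L) {k : ℕ} (R w : ℝ) (hR : 0 < R) (r : Fin k → ℝ) (hr : ∀ i, 0 < r i)
    (m : Fin k → ℕ) (hrs : ∀ i, r i < (m i : ℝ) * R / L) (hrw : ∀ i, r i < w)
    (hm2 : ∀ i, 2 * m i ≤ L) (c : Fin k → Fin a → ℕ) (hc : ∀ i, ∑ j, c i j + m i = L)
    (hmult : ∀ T : Fin a → ℕ, ∑ j, T j ≤ L →
      (Finset.univ.filter fun i => ∀ j, c i j ≤ T j).card ≤ M) :
    ∃ f : Fin k → (Fin n → ℂ) → (Fin n → ℂ),
      (∀ i, ∃ U, closedCapBall n (r i) ⊆ U ∧ IsSymplecticEmbeddingOn (f i) U) ∧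
      (∀ i, f i '' closedCapBall n (r i) ⊆
        openCapBall n R ∩ {z | Real.pi * ‖z ⟨0, by omega⟩‖ ^ 2 < w}) ∧
      Pairwise fun i i' => Disjoint (f i '' closedCapBall n (r i)) (f i' '' closedCapBall n (r i')) := by
  obtain ⟨f, h1, h2, -, h3⟩ := scatter_embeddings'' n a M P L hn hMP hL R w 1 hR one_pos r hr m hrs
    hrw hm2 c hc hmult
  exact ⟨f, h1, h2, h3⟩

end

end Vale.Agent.P209
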