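import Vale.Agent.P209.Weights
import Vale.Agent.P209.Containers
import Vale.Agent.P209.Scatter2
import Vale.Agent.P209.Toric
import Mathlib.Data.Nat.Log
import Mathlib.Analysis.Complex.ExponentialBounds
import Mathlib.Analysis.Real.Sqrt

/-!
# Packings in high dimension

For `n ≥ 400` the pair condition and `n ^ (40 (log₂ n + 1)) * ∑ R_i ^ n ≤ R ^ n` give a packing, so the
pair condition and the volume condition are asymptotically sharp in capacity.
-/

namespace Vale.Agent.P209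

open scoped ContDiff

namespace LogLoss

section sizes

variable {n : ℕ}

lemma sizes_ineq (hn : 400 ≤ n) : 8 ≤ Nat.log 2 n ∧ n < 2 ^ (Nat.log 2 n + 1) ∧
    16 * Nat.log 2 n + 130 ≤ n := by
  have h1 : 8 ≤ Nat.log 2 n := Nat.le_log_of_pow_le (by norm_num) (by omega)
  have h2 := Nat.pow_log_le_self 2 (show n ≠ 0 by omega)
  refine ⟨h1, Nat.lt_pow_succ_log_self (by norm_num) n, ?_⟩
  generalize Nat.log 2 n = l at h1 h2 ⊢
  rcases eq_or_lt_of_le h1 with h | h
  · omega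
  · refine le_trans ?_ h2
    clear h2 h1
    induction l, h using Nat.le_induction with
    | base => norm_num
    | succ l hl ih => rw [pow_succ]; omega

/-- An estimate `x ≤ y / n ^ q` from `x ≤ n ^ p * y / n ^ (p + q)`. -/
lemma le_of_pow_mul (hn : 1 ≤ n) {x y : ℝ} (hy : 0 ≤ y) {p q t : ℕ} (hpq : p + q ≤ t)
    (hx : x * (n : ℝ) ^ t ≤ (n : ℝ) ^ p * y) : x ≤ y / (n : ℝ) ^ q := by
  have hn' : (1 : ℝ) ≤ n := by exact_mod_cast hn
  rw [le_div_iff₀ (by positivity)]
  refine le_of_mul_le_mul_left ?_ (show (0 : ℝ) < (n : ℝ) ^ p by positivity)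
  rcases le_or_gt x 0 with hx0 | hx0
  · have h0 : (n : ℝ) ^ p * (x * (n : ℝ) ^ q) ≤ 0 :=
      mul_nonpos_of_nonneg_of_nonpos (by positivity)
        (mul_nonpos_of_nonpos_of_nonneg hx0 (by positivity))
    exact h0.trans (mul_nonneg (by positivity) hy)
  · refine le_trans ?_ hx
    calc (n : ℝ) ^ p * (x * (n : ℝ) ^ q) = x * (n : ℝ) ^ (p + q) := by rw [pow_add]; ring
      _ ≤ x * (n : ℝ) ^ t := by gcongr

end sizes

lemma sum_subtype_le_univ {ι : Type*} [Fintype ι] (p : ι → Prop) [DecidablePred p] (f : ι → ℝ)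
    (hf : ∀ i, 0 ≤ f i) : ∑ i : {i // p i}, f i ≤ ∑ i, f i := by
  rw [← Finset.sum_subtype (Finset.univ.filter p) (fun x => by simp) f]
  exact Finset.sum_le_univ_sum_of_nonneg hf

/-- Probability bound for one ball. -/
lemma prob_le {n a : ℕ} (hn : 100 ≤ n) (han : a + 1 ≤ n) {R r : ℝ} (hR : 0 < R)
    (hlow : R / (n : ℝ) ^ 3 ≤ r) :
    20 * ((2 * n ^ 6 : ℕ) : ℝ) * ((a : ℝ) + 1) *
        (((⌊((2 * n ^ 6 : ℕ) : ℝ) * r / R⌋₊ + 1 : ℕ) : ℝ) / (2 * n ^ 6 : ℕ)) ^ a ≤
      (n : ℝ) ^ 8 * (r / R) ^ a := by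
  have hn' : (100 : ℝ) ≤ n := by exact_mod_cast (by omega : 100 ≤ n)
  have hr : 0 ≤ r / R := div_nonneg (le_trans (by positivity) hlow) hR.le
  set L : ℕ := 2 * n ^ 6 with hL
  have hL' : (L : ℝ) = 2 * (n : ℝ) ^ 6 := by rw [hL]; push_cast; ring
  have hL0 : (0 : ℝ) < L := by rw [hL']; positivity
  have hrat : 1 / (n : ℝ) ^ 3 ≤ r / R := by
    rw [le_div_iff₀ hR, div_mul_eq_mul_div, one_mul]
    exact hlow
  have h1 : (((⌊(L : ℝ) * r / R⌋₊ + 1 : ℕ) : ℝ) / L) ≤
      r / R * (1 + 1 / (2 * (n : ℝ) ^ 3)) := by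
    push_cast
    rw [div_le_iff₀ hL0]
    have hfl := Nat.floor_le (show 0 ≤ (L : ℝ) * r / R by rw [mul_div_assoc]; positivity)
    have h2 : 1 ≤ r / R * (1 / (2 * (n : ℝ) ^ 3)) * L := by
      rw [hL']
      calc (1 : ℝ) = 1 / (n : ℝ) ^ 3 * (n : ℝ) ^ 3 := by field_simp
        _ ≤ r / R * (n : ℝ) ^ 3 := by gcongr
        _ = _ := by field_simp
    have h3 : (L : ℝ) * r / R = r / R * L := by ring
    nlinarith
  have h4 : (1 + 1 / (2 * (n : ℝ) ^ 3)) ^ a ≤ 2 := by
    calc (1 + 1 / (2 * (n : ℝ) ^ 3)) ^ a ≤ Real.exp (1 / (2 * (n : ℝ) ^ 3)) ^ a := by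
          gcongr
          rw [add_comm]
          exact Real.add_one_le_exp _
      _ = Real.exp ((a : ℝ) * (1 / (2 * (n : ℝ) ^ 3))) := (Real.exp_nat_mul _ _).symm
      _ ≤ Real.exp (1 / 2) := by
          refine Real.exp_le_exp.2 ?_
          have ha : (a : ℝ) ≤ n := by exact_mod_cast (by omega : a ≤ n)
          have : (n : ℝ) ≤ (n : ℝ) ^ 3 := le_self_pow₀ (by linarith) (by norm_num)
          rw [mul_one_div, div_le_iff₀ (by positivity)]
          linarith
      _ ≤ 2 := by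
          have := Real.exp_one_lt_d9
          have h := (Real.exp_add (1 / 2) (1 / 2)).symm
          norm_num at h
          nlinarith [Real.exp_pos ((1 : ℝ) / 2)]
  have ha1 : (a : ℝ) + 1 ≤ n := by exact_mod_cast han
  calc 20 * (L : ℝ) * ((a : ℝ) + 1) * (((⌊(L : ℝ) * r / R⌋₊ + 1 : ℕ) : ℝ) / L) ^ a
      ≤ 20 * (L : ℝ) * (n : ℝ) * (r / R * (1 + 1 / (2 * (n : ℝ) ^ 3))) ^ a := by gcongr
    _ = 20 * (L : ℝ) * (n : ℝ) * ((r / R) ^ a * (1 + 1 / (2 * (n : ℝ) ^ 3)) ^ a) := by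
        rw [mul_pow]
    _ ≤ 20 * (L : ℝ) * (n : ℝ) * ((r / R) ^ a * 2) := by gcongr
    _ = 80 * ((n : ℝ) ^ 7 * (r / R) ^ a) := by rw [hL']; ring
    _ ≤ (n : ℝ) * ((n : ℝ) ^ 7 * (r / R) ^ a) := by gcongr; linarith
    _ = _ := by ring

/-- Composition of symplectic embeddings of balls. -/
lemma emb_nest {n : ℕ} {φ g : (Fin n → ℂ) → (Fin n → ℂ)} {r S : ℝ}
    (hφ : ∃ U, closedCapBall n r ⊆ U ∧ IsSymplecticEmbeddingOn φ U)
    (hin : φ '' closedCapBall n r ⊆ openCapBall n S)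
    (hg : ∃ V, closedCapBall n S ⊆ V ∧ IsSymplecticEmbeddingOn g V) :
    ∃ W, closedCapBall n r ⊆ W ∧ IsSymplecticEmbeddingOn (g ∘ φ) W := by
  obtain ⟨U, hU, hUo, h1, h2, h3⟩ := hφ
  obtain ⟨V, hV, hVo, g1, g2, g3⟩ := hg
  have hW : IsOpen (U ∩ φ ⁻¹' V) := h1.continuousOn.isOpen_inter_preimage hUo hVo
  have hmaps : Set.MapsTo φ (U ∩ φ ⁻¹' V) V := fun z hz => hz.2
  have hc := IsSymp.comp hW hVo (g := g) ⟨g1, g3⟩
    ⟨h1.mono Set.inter_subset_left, fun z hz => h3 z hz.1⟩ hmaps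
  exact ⟨U ∩ φ ⁻¹' V, fun z hz => ⟨hU hz, hV (Set.mem_ofPred.2
    (le_of_lt (hin ⟨z, hz, rfl⟩)))⟩, hW, hc.1,
    g2.comp (h2.mono Set.inter_subset_left) hmaps, hc.2⟩

open Classical in
/-- Balls of at most half the size, with actions in the first coordinate below `w`. -/
lemma pack_rest (n : ℕ) (hn : 400 ≤ n) {ι : Type} [Fintype ι] (R w : ℝ) (hR : 0 < R)
    (hS : R / (n : ℝ) ^ 2 < w) (r : ι → ℝ) (hr : ∀ i, 0 < r i) (hrw : ∀ i, r i < w)
    (hhalf : ∀ i, r i < R / 2)
    (hvol : (n : ℝ) ^ (40 * (Nat.log 2 n + 1)) * ∑ i, r i ^ n ≤ R ^ n) :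
    ∃ f : ι → (Fin n → ℂ) → (Fin n → ℂ),
      (∀ i, ∃ U, closedCapBall n (r i) ⊆ U ∧ IsSymplecticEmbeddingOn (f i) U) ∧
      (∀ i, f i '' closedCapBall n (r i) ⊆
        openCapBall n R ∩ {z | Real.pi * ‖z ⟨0, by omega⟩‖ ^ 2 < w}) ∧
      Pairwise fun i i' => Disjoint (f i '' closedCapBall n (r i)) (f i' '' closedCapBall n (r i')) := by
  obtain ⟨hl8, hnl, hln⟩ := sizes_ineq hn
  set l := Nat.log 2 n with hl
  set M := 7 * n with hM
  set P := l + 6 with hP
  set a := n - 1 - 8 * P with ha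
  set L := 2 * n ^ 6 with hL
  have hn1 : (1 : ℝ) ≤ n := by exact_mod_cast (by omega : 1 ≤ n)
  have hn0 : (0 : ℝ) < n := by linarith
  have hna : n = 1 + a + 8 * P := by omega
  have hMP : 4 * M + 2 ≤ 2 ^ P := by
    rw [hP, show l + 6 = (l + 1) + 5 by ring, pow_add]
    omega
  set S := R / (n : ℝ) ^ 2 with hSdef
  have hS0 : 0 < S := by positivity
  have hSn : S / (n : ℝ) = R / (n : ℝ) ^ 3 := by rw [hSdef, div_div]; ring_nf
  -- the small balls go to containers
  obtain ⟨N, q, φ, hN, hφ, hφin, hφd⟩ := exists_containers n (by omega)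
    (ι := {i // r i < S / n}) S hS0 (fun i => r i) (fun i => hr i) fun i => i.2
  let e := Fintype.equivFin ({i // ¬ r i < S / n} ⊕ Fin N)
  let sz : {i // ¬ r i < S / n} ⊕ Fin N → ℝ := Sum.elim (fun i => r i) fun _ => S
  have hsz : ∀ x, R / (n : ℝ) ^ 3 ≤ sz x ∧ sz x < w ∧ sz x < R / 2 := by
    rintro (⟨i, hi⟩ | j)
    · exact ⟨by simpa [sz, hSn] using not_lt.1 hi, hrw i, hhalf i⟩
    · refine ⟨hSn ▸ div_le_self hS0.le hn1, hS, ?_⟩
      show R / (n : ℝ) ^ 2 < R / 2
      refine div_lt_div_of_pos_left hR two_pos ?_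
      have : (100 : ℝ) ≤ n := by exact_mod_cast (by omega : 100 ≤ n)
      nlinarith
  have hszpos : ∀ x, 0 < sz x := fun x => lt_of_lt_of_le (by positivity) (hsz x).1
  let m : {i // ¬ r i < S / n} ⊕ Fin N → ℕ := fun x => ⌊((L : ℕ) : ℝ) * sz x / R⌋₊ + 1
  have hL0 : 0 < L := by
    have : 0 < n ^ 6 := Nat.pow_pos (by omega)
    omega
  have hLR : (L : ℝ) = 2 * (n : ℝ) ^ 6 := by rw [hL]; push_cast; ring
  have hm1 : ∀ x, sz x < (m x : ℝ) * R / L := by
    intro x
    rw [lt_div_iff₀ (by exact_mod_cast hL0)]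
    have h := Nat.lt_floor_add_one ((L : ℝ) * sz x / R)
    rw [div_lt_iff₀ hR] at h
    simp only [m]
    push_cast
    linarith
  have hm2 : ∀ x, 2 * m x ≤ L := by
    intro x
    have h : ⌊(L : ℝ) * sz x / R⌋₊ < n ^ 6 := by
      rw [Nat.floor_lt (div_nonneg (mul_nonneg (Nat.cast_nonneg _) (hszpos x).le) hR.le),
        div_lt_iff₀ hR, hLR]
      have := (hsz x).2.2
      have h6 : (0 : ℝ) < (n : ℝ) ^ 6 := by positivity
      push_cast
      nlinarith
    simp only [m]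
    omega
  have hm3 : ∀ x, a * a ≤ m x := by
    intro x
    refine le_trans (Nat.mul_le_mul (show a ≤ n by omega) (show a ≤ n by omega)) ?_
    refine le_trans ?_ (Nat.le_succ _)
    rw [Nat.le_floor_iff (div_nonneg (mul_nonneg (Nat.cast_nonneg _) (hszpos x).le) hR.le)]
    push_cast
    rw [le_div_iff₀ hR, hLR]
    have h1 := (hsz x).1
    rw [div_le_iff₀ (by positivity)] at h1
    calc (n : ℝ) * n * R ≤ (n : ℝ) * n * (sz x * (n : ℝ) ^ 3) := by gcongr
      _ = (n : ℝ) ^ 5 * sz x := by ring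
      _ ≤ 2 * (n : ℝ) ^ 6 * sz x := by
          have hx := hszpos x
          gcongr
          calc (n : ℝ) ^ 5 ≤ (n : ℝ) ^ 6 := pow_le_pow_right₀ hn1 (by norm_num)
            _ ≤ 2 * (n : ℝ) ^ 6 := by linarith [pow_pos hn0 6]
  have h4aL : 4 * (a * a) ≤ L := by
    have h : a * a ≤ n * n := Nat.mul_le_mul (by omega) (by omega)
    calc 4 * (a * a) ≤ n * (n * n) := Nat.mul_le_mul (by omega) h
      _ = n ^ 3 := by ring
      _ ≤ n ^ 6 := Nat.pow_le_pow_right (by omega) (by norm_num)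
      _ ≤ L := by omega
  choose Z wt hZ hwt0 hwt1 hwtp using fun x =>
    exists_weights a (m x) L (by omega) (hm3 x) (hm2 x) h4aL
  let T : Finset (Fin a → ℕ) :=
    (Fintype.piFinset fun _ : Fin a => Finset.range (L + 1)).filter fun T => ∑ j, T j ≤ L
  have hTc : (T.card : ℝ) ≤ (n : ℝ) ^ (7 * n) := by
    have h1 : T.card ≤ (n ^ 7) ^ n := by
      refine (Finset.card_filter_le _ _).trans ?_
      simp only [Fintype.card_piFinset, Finset.card_range, Finset.prod_const, Finset.card_univ,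
        Fintype.card_fin]
      refine le_trans (Nat.pow_le_pow_left ?_ a) (Nat.pow_le_pow_right (Nat.pow_pos (by omega))
        (by omega))
      calc L + 1 ≤ 3 * n ^ 6 := by
            have : 0 < n ^ 6 := Nat.pow_pos (by omega)
            omega
        _ ≤ n * n ^ 6 := Nat.mul_le_mul_right _ (by omega)
        _ = n ^ 7 := by ring
    rw [← pow_mul] at h1
    exact_mod_cast h1
  set μ : ℝ := 1 / (n : ℝ) ^ 2 with hμ
  have hμsum : ∑ x, 20 * (L : ℝ) * ((a : ℝ) + 1) * ((m x : ℝ) / L) ^ a ≤ μ := by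
    have hb : ∀ x, 20 * (L : ℝ) * ((a : ℝ) + 1) * ((m x : ℝ) / L) ^ a ≤
        (n : ℝ) ^ 8 * (sz x / R) ^ a := fun x => prob_le (by omega) (by omega) hR (hsz x).1
    refine (Finset.sum_le_sum fun x _ => hb x).trans ?_
    rw [← Finset.mul_sum, Fintype.sum_sum_type]
    simp only [sz, Sum.elim_inl, Sum.elim_inr, Finset.sum_const, Finset.card_univ,
      Fintype.card_fin, nsmul_eq_mul]
    set V := ∑ i, (r i / R) ^ n with hV
    have hV0 : 0 ≤ V := Finset.sum_nonneg fun i _ => pow_nonneg (div_nonneg (hr i).le hR.le) n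
    have hVb : V * (n : ℝ) ^ (40 * (l + 1)) ≤ 1 := by
      simp only [hV, div_pow]
      rw [← Finset.sum_div, div_mul_eq_mul_div, div_le_one (by positivity), mul_comm]
      exact hvol
    have hmed : ∑ i : {i // ¬ r i < S / n}, (r i / R) ^ a ≤ V * (n : ℝ) ^ (3 * (8 * P + 1)) := by
      calc ∑ i : {i // ¬ r i < S / n}, (r i / R) ^ a
          ≤ ∑ i : {i // ¬ r i < S / n}, (r i / R) ^ n * (n : ℝ) ^ (3 * (8 * P + 1)) := by
            refine Finset.sum_le_sum fun i _ => ?_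
            have hi : 1 / (n : ℝ) ^ 3 ≤ r i / R := by
              rw [le_div_iff₀ hR, div_mul_eq_mul_div, one_mul, ← hSn]
              exact not_lt.1 i.2
            have e1 : (r i / R) ^ n = (r i / R) ^ a * (r i / R) ^ (8 * P + 1) := by
              rw [← pow_add]; congr 1; omega
            have h2 : (1 / (n : ℝ) ^ 3) ^ (8 * P + 1) ≤ (r i / R) ^ (8 * P + 1) := by gcongr
            rw [one_div, inv_pow, ← pow_mul, inv_le_iff_one_le_mul₀ (by positivity)] at h2
            rw [e1, mul_assoc]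
            exact le_mul_of_one_le_right (pow_nonneg (div_nonneg (hr i).le hR.le) a) h2
        _ ≤ _ := by
            rw [← Finset.sum_mul]
            gcongr
            exact sum_subtype_le_univ _ (fun i => (r i / R) ^ n)
              fun i => pow_nonneg (div_nonneg (hr i).le hR.le) n
    have hcont : (N : ℝ) * (S / R) ^ a ≤
        3 * V * (n : ℝ) ^ (2 * (8 * P + 1)) + n / (n : ℝ) ^ (2 * a) := by
      have e1 : S / R = 1 / (n : ℝ) ^ 2 := by rw [hSdef]; field_simp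
      have h1 : ∑ i : {i // r i < S / n}, (r i / S) ^ n ≤ V * (n : ℝ) ^ (2 * n) := by
        have e2 : ∀ i : ι, (r i / S) ^ n = (r i / R) ^ n * (n : ℝ) ^ (2 * n) := fun i => by
          rw [pow_mul, ← mul_pow]; congr 1; rw [hSdef]; field_simp
        simp only [e2]
        rw [← Finset.sum_mul]
        gcongr
        exact sum_subtype_le_univ _ (fun i => (r i / R) ^ n)
          fun i => pow_nonneg (div_nonneg (hr i).le hR.le) n
      have e3 : (n : ℝ) ^ (2 * n) = (n : ℝ) ^ (2 * a) * (n : ℝ) ^ (2 * (8 * P + 1)) := by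
        rw [← pow_add]; congr 1; omega
      rw [e1, one_div, inv_pow, ← pow_mul, ← div_eq_mul_inv]
      calc (N : ℝ) / (n : ℝ) ^ (2 * a)
          ≤ (3 * (V * (n : ℝ) ^ (2 * n)) + n) / (n : ℝ) ^ (2 * a) := by
            gcongr
            linarith
        _ = _ := by rw [e3]; field_simp
    have g1 : (n : ℝ) ^ 8 * (V * (n : ℝ) ^ (3 * (8 * P + 1))) ≤ 1 / (n : ℝ) ^ 3 := by
      refine le_of_pow_mul (t := 40 * (l + 1)) (p := 8 + 3 * (8 * P + 1)) (by omega) zero_le_one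
        (by omega) ?_
      calc _ = (n : ℝ) ^ (8 + 3 * (8 * P + 1)) * (V * (n : ℝ) ^ (40 * (l + 1))) := by rw [pow_add]; ring
        _ ≤ _ := by gcongr
    have g2 : (n : ℝ) ^ 8 * (3 * V * (n : ℝ) ^ (2 * (8 * P + 1))) ≤
        1 / (n : ℝ) ^ 3 := by
      refine le_of_pow_mul (t := 40 * (l + 1)) (p := 8 + 2 * (8 * P + 1) + 1) (by omega) zero_le_one
        (by omega) ?_
      calc _ = (n : ℝ) ^ (8 + 2 * (8 * P + 1)) * (3 * (V * (n : ℝ) ^ (40 * (l + 1)))) := by
            rw [pow_add]; ring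
        _ ≤ (n : ℝ) ^ (8 + 2 * (8 * P + 1)) * ((n : ℝ) * 1) := by
            gcongr
            exact_mod_cast (by omega : 3 ≤ n)
        _ = _ := by rw [pow_succ]; ring
    have g3 : (n : ℝ) ^ 8 * ((n : ℝ) / (n : ℝ) ^ (2 * a)) ≤ 1 / (n : ℝ) ^ 3 := by
      refine le_of_pow_mul (t := 2 * a) (p := 9) (by omega) zero_le_one (by omega) ?_
      refine le_of_eq ?_
      field_simp
    calc (n : ℝ) ^ 8 * (∑ i : {i // ¬ r i < S / n}, (r i / R) ^ a + (N : ℝ) * (S / R) ^ a)
        ≤ (n : ℝ) ^ 8 * (V * (n : ℝ) ^ (3 * (8 * P + 1)) +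
            (3 * V * (n : ℝ) ^ (2 * (8 * P + 1)) + n / (n : ℝ) ^ (2 * a))) := by gcongr
      _ ≤ 3 * (1 / (n : ℝ) ^ 3) := by linarith
      _ ≤ n * (1 / (n : ℝ) ^ 3) := by
          gcongr
          exact_mod_cast (by omega : 3 ≤ n)
      _ = μ := by rw [hμ, show (3 : ℕ) = 2 + 1 from rfl, pow_succ]; field_simp
  have hsmall : (T.card : ℝ) * (Real.exp 1 * μ) ^ (M + 1) < 1 := by
    have he : Real.exp 1 < n := by
      have := Real.exp_one_lt_d9
      have : (100 : ℝ) ≤ n := by exact_mod_cast (by omega : 100 ≤ n)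
      linarith
    have h1 : Real.exp 1 * μ ≤ 1 / (n : ℝ) ^ 1 := by
      calc Real.exp 1 * μ ≤ (n : ℝ) * μ := mul_le_mul_of_nonneg_right he.le (by positivity)
        _ = _ := by rw [hμ, pow_one]; field_simp
    calc (T.card : ℝ) * (Real.exp 1 * μ) ^ (M + 1)
        ≤ (n : ℝ) ^ (7 * n) * (1 / (n : ℝ) ^ 1) ^ (M + 1) := by gcongr
      _ < 1 := by
          rw [one_div, inv_pow, ← pow_mul, ← div_eq_mul_inv, div_lt_one (by positivity)]
          refine pow_lt_pow_right₀ (by exact_mod_cast (by omega : 1 < n)) ?_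
          omega
  obtain ⟨c, hcZ, hcM⟩ := exists_bounded_multiplicity (fun x => Z x) (fun x => wt x)
    (fun x => hwt0 x) (fun x => hwt1 x) T (fun c T => ∀ j, c j ≤ T j)
    (fun x => 20 * (L : ℝ) * ((a : ℝ) + 1) * ((m x : ℝ) / L) ^ a)
    (fun x t ht => le_trans (le_of_eq (by congr!)) (hwtp x t (Finset.mem_filter.1 ht).2)) μ
    (by positivity) (by
      rw [hμ, div_le_one (by positivity)]
      exact one_le_pow₀ hn1) hμsum M hsmall
  obtain ⟨g, hg, hgin, hgd⟩ := scatter_embeddings' n a M P L hna hMP hL0 R w hR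
    (fun y => sz (e.symm y)) (fun y => hszpos _) (fun y => m (e.symm y))
    (fun y => hm1 _) (fun y => (hsz _).2.1) (fun y => hm2 _)
    (fun y => c (e.symm y)) (fun y => hZ _ _ (hcZ _)) fun t ht => by
      have ht' : t ∈ T := Finset.mem_filter.2 ⟨Fintype.mem_piFinset.2 fun j => Finset.mem_range.2
        (Nat.lt_succ_of_le ((Finset.single_le_sum (fun i _ => Nat.zero_le (t i))
          (Finset.mem_univ j)).trans ht)), ht⟩
      refine le_trans (Finset.card_le_card_of_injOn e.symm ?_ e.symm.injective.injOn) (hcM t ht')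
      intro y hy
      simpa using hy
  let cls : ι → {i // ¬ r i < S / n} ⊕ Fin N := fun i =>
    if h : r i < S / n then Sum.inr (q ⟨i, h⟩) else Sum.inl ⟨i, h⟩
  let ψ : ι → (Fin n → ℂ) → (Fin n → ℂ) := fun i => if h : r i < S / n then φ ⟨i, h⟩ else id
  have hψ : ∀ i, (∃ U, closedCapBall n (r i) ⊆ U ∧ IsSymplecticEmbeddingOn (ψ i) U) ∧
      ψ i '' closedCapBall n (r i) ⊆ closedCapBall n (sz (cls i)) := by
    intro i
    by_cases h : r i < S / n
    · simp only [ψ, cls, dif_pos h, sz, Sum.elim_inr]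
      exact ⟨hφ ⟨i, h⟩, fun z hz =>
        le_of_lt (show Real.pi * ∑ j, ‖z j‖ ^ 2 < S from hφin ⟨i, h⟩ hz)⟩
    · simp only [ψ, cls, dif_neg h, sz, Sum.elim_inl, Set.image_id]
      exact ⟨⟨Set.univ, Set.subset_univ _, isOpen_univ, contDiffOn_id, Function.injective_id.injOn,
        fun z _ u v => by simp⟩, subset_rfl⟩
  refine ⟨fun i => g (e (cls i)) ∘ ψ i, fun i => ?_, fun i => ?_, fun i i' hii => ?_⟩
  · obtain ⟨V, hV, hVe⟩ := hg (e (cls i))
    rw [Equiv.symm_apply_apply] at hV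
    by_cases h : r i < S / n
    · simp only [ψ, cls, dif_pos h, sz, Sum.elim_inr] at hV hVe ⊢
      exact emb_nest (hφ ⟨i, h⟩) (hφin ⟨i, h⟩) ⟨V, hV, hVe⟩
    · simp only [ψ, cls, dif_neg h, sz, Sum.elim_inl] at hV hVe ⊢
      exact ⟨V, hV, hVe⟩
  · rw [Set.image_comp]
    refine (Set.image_mono (hψ i).2).trans ?_
    have := hgin (e (cls i))
    rwa [Equiv.symm_apply_apply] at this
  · show Disjoint ((g (e (cls i)) ∘ ψ i) '' _) ((g (e (cls i')) ∘ ψ i') '' _)
    rw [Set.image_comp, Set.image_comp]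
    by_cases hc : cls i = cls i'
    · obtain ⟨V, hV, -, -, hinj, -⟩ := hg (e (cls i'))
      rw [Equiv.symm_apply_apply] at hV
      rw [hc]
      have hsub : ψ i '' closedCapBall n (r i) ⊆ V := (hψ i).2.trans (hc ▸ hV)
      have hsub' : ψ i' '' closedCapBall n (r i') ⊆ V := (hψ i').2.trans hV
      rw [Set.disjoint_left]
      rintro _ ⟨x, hx, rfl⟩ ⟨y, hy, hxy⟩
      refine Set.disjoint_left.1 ?_ hx (hinj (hsub' hy) (hsub hx) hxy ▸ hy)
      by_cases h : r i < S / n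
      · by_cases h' : r i' < S / n
        · simp only [ψ, cls, dif_pos h, dif_pos h'] at hc ⊢
          exact hφd ⟨i, h⟩ ⟨i', h'⟩ (fun e => hii (congrArg Subtype.val e)) (Sum.inr_injective hc)
        · simp [cls, h, h'] at hc
      · by_cases h' : r i' < S / n
        · simp [cls, h, h'] at hc
        · simp [cls, h, h'] at hc
          exact absurd hc hii
    · have h := hgd (e.injective.ne hc)
      simp only [Equiv.symm_apply_apply] at h
      exact h.mono (Set.image_mono (hψ i).2) (Set.image_mono (hψ i').2)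

/-- Conjecture A of Siegel and Yao up to a subexponential factor in volume. -/
theorem largeDimension2 (n : ℕ) (hn : 400 ≤ n) : ∀ (k : ℕ) (R : ℝ) (r : Fin k → ℝ), 0 < R →
    (∀ i, 0 < r i) → (∀ i j, i < j → r i + r j < R) →
    (n : ℝ) ^ (40 * (Nat.log 2 n + 1)) * ∑ i, r i ^ n ≤ R ^ n → HasBallPacking n R r := by
  classical
  intro k R r hR hr hpair hvol
  have hsym : ∀ i j, i ≠ j → r i + r j < R := by
    intro i j hij
    rcases lt_or_gt_of_ne hij with h | h
    · exact hpair i j h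
    · linarith [hpair j i h]
  have hn' : (100 : ℝ) ≤ n := by exact_mod_cast (by omega : 100 ≤ n)
  have hS : R / (n : ℝ) ^ 2 < R := div_lt_self hR (by nlinarith)
  by_cases hbig : ∃ i₀, R / 2 ≤ r i₀
  · obtain ⟨i₀, hi₀⟩ := hbig
    -- the largest ball is well inside
    have hgap : r i₀ + R / (n : ℝ) ^ 2 < R := by
      by_contra hge
      push Not at hge
      have h1 : (n : ℝ) ^ (40 * (Nat.log 2 n + 1)) * r i₀ ^ n ≤ R ^ n := le_trans (by
        gcongr
        exact Finset.single_le_sum (f := fun i => r i ^ n) (fun i _ => pow_nonneg (hr i).le n)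
          (Finset.mem_univ i₀)) hvol
      have h2 : (1 / 2 : ℝ) ≤ (1 + -(1 / (n : ℝ) ^ 2)) ^ n := by
        refine le_trans ?_ (one_add_mul_le_pow (by
          have : 1 / (n : ℝ) ^ 2 ≤ 1 := (div_le_one (by positivity)).2 (by nlinarith)
          linarith) n)
        have : (n : ℝ) * (1 / (n : ℝ) ^ 2) ≤ 1 / 2 := by
          rw [mul_one_div, div_le_iff₀ (by positivity)]; nlinarith
        linarith
      have h4 : R * (1 + -(1 / (n : ℝ) ^ 2)) ≤ r i₀ := by
        rw [mul_add, mul_neg, mul_one_div, mul_one]; linarith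
      have h5 : R ^ n * (1 + -(1 / (n : ℝ) ^ 2)) ^ n ≤ r i₀ ^ n := by
        rw [← mul_pow]
        refine pow_le_pow_left₀ (mul_nonneg hR.le ?_) h4 n
        have : 1 / (n : ℝ) ^ 2 ≤ 1 := (div_le_one (by positivity)).2 (by nlinarith)
        linarith
      have h6 : (n : ℝ) ≤ (n : ℝ) ^ (40 * (Nat.log 2 n + 1)) :=
        le_self_pow₀ (by linarith) (by omega)
      have hRn := pow_pos hR n
      have h7 : R ^ n * (1 / 2) ≤ r i₀ ^ n := le_trans (by gcongr) h5
      have h8 : (100 : ℝ) * (R ^ n * (1 / 2)) ≤ R ^ n :=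
        le_trans (mul_le_mul (hn'.trans h6) h7 (by positivity) (by positivity)) h1
      linarith
    -- the strip below the largest ball
    obtain ⟨w, hw1, hw2, hw3⟩ : ∃ w, R / (n : ℝ) ^ 2 < w ∧ r i₀ + w < R ∧
        ∀ i, i ≠ i₀ → r i < w := by
      obtain ⟨W, hW, hmax⟩ := Finset.exists_max_image
        (insert (R / (n : ℝ) ^ 2) ((Finset.univ.erase i₀).image r)) id ⟨_, Finset.mem_insert_self _ _⟩
      have hWlt : r i₀ + W < R := by
        rcases Finset.mem_insert.1 hW with rfl | hW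
        · exact hgap
        · obtain ⟨i, hi, rfl⟩ := Finset.mem_image.1 hW
          have := hsym i i₀ (Finset.ne_of_mem_erase hi)
          linarith
      refine ⟨(W + (R - r i₀)) / 2, ?_, by linarith, fun i hi => ?_⟩
      · have : R / (n : ℝ) ^ 2 ≤ W := hmax _ (Finset.mem_insert_self _ _)
        linarith
      · have : r i ≤ W := hmax _ (Finset.mem_insert_of_mem
          (Finset.mem_image_of_mem r (Finset.mem_erase.2 ⟨hi, Finset.mem_univ i⟩)))
        linarith
    obtain ⟨f, hf, hfin, hfd⟩ := pack_rest n hn (ι := {i // i ≠ i₀}) R w hR hw1 (fun i => r i)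
      (fun i => hr i) (fun i => hw3 i i.2) (fun i => by
        show r i < R / 2
        have := hsym i i₀ i.2
        linarith) (le_trans (by
        gcongr
        exact sum_subtype_le_univ _ (fun i => r i ^ n) fun i => pow_nonneg (hr i).le n) hvol)
    set j₀ : Fin n := ⟨0, by omega⟩
    obtain ⟨s, hs1, hs2⟩ : ∃ s, r i₀ < s ∧ s + w < R :=
      ⟨(r i₀ + (R - w)) / 2, by linarith, by linarith⟩
    have hw0 : 0 < w := lt_trans (by positivity) hw1
    let P : Piece n := ⟨1, 1, one_mul 1, fun j => if j = j₀ then w else 0⟩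
    have hPmap : ∀ p j, P.map p j = (if j = j₀ then w else 0) + p j := by
      intro p j
      simp [Piece.map, P, rmat_one]
    obtain ⟨g, U, hU, hgemb, hgU⟩ := exists_toric_embedding P (hr i₀) hs1 fun p hp j => by
      rw [hPmap]
      split_ifs <;> linarith [hp.1 j]
    have hbigim : ∀ z ∈ g '' closedCapBall n (r i₀),
        z ∈ openCapBall n R ∧ w < Real.pi * ‖z j₀‖ ^ 2 := by
      rintro _ ⟨z, hz, rfl⟩
      obtain ⟨p, hp, hpe⟩ := hgU z (hU hz)
      refine ⟨?_, ?_⟩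
      · show Real.pi * ∑ j, ‖g z j‖ ^ 2 < R
        rw [Finset.mul_sum, Finset.sum_congr rfl fun j _ => hpe j]
        simp only [hPmap, Finset.sum_add_distrib, Finset.sum_ite_eq', Finset.mem_univ, if_true]
        linarith [hp.2]
      · rw [hpe, hPmap, if_pos rfl]
        linarith [hp.1 j₀]
    refine ⟨fun i => if h : i = i₀ then g else f ⟨i, h⟩, fun i => ?_, fun i => ?_,
      fun i i' hii => ?_⟩
    · by_cases h : i = i₀
      · subst h
        simp only [dif_pos]
        exact ⟨U, hU, hgemb⟩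
      · simp only [dif_neg h]
        exact hf ⟨i, h⟩
    · by_cases h : i = i₀
      · subst h
        simp only [dif_pos]
        exact fun z hz => (hbigim z hz).1
      · simp only [dif_neg h]
        exact (hfin ⟨i, h⟩).trans Set.inter_subset_left
    · by_cases h : i = i₀
      · have h' : i' ≠ i₀ := fun e => hii (h.trans e.symm)
        subst h
        simp only [dif_pos, dif_neg h']
        exact Set.disjoint_left.2 fun z hz hz' => lt_asymm (hbigim z hz).2 ((hfin ⟨i', h'⟩) hz').2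
      · by_cases h' : i' = i₀
        · subst h'
          simp only [dif_pos, dif_neg h]
          exact Set.disjoint_left.2 fun z hz hz' => lt_asymm (hbigim z hz').2 ((hfin ⟨i, h⟩) hz).2
        · simp only [dif_neg h, dif_neg h']
          exact hfd fun e => hii (congrArg Subtype.val e)
  · push Not at hbig
    obtain ⟨f, hf, hfin, hfd⟩ := pack_rest n hn R R hR hS r hr
      (fun i => lt_trans (hbig i) (by linarith)) hbig hvol
    exact ⟨f, hf, fun i => (hfin i).trans Set.inter_subset_left, hfd⟩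

/-- In high dimension the two necessary conditions suffice up to a factor `1 - ε` in capacity. -/
theorem capacity_asymptotic (ε : ℝ) (hε : 0 < ε) (hε1 : ε < 1) : ∃ n₀ : ℕ, ∀ n ≥ n₀,
    ∀ (k : ℕ) (R : ℝ) (r : Fin k → ℝ), 0 < R → (∀ i, 0 < r i) →
      (∀ i j, i < j → r i + r j < R) → ∑ i, r i ^ n < ((1 - ε) * R) ^ n →
        HasBallPacking n R r := by
  obtain ⟨N₀, hN₀⟩ := exists_nat_gt (1440 / ε)
  refine ⟨N₀ ^ 4 + 400, fun n hn k R r hR hr hpair hvol =>
    largeDimension2 n (by omega) k R r hR hr hpair ?_⟩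
  obtain ⟨y, hy0, hy⟩ : ∃ y : ℝ, 0 ≤ y ∧ y ^ 4 = n := ⟨√√(n : ℝ), by positivity, by
    rw [show (4 : ℕ) = 2 * 2 from rfl, pow_mul, Real.sq_sqrt (Real.sqrt_nonneg _),
      Real.sq_sqrt (Nat.cast_nonneg n)]⟩
  have hn0 : (400 : ℝ) ≤ n := by exact_mod_cast (by omega : 400 ≤ n)
  have hy1 : 1 ≤ y := by
    refine le_of_pow_le_pow_left₀ (by norm_num : (4 : ℕ) ≠ 0) hy0 ?_
    rw [hy, one_pow]; linarith
  have hyN : (N₀ : ℝ) ≤ y := by
    refine le_of_pow_le_pow_left₀ (by norm_num : (4 : ℕ) ≠ 0) hy0 ?_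
    rw [hy]
    exact_mod_cast (by omega : N₀ ^ 4 ≤ n)
  have hye : 1440 ≤ ε * y := by
    rw [div_lt_iff₀ hε] at hN₀
    calc (1440 : ℝ) ≤ N₀ * ε := hN₀.le
      _ ≤ y * ε := by gcongr
      _ = _ := mul_comm _ _
  have hlog : Real.log n ≤ 4 * y := by
    rw [← hy, Real.log_pow]
    push_cast
    linarith [Real.log_le_sub_one_of_pos (zero_lt_one.trans_le hy1)]
  have hl2 : ((Nat.log 2 n : ℕ) : ℝ) * (1 / 2) ≤ Real.log n := by
    have h1 : ((2 : ℝ) ^ Nat.log 2 n) ≤ n := by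
      exact_mod_cast Nat.pow_log_le_self 2 (show n ≠ 0 by omega)
    have h2 := Real.log_le_log (by positivity) h1
    rw [Real.log_pow] at h2
    refine le_trans ?_ h2
    gcongr
    have := Real.log_two_gt_d9
    linarith
  have hy3 : y ^ 2 ≤ y ^ 3 := pow_le_pow_right₀ hy1 (by norm_num)
  have hmain : (n : ℝ) ^ (40 * (Nat.log 2 n + 1)) ≤ Real.exp (ε * n) := by
    rw [← Real.exp_log (by positivity : (0 : ℝ) < (n : ℝ) ^ (40 * (Nat.log 2 n + 1))), Real.log_pow]
    refine Real.exp_le_exp.2 ?_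
    push_cast
    have hl0 : 0 ≤ Real.log n := Real.log_nonneg (by linarith)
    calc 40 * (((Nat.log 2 n : ℕ) : ℝ) + 1) * Real.log n ≤ 40 * (9 * y) * (4 * y) := by
          gcongr
          linarith
      _ = 1440 * y ^ 2 := by ring
      _ ≤ 1440 * y ^ 3 := by gcongr
      _ ≤ ε * y * y ^ 3 := by gcongr
      _ = ε * n := by rw [← hy]; ring
  have h1 : (1 - ε) ^ n ≤ Real.exp (-(ε * n)) := by
    rw [show -(ε * n) = (n : ℝ) * -ε by ring, Real.exp_nat_mul]
    exact pow_le_pow_left₀ (by linarith) (by linarith [Real.add_one_le_exp (-ε)]) n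
  calc (n : ℝ) ^ (40 * (Nat.log 2 n + 1)) * ∑ i, r i ^ n
      ≤ Real.exp (ε * n) * ((1 - ε) * R) ^ n := by
        gcongr
        exact Finset.sum_nonneg fun i _ => pow_nonneg (hr i).le n
    _ ≤ Real.exp (ε * n) * (Real.exp (-(ε * n)) * R ^ n) := by rw [mul_pow]; gcongr
    _ = R ^ n := by rw [← mul_assoc, ← Real.exp_add, add_neg_cancel, Real.exp_zero, one_mul]

end LogLoss

end Vale.Agent.P209
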