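import Vale.Agent.P209.Cells
import Vale.Agent.P209.Toric
import Mathlib.Data.Fin.Tuple.Sort
import Mathlib.Algebra.Order.BigOperators.Ring.Finset

/-!
# Grid layers and grouping by size
-/

namespace Vale.Agent.P209

/-- A ball of capacity `q * s` holds `q ^ (n - 1)` balls of capacity below `s` in the layer where
the first action is below `s`. -/
theorem layer_packing (n q : ℕ) (hn : 1 ≤ n) (hq : 1 ≤ q) {ι : Type} [Fintype ι]
    (hcard : Fintype.card ι ≤ q ^ (n - 1)) (s : ℝ) (r : ι → ℝ) (hr : ∀ i, 0 < r i)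
    (hrs : ∀ i, r i < s) :
    ∃ φ : ι → (Fin n → ℂ) → (Fin n → ℂ),
      (∀ i, ∃ U, closedCapBall n (r i) ⊆ U ∧ IsSymplecticEmbeddingOn (φ i) U) ∧
      (∀ i, φ i '' closedCapBall n (r i) ⊆
        openCapBall n ((q : ℝ) * s) ∩ {z | Real.pi * ‖z ⟨0, by omega⟩‖ ^ 2 < s}) ∧
      ∀ i i', i ≠ i' → Disjoint (φ i '' closedCapBall n (r i)) (φ i' '' closedCapBall n (r i')) := by
  classical
  cases isEmpty_or_nonempty ι with
  | inl h => exact ⟨isEmptyElim, isEmptyElim, isEmptyElim, isEmptyElim⟩
  | inr h =>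
    obtain ⟨i₀⟩ := h
    have hs : 0 < s := (hr i₀).trans (hrs i₀)
    obtain ⟨d, rfl⟩ : ∃ d, n = d + 1 := ⟨n - 1, by omega⟩
    obtain ⟨g⟩ : Nonempty (ι ↪ (Fin d → Fin q)) :=
      Function.Embedding.nonempty_of_card_le (by simpa using hcard)
    let a : ι → Fin (d + 1) → Fin q := fun i => Fin.cons ⟨0, hq⟩ (g i)
    have hmap : ∀ i, ∀ p ∈ simplex (d + 1) s, ∀ l, 0 < (cell s 0 (a i)).map p l :=
      fun i p hp l => cell_map_pos le_rfl (a i) hp l
    choose φ U hU hemb hact using fun i =>
      exists_toric_embedding (cell s 0 (a i)) (hr i) (hrs i) (hmap i)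
    refine ⟨φ, fun i => ⟨U i, hU i, hemb i⟩, fun i => ?_, fun i i' hne => ?_⟩
    · rintro _ ⟨z, hz, rfl⟩
      obtain ⟨p, hp, hpe⟩ := hact i z (hU i hz)
      refine ⟨?_, ?_⟩
      · show Real.pi * ∑ j, ‖φ i z j‖ ^ 2 < q * s
        rw [Finset.mul_sum]
        simp only [hpe]
        linarith [(cell_sum_bounds (τ := 0) (a i) hp).1]
      · show Real.pi * ‖φ i z (0 : Fin (d + 1))‖ ^ 2 < s
        rw [hpe]
        have h0 : a i (Tuple.sort (a i) 0) = ⟨0, hq⟩ := by
          have := Tuple.monotone_sort (a i) (Fin.zero_le ((Tuple.sort (a i)).symm 0))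
          simp only [Function.comp_apply, Equiv.apply_symm_apply] at this
          exact le_antisymm this (Nat.zero_le _)
        have e : cum ((cell s 0 (a i)).map p) 0 = (cell s 0 (a i)).map p 0 := by
          have : (Finset.Iic (0 : Fin (d + 1))) = {0} := by ext k; simp
          simp [cum, this]
        rw [← e, cum_cell_map, h0]
        simpa using (cum_bounds hp _).2
    · rw [Set.disjoint_left]
      rintro _ ⟨z, hz, rfl⟩ ⟨z', hz', heq⟩
      obtain ⟨p, hp, hpe⟩ := hact i z (hU i hz)
      obtain ⟨p', hp', hpe'⟩ := hact i' z' (hU i' hz')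
      refine hne (g.injective ?_)
      have h1 := cell_injective hp hp' (funext fun l => by rw [← hpe l, ← hpe' l, heq])
      simpa [a] using congrArg Fin.tail h1

/-- Grouping in decreasing order: the group maxima cost the first one plus the average. -/
theorem exists_groups (n g : ℕ) (hg : 1 ≤ g) {ι : Type} [Fintype ι] (v : ι → ℝ)
    (hv : ∀ i, 0 ≤ v i) (B : ℝ) (hB0 : 0 ≤ B) (hB : ∀ i, v i ≤ B) :
    ∃ (N : ℕ) (f : ι → Fin N) (top : Fin N → ℝ),
      (∀ b, (Finset.univ.filter fun i => f i = b).card ≤ g) ∧ (∀ i, v i ≤ top (f i)) ∧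
      (∀ b, ∃ i, f i = b ∧ top b = v i) ∧
      ∑ b, top b ^ n ≤ B ^ n + (1 / (g : ℝ)) * ∑ i, v i ^ n := by
  classical
  set K := Fintype.card ι
  let e := (Fintype.equivFin ι)
  let σ := Tuple.sort fun j => -v (e.symm j)
  let rk : ι → Fin K := fun i => σ.symm (e i)
  let w : ℕ → ℝ := fun j => if h : j < K then v (e.symm (σ ⟨j, h⟩)) else 0
  have hw0 : ∀ j, 0 ≤ w j := fun j => by simp only [w]; split_ifs <;> simp [hv]
  have hwB : ∀ j, w j ≤ B := fun j => by simp only [w]; split_ifs <;> simp [hB, hB0]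
  have hwanti : Antitone w := fun j j' hjj => by
    simp only [w]
    split_ifs with h1 h2
    · have := Tuple.monotone_sort (fun j => -v (e.symm j)) (Fin.mk_le_mk.2 hjj : (⟨j, h2⟩ : Fin K) ≤ ⟨j', h1⟩)
      simp only [Function.comp_apply, neg_le_neg_iff] at this
      exact this
    · omega
    · exact hv _
    · exact le_rfl
  have hrk : ∀ i, w (rk i) = v i := fun i => by
    simp [w, rk]
  let N := (K + g - 1) / g
  have hN : ∀ j < K, j / g < N := fun j hj => by
    simp only [N]
    rw [Nat.lt_iff_add_one_le, Nat.le_div_iff_mul_le (by omega), add_one_mul]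
    have := Nat.div_mul_le_self j g
    omega
  have hNK : ∀ b < N, b * g < K := fun b hb => by
    simp only [N] at hb
    rw [Nat.lt_iff_add_one_le, Nat.le_div_iff_mul_le (by omega), add_one_mul] at hb
    omega
  refine ⟨N, fun i => ⟨(rk i : ℕ) / g, hN _ (rk i).isLt⟩, fun b => w (b * g), fun b => ?_,
    fun i => ?_, fun b => ?_, ?_⟩
  · refine le_trans (Finset.card_le_card_of_injOn (fun i => (rk i : ℕ) % g) (t := Finset.range g)
      (fun i _ => ?_) (fun i hi i' hi' he => ?_)) (Finset.card_range g).le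
    · simpa using Nat.mod_lt _ (by omega)
    · simp only [Finset.coe_filter, Finset.mem_univ, true_and, Set.mem_ofPred_eq, Fin.ext_iff] at hi hi'
      have := Nat.div_add_mod (rk i : ℕ) g
      have := Nat.div_add_mod (rk i' : ℕ) g
      have : rk i = rk i' := Fin.ext (by simp only at he; rw [hi] at *; rw [hi'] at *; omega)
      exact e.injective (σ.symm.injective this)
  · rw [← hrk i]
    exact hwanti (Nat.div_mul_le_self _ _)
  · refine ⟨e.symm (σ ⟨b * g, hNK b b.isLt⟩), Fin.ext ?_, ?_⟩
    · simp [rk, Nat.mul_div_left _ (by omega : 0 < g)]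
    · simp [w, hNK b b.isLt]
  · rw [Fin.sum_univ_eq_sum_range (fun b => w (b * g) ^ n)]
    have hsum : ∀ M, (g : ℝ) * ∑ b ∈ Finset.range (M + 1), w (b * g) ^ n ≤
        g * B ^ n + ∑ j ∈ Finset.range (M * g), w j ^ n := by
      intro M
      induction M with
      | zero =>
        simp only [zero_add, Finset.sum_range_one, zero_mul, Finset.range_zero, Finset.sum_empty,
          add_zero]
        gcongr
        exacts [hw0 _, hwB _]
      | succ M ih =>
        rw [Finset.sum_range_succ _ (M + 1), Nat.succ_mul, Finset.sum_range_add (fun j => w j ^ n) (M * g) g,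
          mul_add]
        have : (g : ℝ) * w (M * g + g) ^ n ≤ ∑ j ∈ Finset.range g, w (M * g + j) ^ n := by
          calc (g : ℝ) * w (M * g + g) ^ n = ∑ _j ∈ Finset.range g, w (M * g + g) ^ n := by simp
            _ ≤ _ := Finset.sum_le_sum fun j hj => pow_le_pow_left₀ (hw0 _)
              (hwanti (by simp only [Finset.mem_range] at hj; omega)) n
        linarith
    have hg0 : (0 : ℝ) < g := by exact_mod_cast (by omega : 0 < g)
    rcases Nat.eq_zero_or_pos N with h0 | h0
    · rw [h0]; simp only [Finset.range_zero, Finset.sum_empty]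
      have := Finset.sum_nonneg fun i (_ : i ∈ Finset.univ) => pow_nonneg (hv i) n
      positivity
    have h1 := hsum (N - 1)
    rw [Nat.sub_add_cancel h0] at h1
    have h2 : ∑ j ∈ Finset.range ((N - 1) * g), w j ^ n ≤ ∑ i, v i ^ n := by
      refine (Finset.sum_le_sum_of_subset_of_nonneg
        (Finset.range_mono (hNK (N - 1) (by omega)).le) fun j _ _ => pow_nonneg (hw0 j) n).trans ?_
      rw [← Fin.sum_univ_eq_sum_range (fun j => w j ^ n)]
      refine le_of_eq (Fintype.sum_equiv ((σ.trans e.symm)) _ _ fun j => ?_)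
      simp [w]
    calc _ = (g : ℝ) * (∑ b ∈ Finset.range N, w (b * g) ^ n) / g := by field_simp
      _ ≤ (g * B ^ n + ∑ i, v i ^ n) / g := by gcongr; linarith
      _ = _ := by field_simp

end Vale.Agent.P209
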