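import Vale.Agent.P209.Asymp2
import Vale.Agent.P209.Layers

/-!
# A polynomial loss in volume

Every ball is first put, through a layer of a grid, into a container whose capacity is at least a
quarter of the target, so that the separating coordinates only cost a polynomial factor.
-/

namespace Vale.Agent.P209.PolyLoss

open scoped ContDiff
open LogLoss

lemma exists_eta {κ : Type*} [Fintype κ] (d : κ → ℝ) (hd : ∀ x, 0 < d x) :
    ∃ η : ℝ, 0 < η ∧ ∀ x, η ≤ d x := by
  classical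
  rcases isEmpty_or_nonempty κ with h | h
  · exact ⟨1, one_pos, fun x => (IsEmpty.false x).elim⟩
  · obtain ⟨x, -, hx⟩ := Finset.exists_min_image Finset.univ d Finset.univ_nonempty
    exact ⟨d x, hd x, fun y => hx y (Finset.mem_univ y)⟩

lemma sizes {n : ℕ} (hn : 4096 ≤ n) : 16 * Nat.log 2 n + 130 ≤ n ∧
    (4 : ℝ) ^ (8 * (Nat.log 2 n + 6) + 1) ≤ (n : ℝ) ^ 25 := by
  obtain ⟨-, -, h⟩ := sizes_ineq (show 400 ≤ n by omega)
  refine ⟨h, ?_⟩
  have h1 := Nat.pow_log_le_self 2 (show n ≠ 0 by omega)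
  have key : 4 ^ (8 * (Nat.log 2 n + 6) + 1) ≤ n ^ 25 := by
    generalize Nat.log 2 n = l at h1 ⊢
    calc 4 ^ (8 * (l + 6) + 1) = (2 ^ l) ^ 16 * 2 ^ 98 := by
          rw [show (4 : ℕ) = 2 ^ 2 from rfl, ← pow_mul, ← pow_mul, ← pow_add]
          congr 1
          ring
      _ ≤ n ^ 16 * n ^ 9 := by
          refine Nat.mul_le_mul (Nat.pow_le_pow_left h1 16) (le_trans ?_ (Nat.pow_le_pow_left hn 9))
          norm_num
      _ = n ^ 25 := by ring
  exact_mod_cast key

lemma pow_48_le {n : ℕ} (hn : 4096 ≤ n) : n ^ 48 ≤ 2 ^ n := by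
  have h2 := Nat.pow_log_le_self 2 (show n ≠ 0 by omega)
  have hl : 12 ≤ Nat.log 2 n := Nat.le_log_of_pow_le (by norm_num) (by omega)
  have h1 : n ≤ 2 ^ (Nat.log 2 n + 1) := (Nat.lt_pow_succ_log_self (by norm_num) n).le
  have key : 48 * (Nat.log 2 n + 1) ≤ n := by
    refine le_trans ?_ h2
    clear h1 h2
    generalize Nat.log 2 n = l at hl
    induction l, hl using Nat.le_induction with
    | base => norm_num
    | succ l hl ih => rw [pow_succ]; omega
  calc n ^ 48 ≤ (2 ^ (Nat.log 2 n + 1)) ^ 48 := Nat.pow_le_pow_left h1 _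
    _ = 2 ^ (48 * (Nat.log 2 n + 1)) := by rw [← pow_mul, mul_comm]
    _ ≤ 2 ^ n := Nat.pow_le_pow_right (by norm_num) key

open Classical in
/-- Balls of capacity between a quarter and a half of the target. -/
lemma pack_core (n : ℕ) (hn : 4096 ≤ n) {κ : Type} [Fintype κ] (R η : ℝ) (hR : 0 < R) (hη : 0 < η)
    (C : κ → ℝ) (hlow : ∀ x, R / 4 ≤ C x) (hhigh : ∀ x, C x < R / 2)
    (hvol : (n : ℝ) ^ 40 * ∑ x, (C x / R) ^ n ≤ 1) :
    ∃ f : κ → (Fin n → ℂ) → (Fin n → ℂ),
      (∀ x, ∃ U, closedCapBall n (C x) ⊆ U ∧ IsSymplecticEmbeddingOn (f x) U) ∧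
      (∀ x, f x '' closedCapBall n (C x) ⊆ openCapBall n R) ∧
      (∀ x, ∀ z ∈ closedCapBall n (C x),
        Real.pi * ‖f x z ⟨0, by omega⟩‖ ^ 2 < Real.pi * ‖z ⟨0, by omega⟩‖ ^ 2 + η) ∧
      Pairwise fun x x' => Disjoint (f x '' closedCapBall n (C x)) (f x' '' closedCapBall n (C x')) := by
  obtain ⟨hln, hP4⟩ := sizes hn
  obtain ⟨hl8, hnl, -⟩ := sizes_ineq (show 400 ≤ n by omega)
  set M := 7 * n with hM
  set P := Nat.log 2 n + 6 with hP
  set a := n - 1 - 8 * P with ha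
  set L := 2 * n ^ 6 with hL
  have hn1 : (1 : ℝ) ≤ n := by exact_mod_cast (by omega : 1 ≤ n)
  have hn0 : (0 : ℝ) < n := by linarith
  have hna : n = 1 + a + 8 * P := by omega
  have hMP : 4 * M + 2 ≤ 2 ^ P := by
    rw [hP, show Nat.log 2 n + 6 = (Nat.log 2 n + 1) + 5 by ring, pow_add]
    omega
  have hC0 : ∀ x, 0 < C x := fun x => lt_of_lt_of_le (by linarith) (hlow x)
  have hlow3 : ∀ x, R / (n : ℝ) ^ 3 ≤ C x := fun x => by
    refine le_trans (div_le_div_of_nonneg_left hR.le (by norm_num) ?_) (hlow x)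
    calc (4 : ℝ) ≤ n := by exact_mod_cast (by omega : 4 ≤ n)
      _ ≤ (n : ℝ) ^ 3 := le_self_pow₀ hn1 (by norm_num)
  have hL0 : 0 < L := Nat.mul_pos (by norm_num) (Nat.pow_pos (by omega))
  have hLR : (L : ℝ) = 2 * (n : ℝ) ^ 6 := by rw [hL]; push_cast; ring
  let m : κ → ℕ := fun x => ⌊((L : ℕ) : ℝ) * C x / R⌋₊ + 1
  have hm1 : ∀ x, C x < (m x : ℝ) * R / L := by
    intro x
    rw [lt_div_iff₀ (by exact_mod_cast hL0)]
    have h := Nat.lt_floor_add_one ((L : ℝ) * C x / R)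
    rw [div_lt_iff₀ hR] at h
    simp only [m]
    push_cast
    linarith
  have hm2 : ∀ x, 2 * m x ≤ L := by
    intro x
    have h : ⌊(L : ℝ) * C x / R⌋₊ < n ^ 6 := by
      rw [Nat.floor_lt (div_nonneg (mul_nonneg (Nat.cast_nonneg _) (hC0 x).le) hR.le),
        div_lt_iff₀ hR, hLR]
      have := hhigh x
      have h6 : (0 : ℝ) < (n : ℝ) ^ 6 := by positivity
      push_cast
      nlinarith
    simp only [m]
    omega
  have hm3 : ∀ x, a * a ≤ m x := by
    intro x
    refine le_trans (Nat.mul_le_mul (show a ≤ n by omega) (show a ≤ n by omega)) ?_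
    refine le_trans ?_ (Nat.le_succ _)
    rw [Nat.le_floor_iff (div_nonneg (mul_nonneg (Nat.cast_nonneg _) (hC0 x).le) hR.le)]
    push_cast
    rw [le_div_iff₀ hR, hLR]
    have h1 := hlow x
    have h4 : (n : ℝ) * n * 4 ≤ 2 * (n : ℝ) ^ 6 := by
      have h26 : (n : ℝ) ^ 2 * (n : ℝ) ^ 1 ≤ (n : ℝ) ^ 6 := by
        rw [← pow_add]; exact pow_le_pow_right₀ hn1 (by norm_num)
      have : (4 : ℝ) ≤ n := by exact_mod_cast (by omega : 4 ≤ n)
      nlinarith
    calc (n : ℝ) * n * R ≤ (n : ℝ) * n * (4 * C x) := by gcongr; linarith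
      _ = (n : ℝ) * n * 4 * C x := by ring
      _ ≤ 2 * (n : ℝ) ^ 6 * C x := mul_le_mul_of_nonneg_right h4 (hC0 x).le
  have h4aL : 4 * (a * a) ≤ L := by
    have h : a * a ≤ n * n := Nat.mul_le_mul (by omega) (by omega)
    calc 4 * (a * a) ≤ n * (n * n) := Nat.mul_le_mul (by omega) h
      _ = n ^ 3 := by ring
      _ ≤ n ^ 6 := Nat.pow_le_pow_right (by omega) (by norm_num)
      _ ≤ L := by omega
  choose Z wt hZ hwt0 hwt1 hwtp using fun x =>
    exists_weights a (m x) L (by omega) (hm3 x) (hm2 x) h4aL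
  let T : Finset (Fin a → ℕ) :=
    (Fintype.piFinset fun _ : Fin a => Finset.range (L + 1)).filter fun T => ∑ j, T j ≤ L
  have hTc : (T.card : ℝ) ≤ (n : ℝ) ^ (7 * n) := by
    have h1 : T.card ≤ (n ^ 7) ^ n := by
      refine (Finset.card_filter_le _ _).trans ?_
      simp only [Fintype.card_piFinset, Finset.card_range, Finset.prod_const, Finset.card_univ,
        Fintype.card_fin]
      refine le_trans (Nat.pow_le_pow_left ?_ a) (Nat.pow_le_pow_right (Nat.pow_pos (by omega))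
        (by omega))
      calc L + 1 ≤ 3 * n ^ 6 := by
            have : 0 < n ^ 6 := Nat.pow_pos (by omega)
            omega
        _ ≤ n * n ^ 6 := Nat.mul_le_mul_right _ (by omega)
        _ = n ^ 7 := by ring
    rw [← pow_mul] at h1
    exact_mod_cast h1
  set μ : ℝ := 1 / (n : ℝ) ^ 2 with hμ
  have hμsum : ∑ x, 20 * (L : ℝ) * ((a : ℝ) + 1) * ((m x : ℝ) / L) ^ a ≤ μ := by
    have hb : ∀ x, 20 * (L : ℝ) * ((a : ℝ) + 1) * ((m x : ℝ) / L) ^ a ≤
        (n : ℝ) ^ 33 * (C x / R) ^ n := by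
      intro x
      refine (prob_le (by omega) (by omega) hR (hlow3 x)).trans ?_
      have e1 : (C x / R) ^ n = (C x / R) ^ a * (C x / R) ^ (8 * P + 1) := by
        rw [← pow_add]; congr 1; omega
      have h2 : 1 ≤ (4 : ℝ) ^ (8 * P + 1) * (C x / R) ^ (8 * P + 1) := by
        rw [← mul_pow]
        refine one_le_pow₀ ?_
        rw [mul_div_assoc', le_div_iff₀ hR]
        linarith [hlow x]
      have h0 : 0 ≤ C x / R := div_nonneg (hC0 x).le hR.le
      calc (n : ℝ) ^ 8 * (C x / R) ^ a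
          ≤ (n : ℝ) ^ 8 * ((C x / R) ^ a * ((4 : ℝ) ^ (8 * P + 1) * (C x / R) ^ (8 * P + 1))) := by
            gcongr
            exact le_mul_of_one_le_right (pow_nonneg h0 a) h2
        _ = (n : ℝ) ^ 8 * (4 : ℝ) ^ (8 * P + 1) * (C x / R) ^ n := by rw [e1]; ring
        _ ≤ (n : ℝ) ^ 8 * (n : ℝ) ^ 25 * (C x / R) ^ n := by gcongr
        _ = _ := by rw [← pow_add]
    refine (Finset.sum_le_sum fun x _ => hb x).trans ?_
    rw [← Finset.mul_sum]
    refine (le_of_pow_mul (n := n) (q := 7) (p := 33) (t := 40) (by omega) zero_le_one (by norm_num)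
      ?_).trans ?_
    · rw [mul_assoc, mul_comm (∑ _x, _)]
      exact mul_le_mul_of_nonneg_left hvol (by positivity)
    · rw [hμ]
      exact one_div_le_one_div_of_le (by positivity) (pow_le_pow_right₀ hn1 (by norm_num))
  have hsmall : (T.card : ℝ) * (Real.exp 1 * μ) ^ (M + 1) < 1 := by
    have he : Real.exp 1 < n := by
      have := Real.exp_one_lt_d9
      have : (100 : ℝ) ≤ n := by exact_mod_cast (by omega : 100 ≤ n)
      linarith
    have h1 : Real.exp 1 * μ ≤ 1 / (n : ℝ) ^ 1 := by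
      calc Real.exp 1 * μ ≤ (n : ℝ) * μ := mul_le_mul_of_nonneg_right he.le (by positivity)
        _ = _ := by rw [hμ, pow_one]; field_simp
    calc (T.card : ℝ) * (Real.exp 1 * μ) ^ (M + 1)
        ≤ (n : ℝ) ^ (7 * n) * (1 / (n : ℝ) ^ 1) ^ (M + 1) := by gcongr
      _ < 1 := by
          rw [one_div, inv_pow, ← pow_mul, ← div_eq_mul_inv, div_lt_one (by positivity)]
          exact pow_lt_pow_right₀ (by exact_mod_cast (by omega : 1 < n)) (by omega)
  obtain ⟨c, hcZ, hcM⟩ := exists_bounded_multiplicity (fun x => Z x) (fun x => wt x)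
    (fun x => hwt0 x) (fun x => hwt1 x) T (fun c T => ∀ j, c j ≤ T j)
    (fun x => 20 * (L : ℝ) * ((a : ℝ) + 1) * ((m x : ℝ) / L) ^ a)
    (fun x t ht => le_trans (le_of_eq (by congr!)) (hwtp x t (Finset.mem_filter.1 ht).2)) μ
    (by positivity) (by
      rw [hμ, div_le_one (by positivity)]
      exact one_le_pow₀ hn1) hμsum M hsmall
  let e := Fintype.equivFin κ
  obtain ⟨g, hg, hgin, hgη, hgd⟩ := scatter_embeddings'' n a M P L hna hMP hL0 R R η hR hη
    (fun y => C (e.symm y)) (fun y => hC0 _) (fun y => m (e.symm y))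
    (fun y => hm1 _) (fun y => by have := hhigh (e.symm y); linarith) (fun y => hm2 _)
    (fun y => c (e.symm y)) (fun y => hZ _ _ (hcZ _)) fun t ht => by
      have ht' : t ∈ T := Finset.mem_filter.2 ⟨Fintype.mem_piFinset.2 fun j => Finset.mem_range.2
        (Nat.lt_succ_of_le ((Finset.single_le_sum (fun i _ => Nat.zero_le (t i))
          (Finset.mem_univ j)).trans ht)), ht⟩
      refine le_trans (Finset.card_le_card_of_injOn e.symm ?_ e.symm.injective.injOn) (hcM t ht')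
      intro y hy
      simpa using hy
  refine ⟨fun x => g (e x), fun x => ?_, fun x => ?_, fun x z hz => ?_, fun x x' hxx => ?_⟩
  · simpa using hg (e x)
  · have := (hgin (e x)).trans Set.inter_subset_left
    simpa using this
  · exact hgη (e x) z (by simpa using hz)
  · simpa using hgd (e.injective.ne hxx)

lemma one_add_pow_le_three (n : ℕ) : (1 + 1 / (n : ℝ)) ^ n ≤ 3 := by
  rcases Nat.eq_zero_or_pos n with rfl | hn
  · norm_num
  · calc (1 + 1 / (n : ℝ)) ^ n ≤ Real.exp (1 / (n : ℝ)) ^ n := by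
          gcongr
          rw [add_comm]; exact Real.add_one_le_exp _
      _ = Real.exp 1 := by
          rw [← Real.exp_nat_mul, mul_one_div, div_self (by positivity)]
      _ ≤ 3 := Real.exp_one_lt_three.le

open Classical in
/-- Balls above `R / n ^ 3`, kept below `w` in the first action. -/
lemma pack_medium (n : ℕ) (hn : 4096 ≤ n) {ι : Type} [Fintype ι] (R w : ℝ) (hR : 0 < R)
    (ρ : ι → ℝ) (hlow : ∀ i, R / (n : ℝ) ^ 3 ≤ ρ i) (hρw : ∀ i, ρ i < w)
    (hhalf : ∀ i, ρ i < R / 2) (hvol : (n : ℝ) ^ 48 * ∑ i, (ρ i / R) ^ n ≤ 1) :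
    ∃ f : ι → (Fin n → ℂ) → (Fin n → ℂ),
      (∀ i, ∃ U, closedCapBall n (ρ i) ⊆ U ∧ IsSymplecticEmbeddingOn (f i) U) ∧
      (∀ i, f i '' closedCapBall n (ρ i) ⊆
        openCapBall n R ∩ {z | Real.pi * ‖z ⟨0, by omega⟩‖ ^ 2 < w}) ∧
      Pairwise fun i i' => Disjoint (f i '' closedCapBall n (ρ i)) (f i' '' closedCapBall n (ρ i')) := by
  have hn1 : (1 : ℝ) ≤ n := by exact_mod_cast (by omega : 1 ≤ n)
  have hρ0 : ∀ i, 0 < ρ i := fun i => lt_of_lt_of_le (by positivity) (hlow i)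
  set Q := n ^ 3 with hQ
  have hq : ∀ i, ∃ q : Fin Q, ρ i < R / 4 →
      ((q : ℝ) + 1) * ρ i < R / 2 ∧ R / 4 ≤ ((q : ℝ) + 1) * ρ i := by
    intro i
    have hQ0 : 0 < Q := Nat.pow_pos (by omega)
    by_cases h : ρ i < R / 4
    · have hx : 0 < R / 4 / ρ i := div_pos (by linarith) (hρ0 i)
      set q := ⌈R / 4 / ρ i⌉₊
      have hq1 : 0 < q := Nat.ceil_pos.2 hx
      have hq2 : (q : ℝ) < R / 4 / ρ i + 1 := Nat.ceil_lt_add_one hx.le
      have hq3 : R / 4 / ρ i ≤ q := Nat.le_ceil _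
      rw [div_le_iff₀ (hρ0 i)] at hq3
      have hqQ : q ≤ Q := by
        refine Nat.ceil_le.2 ?_
        rw [hQ, div_le_iff₀ (hρ0 i)]
        have := hlow i
        rw [div_le_iff₀ (by positivity)] at this
        push_cast
        linarith
      refine ⟨⟨q - 1, by omega⟩, fun _ => ?_⟩
      simp only [Nat.cast_sub (show 1 ≤ q by omega), Nat.cast_one, sub_add_cancel]
      refine ⟨?_, hq3⟩
      have := mul_lt_mul_of_pos_right hq2 (hρ0 i)
      rw [add_mul, div_mul_cancel₀ _ (hρ0 i).ne', one_mul] at this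
      linarith
    · exact ⟨⟨0, hQ0⟩, fun h' => absurd h' h⟩
  choose qi hqi using hq
  have hgr := fun q : Fin Q => exists_groups n (((q : ℕ) + 1) ^ (n - 1))
    (Nat.one_le_iff_ne_zero.2 (pow_ne_zero _ (Nat.succ_ne_zero _)))
    (ι := {i // ρ i < R / 4 ∧ qi i = q}) (fun i => ρ i) (fun i => (hρ0 i).le)
    (R / 2 / ((q : ℝ) + 1)) (by positivity) fun i => by
      rw [le_div_iff₀ (by positivity)]
      have := (hqi i i.2.1).1
      rw [i.2.2] at this
      linarith
  choose N grp top hcardg htop htopmem htopsum using hgr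
  -- a cell size for every group
  let s : ∀ q, Fin (N q) → ℝ := fun q b =>
    min ((top q b + min w (R / 2 / ((q : ℝ) + 1))) / 2) (top q b * (1 + 1 / (n : ℝ)))
  have hs : ∀ q b, top q b < s q b ∧ s q b < w ∧ ((q : ℝ) + 1) * s q b < R / 2 ∧
      R / 4 ≤ ((q : ℝ) + 1) * s q b ∧ s q b ≤ top q b * (1 + 1 / (n : ℝ)) := by
    intro q b
    obtain ⟨i, -, hi⟩ := htopmem q b
    have h1 : top q b < w := hi ▸ hρw i
    obtain ⟨h2, h3⟩ := hqi i i.2.1
    rw [i.2.2, ← hi] at h2 h3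
    have h2' : top q b < R / 2 / ((q : ℝ) + 1) := by
      rw [lt_div_iff₀ (by positivity)]; linarith
    have hmin : top q b < min w (R / 2 / ((q : ℝ) + 1)) := lt_min h1 h2'
    have htp : 0 < top q b := hi ▸ hρ0 i
    have hn2 : (0 : ℝ) < 1 / n := by positivity
    have hlo : top q b < s q b := lt_min (by linarith) (by nlinarith)
    have hup : s q b < min w (R / 2 / ((q : ℝ) + 1)) :=
      lt_of_le_of_lt (min_le_left _ _) (by linarith)
    refine ⟨hlo, hup.trans_le (min_le_left _ _), ?_, ?_, min_le_right _ _⟩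
    · have := hup.trans_le (min_le_right _ _)
      rw [lt_div_iff₀ (by positivity)] at this
      linarith
    · refine h3.trans ?_
      gcongr
  let K := {i // ¬ ρ i < R / 4} ⊕ (Σ q : Fin Q, Fin (N q))
  let C : K → ℝ := Sum.elim (fun i => ρ i) fun y => ((y.1 : ℝ) + 1) * s y.1 y.2
  have hC : ∀ x, R / 4 ≤ C x ∧ C x < R / 2 := by
    rintro (⟨i, hi⟩ | ⟨q, b⟩)
    · exact ⟨not_lt.1 hi, hhalf i⟩
    · exact ⟨(hs q b).2.2.2.1, (hs q b).2.2.1⟩
  obtain ⟨η, hη, hηle⟩ := exists_eta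
    (Sum.elim (fun i => w - ρ i) (fun y : Σ q : Fin Q, Fin (N q) => w - s y.1 y.2) :
      {i // ¬ ρ i < R / 4} ⊕ (Σ q : Fin Q, Fin (N q)) → ℝ)
    (by rintro (i | ⟨q, b⟩)
        · simpa using hρw i
        · simpa using (hs q b).2.1)
  set V := ∑ i, (ρ i / R) ^ n with hV
  have hV0 : 0 ≤ V := Finset.sum_nonneg fun i _ => pow_nonneg (div_nonneg (hρ0 i).le hR.le) n
  have hgroup : ∀ q : Fin Q, ∑ b, (((q : ℝ) + 1) * s q b / R) ^ n ≤
      3 * (1 / 2) ^ n + 3 * (n : ℝ) ^ 3 * ∑ i : {i // ρ i < R / 4 ∧ qi i = q}, (ρ i / R) ^ n := by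
    intro q
    have hq0 : (0 : ℝ) < (q : ℝ) + 1 := by positivity
    have htp : ∀ b, 0 ≤ top q b := fun b => by
      obtain ⟨i, -, hi⟩ := htopmem q b
      exact hi ▸ (hρ0 i).le
    calc ∑ b, (((q : ℝ) + 1) * s q b / R) ^ n
        ≤ ∑ b, 3 * ((((q : ℝ) + 1) / R) ^ n * top q b ^ n) := by
          refine Finset.sum_le_sum fun b _ => ?_
          have h := (hs q b).2.2.2.2
          have h0 : 0 ≤ s q b := ((htp b).trans (hs q b).1.le)
          calc (((q : ℝ) + 1) * s q b / R) ^ n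
              ≤ (((q : ℝ) + 1) * (top q b * (1 + 1 / (n : ℝ))) / R) ^ n := by gcongr
            _ = (1 + 1 / (n : ℝ)) ^ n * ((((q : ℝ) + 1) / R) ^ n * top q b ^ n) := by
                rw [← mul_pow, ← mul_pow]; congr 1; ring
            _ ≤ _ := mul_le_mul_of_nonneg_right (one_add_pow_le_three n)
                (mul_nonneg (by positivity) (pow_nonneg (htp b) n))
      _ = 3 * ((((q : ℝ) + 1) / R) ^ n * ∑ b, top q b ^ n) := by simp only [Finset.mul_sum]
      _ ≤ 3 * ((((q : ℝ) + 1) / R) ^ n * ((R / 2 / ((q : ℝ) + 1)) ^ n +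
            1 / ((((q : ℕ) + 1) ^ (n - 1) : ℕ) : ℝ) *
              ∑ i : {i // ρ i < R / 4 ∧ qi i = q}, ρ i ^ n)) := by
          gcongr
          exact htopsum q
      _ = 3 * (1 / 2) ^ n + 3 * ((q : ℝ) + 1) * ∑ i : {i // ρ i < R / 4 ∧ qi i = q}, (ρ i / R) ^ n := by
          obtain ⟨d, rfl⟩ : ∃ d, n = d + 1 := ⟨n - 1, by omega⟩
          simp only [Nat.add_sub_cancel, Finset.mul_sum, div_pow, mul_add, one_pow]
          push_cast
          congr 1
          · field_simp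
          · refine Finset.sum_congr rfl fun i _ => ?_
            rw [pow_succ ((q : ℝ) + 1)]
            field_simp
      _ ≤ _ := by
          gcongr
          · exact Finset.sum_nonneg fun i _ => pow_nonneg (div_nonneg (hρ0 i.1).le hR.le) n
          · have : (q : ℕ) + 1 ≤ n ^ 3 := q.isLt
            exact_mod_cast this
  have hQR : (Q : ℝ) = (n : ℝ) ^ 3 := by rw [hQ]; push_cast; rfl
  have hsumC : ∑ x, (C x / R) ^ n ≤ V + (3 * (n : ℝ) ^ 3 * (1 / 2) ^ n + 3 * (n : ℝ) ^ 3 * V) := by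
    rw [Fintype.sum_sum_type, Fintype.sum_sigma]
    refine add_le_add (sum_subtype_le_univ _ (fun i => (ρ i / R) ^ n)
      fun i => pow_nonneg (div_nonneg (hρ0 i).le hR.le) n) ?_
    refine (Finset.sum_le_sum fun q _ => hgroup q).trans ?_
    rw [Finset.sum_add_distrib, Finset.sum_const, Finset.card_univ, Fintype.card_fin, nsmul_eq_mul,
      ← Finset.mul_sum, hQR]
    refine add_le_add (le_of_eq (by ring)) (mul_le_mul_of_nonneg_left ?_ (by positivity))
    calc ∑ q : Fin Q, ∑ i : {i // ρ i < R / 4 ∧ qi i = q}, (ρ i / R) ^ n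
        = ∑ q : Fin Q, ∑ i ∈ Finset.univ.filter (fun i => ρ i < R / 4 ∧ qi i = q),
            (ρ i / R) ^ n := Finset.sum_congr rfl fun q _ =>
              (Finset.sum_subtype _ (fun x => by simp) (fun i => (ρ i / R) ^ n)).symm
      _ ≤ ∑ q : Fin Q, ∑ i ∈ Finset.univ.filter (fun i => qi i = q), (ρ i / R) ^ n :=
          Finset.sum_le_sum fun q _ => Finset.sum_le_sum_of_subset_of_nonneg
            (fun i hi => by simp at hi ⊢; exact hi.2)
            fun i _ _ => pow_nonneg (div_nonneg (hρ0 i).le hR.le) n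
      _ = V := Finset.sum_fiberwise _ qi _
  have hvolC : (n : ℝ) ^ 40 * ∑ x, (C x / R) ^ n ≤ 1 := by
    have h3 : (3 : ℝ) * 7 ≤ n := by exact_mod_cast (by omega : 21 ≤ n)
    have e48 : V ≤ 1 / (n : ℝ) ^ 48 := by
      rw [le_div_iff₀ (by positivity), mul_comm]; exact hvol
    have h2n : (1 / 2 : ℝ) ^ n ≤ 1 / (n : ℝ) ^ 48 := by
      rw [div_pow, one_pow]
      refine one_div_le_one_div_of_le (by positivity) ?_
      exact_mod_cast pow_48_le hn
    have h := hsumC
    have hn3 : (1 : ℝ) ≤ (n : ℝ) ^ 3 := one_le_pow₀ hn1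
    calc (n : ℝ) ^ 40 * ∑ x, (C x / R) ^ n ≤ (n : ℝ) ^ 40 * (7 * ((n : ℝ) ^ 3 * (1 / (n : ℝ) ^ 48))) := by
          gcongr
          have a1 := mul_le_mul_of_nonneg_left h2n (by positivity : (0:ℝ) ≤ 3 * (n : ℝ) ^ 3)
          have a2 := mul_le_mul_of_nonneg_left e48 (by positivity : (0:ℝ) ≤ 3 * (n : ℝ) ^ 3)
          have a3 : V ≤ (n : ℝ) ^ 3 * (1 / (n : ℝ) ^ 48) :=
            e48.trans (le_mul_of_one_le_left (by positivity) hn3)
          linarith
      _ = 7 / (n : ℝ) ^ 5 := by field_simp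
      _ ≤ 1 := by
          rw [div_le_one (by positivity)]
          linarith [le_self_pow₀ hn1 (show (5 : ℕ) ≠ 0 by norm_num)]
  obtain ⟨g, hg, hgin, hgη, hgd⟩ := pack_core n hn R η hR hη C (fun x => (hC x).1)
    (fun x => (hC x).2) hvolC
  -- each group inside a layer
  have hlay := fun (q : Fin Q) (b : Fin (N q)) =>
    layer_packing n ((q : ℕ) + 1) (by omega) (by omega)
      (ι := {j : {i // ρ i < R / 4 ∧ qi i = q} // grp q j = b}) (by
        rw [Fintype.card_subtype]; exact hcardg q b)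
      (s q b) (fun j => ρ j.1) (fun j => hρ0 _) fun j => by
        have h := htop q j.1
        rw [j.2] at h
        exact h.trans_lt (hs q b).1
  choose φ hφ hφin hφd using hlay
  let cls : ι → K := fun i =>
    if h : ρ i < R / 4 then Sum.inr ⟨qi i, grp (qi i) ⟨i, h, rfl⟩⟩ else Sum.inl ⟨i, h⟩
  let ψ : ι → (Fin n → ℂ) → (Fin n → ℂ) := fun i =>
    if h : ρ i < R / 4 then φ (qi i) (grp (qi i) ⟨i, h, rfl⟩) ⟨⟨i, h, rfl⟩, rfl⟩ else id
  have hψ : ∀ i, ψ i '' closedCapBall n (ρ i) ⊆ closedCapBall n (C (cls i)) ∧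
      (∃ U, closedCapBall n (ρ i) ⊆ U ∧ IsSymplecticEmbeddingOn (g (cls i) ∘ ψ i) U) ∧
      ∀ z ∈ closedCapBall n (ρ i), Real.pi * ‖ψ i z ⟨0, by omega⟩‖ ^ 2 + η ≤ w := by
    intro i
    by_cases h : ρ i < R / 4
    · simp only [ψ, cls, dif_pos h, C, Sum.elim_inr]
      set b := grp (qi i) ⟨i, h, rfl⟩
      have hin : φ (qi i) b ⟨⟨i, h, rfl⟩, rfl⟩ '' closedCapBall n (ρ i) ⊆
          openCapBall n ((((qi i : ℕ) : ℝ) + 1) * s (qi i) b) := by
        have := (hφin (qi i) b ⟨⟨i, h, rfl⟩, rfl⟩).trans Set.inter_subset_left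
        push_cast at this
        exact this
      refine ⟨fun z hz => Set.mem_ofPred.2 (le_of_lt (hin hz)),
        emb_nest (hφ (qi i) b ⟨⟨i, h, rfl⟩, rfl⟩) hin (hg (Sum.inr ⟨qi i, b⟩)), fun z hz => ?_⟩
      have h1 := ((hφin (qi i) b ⟨⟨i, h, rfl⟩, rfl⟩) ⟨z, hz, rfl⟩).2
      have h2 : η ≤ w - s (qi i) b := hηle (Sum.inr ⟨qi i, b⟩)
      simp only [Set.mem_ofPred] at h1
      linarith
    · simp only [ψ, cls, dif_neg h, C, Sum.elim_inl, Set.image_id]
      refine ⟨subset_rfl, hg (Sum.inl ⟨i, h⟩), fun z hz => ?_⟩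
      have h2 : η ≤ w - ρ i := hηle (Sum.inl ⟨i, h⟩)
      have h3 : Real.pi * ‖z ⟨0, by omega⟩‖ ^ 2 ≤ ρ i := by
        refine le_trans ?_ (show Real.pi * ∑ j, ‖z j‖ ^ 2 ≤ ρ i from hz)
        gcongr
        exact Finset.single_le_sum (f := fun j => ‖z j‖ ^ 2) (fun j _ => sq_nonneg _) (Finset.mem_univ _)
      simp only [id_eq]
      linarith
  refine ⟨fun i => g (cls i) ∘ ψ i, fun i => (hψ i).2.1, fun i => ?_, fun i i' hii => ?_⟩
  · rintro _ ⟨z, hz, rfl⟩
    have hz' : ψ i z ∈ closedCapBall n (C (cls i)) := (hψ i).1 ⟨z, hz, rfl⟩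
    exact ⟨hgin _ ⟨_, hz', rfl⟩, (hgη _ _ hz').trans_le ((hψ i).2.2 z hz)⟩
  · show Disjoint ((g (cls i) ∘ ψ i) '' _) ((g (cls i') ∘ ψ i') '' _)
    rw [Set.image_comp, Set.image_comp]
    by_cases hc : cls i = cls i'
    · obtain ⟨U, hU, -, -, hinj, -⟩ := hg (cls i')
      rw [hc]
      have hsub : ψ i '' closedCapBall n (ρ i) ⊆ U := (hψ i).1.trans (hc ▸ hU)
      have hsub' : ψ i' '' closedCapBall n (ρ i') ⊆ U := (hψ i').1.trans hU
      rw [Set.disjoint_left]
      rintro _ ⟨x, hx, rfl⟩ ⟨y, hy, hxy⟩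
      refine Set.disjoint_left.1 ?_ hx (hinj (hsub' hy) (hsub hx) hxy ▸ hy)
      by_cases h : ρ i < R / 4
      · by_cases h' : ρ i' < R / 4
        · have key : ∀ (q : Fin Q) (b : Fin (N q))
              (j : {j : {i // ρ i < R / 4 ∧ qi i = q} // grp q j = b})
              (q' : Fin Q) (b' : Fin (N q'))
              (j' : {j : {i // ρ i < R / 4 ∧ qi i = q'} // grp q' j = b'}),
              (⟨q, b⟩ : Σ q : Fin Q, Fin (N q)) = ⟨q', b'⟩ → j.1.1 ≠ j'.1.1 →
              Disjoint (φ q b j '' closedCapBall n (ρ j.1.1))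
                (φ q' b' j' '' closedCapBall n (ρ j'.1.1)) := by
            intro q b j q' b' j' e hne
            cases e
            exact hφd q b j j' fun e => hne (by rw [e])
          simp only [ψ, cls, dif_pos h, dif_pos h'] at hc ⊢
          exact key _ _ _ _ _ _ (Sum.inr_injective hc) hii
        · simp [cls, h, h'] at hc
      · by_cases h' : ρ i' < R / 4
        · simp [cls, h, h'] at hc
        · simp [cls, h, h'] at hc
          exact absurd (congrArg Subtype.val (Sum.inl_injective hc)) hii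
    · exact (hgd hc).mono (Set.image_mono (hψ i).1) (Set.image_mono (hψ i').1)

open Classical in
/-- Balls of at most half the size, with actions in the first coordinate below `w`. -/
lemma pack_rest3 (n : ℕ) (hn : 4096 ≤ n) {ι : Type} [Fintype ι] (R w : ℝ) (hR : 0 < R)
    (hS : R / (n : ℝ) ^ 2 < w) (r : ι → ℝ) (hr : ∀ i, 0 < r i) (hrw : ∀ i, r i < w)
    (hhalf : ∀ i, r i < R / 2)
    (hvol : (n : ℝ) ^ 50 * ∑ i, r i ^ n ≤ R ^ n) :
    ∃ f : ι → (Fin n → ℂ) → (Fin n → ℂ),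
      (∀ i, ∃ U, closedCapBall n (r i) ⊆ U ∧ IsSymplecticEmbeddingOn (f i) U) ∧
      (∀ i, f i '' closedCapBall n (r i) ⊆
        openCapBall n R ∩ {z | Real.pi * ‖z ⟨0, by omega⟩‖ ^ 2 < w}) ∧
      Pairwise fun i i' => Disjoint (f i '' closedCapBall n (r i)) (f i' '' closedCapBall n (r i')) := by
  have hn' : (4096 : ℝ) ≤ n := by exact_mod_cast hn
  have hn1 : (1 : ℝ) ≤ n := by linarith
  set S := R / (n : ℝ) ^ 2 with hSdef
  have hS0 : 0 < S := by positivity
  have hSn : S / (n : ℝ) = R / (n : ℝ) ^ 3 := by rw [hSdef, div_div]; ring_nf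
  obtain ⟨N, q, φ, hN, hφ, hφin, hφd⟩ := exists_containers n (by omega)
    (ι := {i // r i < S / n}) S hS0 (fun i => r i) (fun i => hr i) fun i => i.2
  let sz : {i // ¬ r i < S / n} ⊕ Fin N → ℝ := Sum.elim (fun i => r i) fun _ => S
  have hsz : ∀ x, R / (n : ℝ) ^ 3 ≤ sz x ∧ sz x < w ∧ sz x < R / 2 := by
    rintro (⟨i, hi⟩ | j)
    · exact ⟨by simpa [sz, hSn] using not_lt.1 hi, hrw i, hhalf i⟩
    · refine ⟨hSn ▸ div_le_self hS0.le hn1, hS, ?_⟩
      show R / (n : ℝ) ^ 2 < R / 2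
      refine div_lt_div_of_pos_left hR two_pos ?_
      nlinarith
  have hvol' : (n : ℝ) ^ 48 * ∑ x, (sz x / R) ^ n ≤ 1 := by
    set V := ∑ i, (r i / R) ^ n with hV
    have hV1 : (n : ℝ) ^ 50 * V ≤ 1 := by
      simp only [hV, div_pow]
      rw [← Finset.sum_div, ← mul_div_assoc, div_le_one (by positivity)]
      exact hvol
    have hp : ∀ i, 0 ≤ (r i / R) ^ n := fun i => pow_nonneg (div_nonneg (hr i).le hR.le) n
    have hV0 : 0 ≤ V := Finset.sum_nonneg fun i _ => hp i
    have hN' : (N : ℝ) * (S / R) ^ n ≤ 3 * V + n * (S / R) ^ n := by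
      calc (N : ℝ) * (S / R) ^ n
          ≤ (3 * ∑ i : {i // r i < S / n}, (r i / S) ^ n + n) * (S / R) ^ n :=
            mul_le_mul_of_nonneg_right hN (by positivity)
        _ = 3 * ∑ i : {i // r i < S / n}, (r i / R) ^ n + n * (S / R) ^ n := by
            rw [add_mul, mul_assoc, Finset.sum_mul]
            congr 2
            refine Finset.sum_congr rfl fun i _ => ?_
            rw [← mul_pow, div_mul_div_cancel₀ hS0.ne']
        _ ≤ _ := by
            gcongr
            exact sum_subtype_le_univ _ (fun i => (r i / R) ^ n) hp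
    have hSR : (S / R) ^ n ≤ 1 / (n : ℝ) ^ 50 := by
      rw [show S / R = 1 / (n : ℝ) ^ 2 by rw [hSdef]; field_simp, one_div, inv_pow, ← pow_mul,
        one_div]
      exact inv_anti₀ (by positivity) (pow_le_pow_right₀ hn1 (by omega))
    rw [Fintype.sum_sum_type]
    simp only [sz, Sum.elim_inl, Sum.elim_inr, Finset.sum_const, Finset.card_univ, Fintype.card_fin,
      nsmul_eq_mul]
    have h1 := sum_subtype_le_univ (fun i => ¬ r i < S / n) (fun i => (r i / R) ^ n) hp
    have hV2 : V ≤ 1 / (n : ℝ) ^ 50 := by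
      rw [le_div_iff₀ (by positivity), mul_comm]; exact hV1
    calc (n : ℝ) ^ 48 * (∑ i : {i // ¬ r i < S / n}, (r i / R) ^ n + (N : ℝ) * (S / R) ^ n)
        ≤ (n : ℝ) ^ 48 * ((4 + n) * (1 / (n : ℝ) ^ 50)) := by
          gcongr
          nlinarith
      _ = (4 + n) / (n : ℝ) ^ 2 := by field_simp
      _ ≤ 1 := by rw [div_le_one (by positivity)]; nlinarith
  obtain ⟨g, hg, hgin, hgd⟩ := pack_medium n hn R w hR sz (fun x => (hsz x).1)
    (fun x => (hsz x).2.1) (fun x => (hsz x).2.2) hvol'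
  let cls : ι → {i // ¬ r i < S / n} ⊕ Fin N := fun i =>
    if h : r i < S / n then Sum.inr (q ⟨i, h⟩) else Sum.inl ⟨i, h⟩
  let ψ : ι → (Fin n → ℂ) → (Fin n → ℂ) := fun i => if h : r i < S / n then φ ⟨i, h⟩ else id
  have hψ : ∀ i, (∃ U, closedCapBall n (r i) ⊆ U ∧ IsSymplecticEmbeddingOn (g (cls i) ∘ ψ i) U) ∧
      ψ i '' closedCapBall n (r i) ⊆ closedCapBall n (sz (cls i)) := by
    intro i
    by_cases h : r i < S / n
    · simp only [ψ, cls, dif_pos h, sz, Sum.elim_inr]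
      exact ⟨emb_nest (hφ ⟨i, h⟩) (hφin ⟨i, h⟩) (hg (Sum.inr (q ⟨i, h⟩))), fun z hz =>
        le_of_lt (show Real.pi * ∑ j, ‖z j‖ ^ 2 < S from hφin ⟨i, h⟩ hz)⟩
    · simp only [ψ, cls, dif_neg h, sz, Sum.elim_inl, Set.image_id]
      exact ⟨hg (Sum.inl ⟨i, h⟩), subset_rfl⟩
  refine ⟨fun i => g (cls i) ∘ ψ i, fun i => (hψ i).1, fun i => ?_, fun i i' hii => ?_⟩
  · rw [Set.image_comp]
    exact (Set.image_mono (hψ i).2).trans (hgin (cls i))
  · show Disjoint ((g (cls i) ∘ ψ i) '' _) ((g (cls i') ∘ ψ i') '' _)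
    rw [Set.image_comp, Set.image_comp]
    by_cases hc : cls i = cls i'
    · obtain ⟨V, hV, -, -, hinj, -⟩ := hg (cls i')
      rw [hc]
      have hsub : ψ i '' closedCapBall n (r i) ⊆ V := (hψ i).2.trans (hc ▸ hV)
      have hsub' : ψ i' '' closedCapBall n (r i') ⊆ V := (hψ i').2.trans hV
      rw [Set.disjoint_left]
      rintro _ ⟨x, hx, rfl⟩ ⟨y, hy, hxy⟩
      refine Set.disjoint_left.1 ?_ hx (hinj (hsub' hy) (hsub hx) hxy ▸ hy)
      by_cases h : r i < S / n
      · by_cases h' : r i' < S / n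
        · simp only [ψ, cls, dif_pos h, dif_pos h'] at hc ⊢
          exact hφd ⟨i, h⟩ ⟨i', h'⟩ (fun e => hii (congrArg Subtype.val e)) (Sum.inr_injective hc)
        · simp [cls, h, h'] at hc
      · by_cases h' : r i' < S / n
        · simp [cls, h, h'] at hc
        · simp [cls, h, h'] at hc
          exact absurd hc hii
    · exact (hgd hc).mono (Set.image_mono (hψ i).2) (Set.image_mono (hψ i').2)

/-- Conjecture A of Siegel and Yao up to a polynomial factor in volume. -/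
theorem largeDimension3 (n : ℕ) (hn : 4096 ≤ n) : ∀ (k : ℕ) (R : ℝ) (r : Fin k → ℝ), 0 < R →
    (∀ i, 0 < r i) → (∀ i j, i < j → r i + r j < R) →
    (n : ℝ) ^ 50 * ∑ i, r i ^ n ≤ R ^ n → HasBallPacking n R r := by
  classical
  intro k R r hR hr hpair hvol
  have hsym : ∀ i j, i ≠ j → r i + r j < R := by
    intro i j hij
    rcases lt_or_gt_of_ne hij with h | h
    · exact hpair i j h
    · linarith [hpair j i h]
  have hn' : (100 : ℝ) ≤ n := by exact_mod_cast (by omega : 100 ≤ n)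
  have hS : R / (n : ℝ) ^ 2 < R := div_lt_self hR (by nlinarith)
  by_cases hbig : ∃ i₀, R / 2 ≤ r i₀
  · obtain ⟨i₀, hi₀⟩ := hbig
    -- the largest ball is well inside
    have hgap : r i₀ + R / (n : ℝ) ^ 2 < R := by
      by_contra hge
      push Not at hge
      have h1 : (n : ℝ) ^ 50 * r i₀ ^ n ≤ R ^ n := le_trans (by
        gcongr
        exact Finset.single_le_sum (f := fun i => r i ^ n) (fun i _ => pow_nonneg (hr i).le n)
          (Finset.mem_univ i₀)) hvol
      have h2 : (1 / 2 : ℝ) ≤ (1 + -(1 / (n : ℝ) ^ 2)) ^ n := by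
        refine le_trans ?_ (one_add_mul_le_pow (by
          have : 1 / (n : ℝ) ^ 2 ≤ 1 := (div_le_one (by positivity)).2 (by nlinarith)
          linarith) n)
        have : (n : ℝ) * (1 / (n : ℝ) ^ 2) ≤ 1 / 2 := by
          rw [mul_one_div, div_le_iff₀ (by positivity)]; nlinarith
        linarith
      have h4 : R * (1 + -(1 / (n : ℝ) ^ 2)) ≤ r i₀ := by
        rw [mul_add, mul_neg, mul_one_div, mul_one]; linarith
      have h5 : R ^ n * (1 + -(1 / (n : ℝ) ^ 2)) ^ n ≤ r i₀ ^ n := by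
        rw [← mul_pow]
        refine pow_le_pow_left₀ (mul_nonneg hR.le ?_) h4 n
        have : 1 / (n : ℝ) ^ 2 ≤ 1 := (div_le_one (by positivity)).2 (by nlinarith)
        linarith
      have h6 : (n : ℝ) ≤ (n : ℝ) ^ 50 :=
        le_self_pow₀ (by linarith) (by omega)
      have hRn := pow_pos hR n
      have h7 : R ^ n * (1 / 2) ≤ r i₀ ^ n := le_trans (by gcongr) h5
      have h8 : (100 : ℝ) * (R ^ n * (1 / 2)) ≤ R ^ n :=
        le_trans (mul_le_mul (hn'.trans h6) h7 (by positivity) (by positivity)) h1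
      linarith
    -- the strip below the largest ball
    obtain ⟨w, hw1, hw2, hw3⟩ : ∃ w, R / (n : ℝ) ^ 2 < w ∧ r i₀ + w < R ∧
        ∀ i, i ≠ i₀ → r i < w := by
      obtain ⟨W, hW, hmax⟩ := Finset.exists_max_image
        (insert (R / (n : ℝ) ^ 2) ((Finset.univ.erase i₀).image r)) id ⟨_, Finset.mem_insert_self _ _⟩
      have hWlt : r i₀ + W < R := by
        rcases Finset.mem_insert.1 hW with rfl | hW
        · exact hgap
        · obtain ⟨i, hi, rfl⟩ := Finset.mem_image.1 hW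
          have := hsym i i₀ (Finset.ne_of_mem_erase hi)
          linarith
      refine ⟨(W + (R - r i₀)) / 2, ?_, by linarith, fun i hi => ?_⟩
      · have : R / (n : ℝ) ^ 2 ≤ W := hmax _ (Finset.mem_insert_self _ _)
        linarith
      · have : r i ≤ W := hmax _ (Finset.mem_insert_of_mem
          (Finset.mem_image_of_mem r (Finset.mem_erase.2 ⟨hi, Finset.mem_univ i⟩)))
        linarith
    obtain ⟨f, hf, hfin, hfd⟩ := pack_rest3 n hn (ι := {i // i ≠ i₀}) R w hR hw1 (fun i => r i)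
      (fun i => hr i) (fun i => hw3 i i.2) (fun i => by
        show r i < R / 2
        have := hsym i i₀ i.2
        linarith) (le_trans (by
        gcongr
        exact sum_subtype_le_univ _ (fun i => r i ^ n) fun i => pow_nonneg (hr i).le n) hvol)
    set j₀ : Fin n := ⟨0, by omega⟩
    obtain ⟨s, hs1, hs2⟩ : ∃ s, r i₀ < s ∧ s + w < R :=
      ⟨(r i₀ + (R - w)) / 2, by linarith, by linarith⟩
    have hw0 : 0 < w := lt_trans (by positivity) hw1
    let P : Piece n := ⟨1, 1, one_mul 1, fun j => if j = j₀ then w else 0⟩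
    have hPmap : ∀ p j, P.map p j = (if j = j₀ then w else 0) + p j := by
      intro p j
      simp [Piece.map, P, rmat_one]
    obtain ⟨g, U, hU, hgemb, hgU⟩ := exists_toric_embedding P (hr i₀) hs1 fun p hp j => by
      rw [hPmap]
      split_ifs <;> linarith [hp.1 j]
    have hbigim : ∀ z ∈ g '' closedCapBall n (r i₀),
        z ∈ openCapBall n R ∧ w < Real.pi * ‖z j₀‖ ^ 2 := by
      rintro _ ⟨z, hz, rfl⟩
      obtain ⟨p, hp, hpe⟩ := hgU z (hU hz)
      refine ⟨?_, ?_⟩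
      · show Real.pi * ∑ j, ‖g z j‖ ^ 2 < R
        rw [Finset.mul_sum, Finset.sum_congr rfl fun j _ => hpe j]
        simp only [hPmap, Finset.sum_add_distrib, Finset.sum_ite_eq', Finset.mem_univ, if_true]
        linarith [hp.2]
      · rw [hpe, hPmap, if_pos rfl]
        linarith [hp.1 j₀]
    refine ⟨fun i => if h : i = i₀ then g else f ⟨i, h⟩, fun i => ?_, fun i => ?_,
      fun i i' hii => ?_⟩
    · by_cases h : i = i₀
      · subst h
        simp only [dif_pos]
        exact ⟨U, hU, hgemb⟩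
      · simp only [dif_neg h]
        exact hf ⟨i, h⟩
    · by_cases h : i = i₀
      · subst h
        simp only [dif_pos]
        exact fun z hz => (hbigim z hz).1
      · simp only [dif_neg h]
        exact (hfin ⟨i, h⟩).trans Set.inter_subset_left
    · by_cases h : i = i₀
      · have h' : i' ≠ i₀ := fun e => hii (h.trans e.symm)
        subst h
        simp only [dif_pos, dif_neg h']
        exact Set.disjoint_left.2 fun z hz hz' => lt_asymm (hbigim z hz).2 ((hfin ⟨i', h'⟩) hz').2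
      · by_cases h' : i' = i₀
        · subst h'
          simp only [dif_pos, dif_neg h]
          exact Set.disjoint_left.2 fun z hz hz' => lt_asymm (hbigim z hz').2 ((hfin ⟨i, h⟩) hz).2
        · simp only [dif_neg h, dif_neg h']
          exact hfd fun e => hii (congrArg Subtype.val e)
  · push Not at hbig
    obtain ⟨f, hf, hfin, hfd⟩ := pack_rest3 n hn R R hR hS r hr
      (fun i => lt_trans (hbig i) (by linarith)) hbig hvol
    exact ⟨f, hf, fun i => (hfin i).trans Set.inter_subset_left, hfd⟩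

end Vale.Agent.P209.PolyLoss
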