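import Vale.Agent.P209.Toric
import Mathlib.LinearAlgebra.Matrix.NonsingularInverse
import Mathlib.LinearAlgebra.Matrix.Block
import Mathlib.LinearAlgebra.Matrix.Permutation
import Mathlib.Data.Fin.Tuple.Sort

/-!
# Unimodular cells of a slab of a simplex

In partial-sum coordinates the simplex `m • Δ` is `0 < y₁ < … < yₙ < m`; it is cut into `m ^ n`
unimodular cells, one for each `a : Fin n → {0, …, m - 1}`, namely the sorted rearrangements
of `a + t` with `0 < t₁ < … < tₙ < 1`.
-/

namespace Vale.Agent.P209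

open Matrix

noncomputable section

variable {n : ℕ}

/-- The partial sum matrix. -/
def cumMat (n : ℕ) : Matrix (Fin n) (Fin n) ℤ := Matrix.of fun i j => if j ≤ i then 1 else 0

lemma det_cumMat : (cumMat n).det = 1 := by
  rw [Matrix.det_of_lowerTriangular]
  · simp [cumMat]
  · intro i j hij
    have hij' : i < j := hij
    simp [cumMat, not_le.mpr hij']

/-- Partial sums of a vector. -/
def cum (p : Fin n → ℝ) (i : Fin n) : ℝ := ∑ j ∈ Finset.Iic i, p j

lemma cum_strictMono {p : Fin n → ℝ} (hp : ∀ j, 0 < p j) : StrictMono (cum p) := by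
  intro i j hij
  refine Finset.sum_lt_sum_of_subset (i := j) (Finset.Iic_subset_Iic.mpr hij.le) (by simp)
    (by simp [hij]) (hp j) fun k _ _ => (hp k).le

lemma cum_pos {p : Fin n → ℝ} (hp : ∀ j, 0 < p j) (i : Fin n) : 0 < cum p i :=
  Finset.sum_pos (fun j _ => hp j) ⟨i, by simp⟩

lemma cum_le_sum {p : Fin n → ℝ} (hp : ∀ j, 0 ≤ p j) (i : Fin n) : cum p i ≤ ∑ j, p j :=
  Finset.sum_le_univ_sum_of_nonneg hp

lemma rmat_cumMat_mulVec (p : Fin n → ℝ) : rmat (cumMat n) *ᵥ p = cum p := by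
  funext i
  simp [Matrix.mulVec, dotProduct, rmat, cumMat, cum, Finset.sum_filter,
    ← Finset.filter_ge_eq_Iic]

lemma pos_of_cum_strictMono {x : Fin n → ℝ} (h0 : ∀ i, 0 < cum x i) (h : StrictMono (cum x))
    (j : Fin n) : 0 < x j := by
  obtain ⟨j, hj⟩ := j
  rcases j with _ | j
  · have := h0 ⟨0, hj⟩
    have he : Finset.Iic (⟨0, hj⟩ : Fin n) = {⟨0, hj⟩} := by
      ext k; simp [Fin.le_def, Fin.ext_iff]
    simpa [cum, he] using this
  · have hlt : (⟨j, by omega⟩ : Fin n) < ⟨j + 1, hj⟩ := by simp [Fin.lt_def]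
    have := h hlt
    have he : Finset.Iic (⟨j + 1, hj⟩ : Fin n) = insert ⟨j + 1, hj⟩ (Finset.Iic ⟨j, by omega⟩) := by
      ext k; simp [Fin.le_def, Fin.ext_iff]; omega
    simp only [cum, he] at this
    rw [Finset.sum_insert (by simp [Fin.le_def])] at this
    linarith

variable {m : ℕ}

/-- The permutation matrix of the sort of `a`. -/
def sortMat (a : Fin n → Fin m) : Matrix (Fin n) (Fin n) ℤ :=
  Matrix.of fun i j => if Tuple.sort a i = j then 1 else 0

lemma sortMat_transpose_mul (a : Fin n → Fin m) : (sortMat a)ᵀ * sortMat a = 1 := by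
  ext i j
  simp only [Matrix.mul_apply, Matrix.transpose_apply, sortMat, Matrix.of_apply, Matrix.one_apply]
  rw [Finset.sum_eq_single ((Tuple.sort a).symm i)]
  · by_cases h : i = j <;> simp [h]
  · intro k _ hk
    have : Tuple.sort a k ≠ i := fun hh => hk (by rw [← hh, Equiv.symm_apply_apply])
    simp [this]
  · simp

/-- Vertex of a cell, in partial-sum coordinates. -/
def cellBase (s τ : ℝ) (a : Fin n → Fin m) : Fin n → ℝ :=
  fun j => τ + s * (a (Tuple.sort a j) : ℕ)

lemma isUnit_det_cumMat : IsUnit (cumMat n).det := by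
  rw [det_cumMat]; exact isUnit_one

/-- The cell of `a`, of size `s`, shifted by `τ`. -/
def cell (s τ : ℝ) (a : Fin n → Fin m) : Piece n where
  A := (cumMat n)⁻¹ * sortMat a * cumMat n
  B := (cumMat n)⁻¹ * (sortMat a)ᵀ * cumMat n
  hBA := by
    calc _ = (cumMat n)⁻¹ * (sortMat a)ᵀ * (cumMat n * (cumMat n)⁻¹) * sortMat a * cumMat n := by
          simp only [Matrix.mul_assoc]
      _ = (cumMat n)⁻¹ * ((sortMat a)ᵀ * sortMat a) * cumMat n := by
          rw [Matrix.mul_nonsing_inv _ isUnit_det_cumMat, Matrix.mul_one]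
          simp only [Matrix.mul_assoc]
      _ = 1 := by
          rw [sortMat_transpose_mul, Matrix.mul_one, Matrix.nonsing_inv_mul _ isUnit_det_cumMat]
  b := rmat (cumMat n)⁻¹ *ᵥ cellBase s τ a

lemma cum_cell_map (s τ : ℝ) (a : Fin n → Fin m) (p : Fin n → ℝ) (j : Fin n) :
    cum ((cell s τ a).map p) j =
      τ + s * (a (Tuple.sort a j) : ℕ) + cum p (Tuple.sort a j) := by
  have h1 : rmat (cumMat n) * rmat (cumMat n)⁻¹ = 1 := by
    rw [← rmat_mul, Matrix.mul_nonsing_inv _ isUnit_det_cumMat, rmat_one]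
  have h2 : rmat (sortMat a) *ᵥ cum p = fun j => cum p (Tuple.sort a j) := by
    funext j
    simp [Matrix.mulVec, dotProduct, rmat, sortMat]
  rw [← rmat_cumMat_mulVec, Piece.map, cell, Matrix.mulVec_add, Matrix.mulVec_mulVec, h1,
    Matrix.one_mulVec, rmat_mul, rmat_mul, Matrix.mulVec_mulVec, ← Matrix.mul_assoc,
    ← Matrix.mul_assoc, h1, Matrix.one_mul, ← Matrix.mulVec_mulVec, rmat_cumMat_mulVec, h2]
  rfl

lemma cum_bounds {p : Fin n → ℝ} {s : ℝ} (hp : p ∈ simplex n s) (i : Fin n) :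
    0 < cum p i ∧ cum p i < s :=
  ⟨cum_pos hp.1 i, (cum_le_sum (fun j => (hp.1 j).le) i).trans_lt hp.2⟩

lemma sort_lt_of_eq {a : Fin n → Fin m} {i j : Fin n} (hij : i < j)
    (h : a (Tuple.sort a i) = a (Tuple.sort a j)) : Tuple.sort a i < Tuple.sort a j :=
  ((Tuple.eq_sort_iff (f := a) (σ := Tuple.sort a)).mp rfl).2 i j hij h

lemma strictMono_cum_cell {s : ℝ} (τ : ℝ) (a : Fin n → Fin m) {p : Fin n → ℝ}
    (hp : p ∈ simplex n s) : StrictMono (cum ((cell s τ a).map p)) := by
  intro i j hij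
  rw [cum_cell_map, cum_cell_map]
  have hle : a (Tuple.sort a i) ≤ a (Tuple.sort a j) := Tuple.monotone_sort a hij.le
  rcases hle.lt_or_eq with h | h
  · have h1 : ((a (Tuple.sort a i) : ℕ) : ℝ) + 1 ≤ (a (Tuple.sort a j) : ℕ) := by
      exact_mod_cast (Fin.lt_def.mp h)
    have hs : 0 < s := lt_of_le_of_lt (Finset.sum_nonneg fun k _ => (hp.1 k).le) hp.2
    have := cum_bounds hp (Tuple.sort a i)
    have := cum_bounds hp (Tuple.sort a j)
    nlinarith
  · have := cum_strictMono hp.1 (sort_lt_of_eq hij h)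
    rw [h]; linarith

lemma cell_map_pos {s τ : ℝ} (hτ : 0 ≤ τ) (a : Fin n → Fin m) {p : Fin n → ℝ}
    (hp : p ∈ simplex n s) (j : Fin n) : 0 < (cell s τ a).map p j := by
  refine pos_of_cum_strictMono (fun i => ?_) (strictMono_cum_cell τ a hp) j
  rw [cum_cell_map]
  have hs : 0 < s := lt_of_le_of_lt (Finset.sum_nonneg fun k _ => (hp.1 k).le) hp.2
  have := (cum_bounds hp (Tuple.sort a i)).1
  positivity

lemma sum_eq_cum_top {k : ℕ} (x : Fin (k + 1) → ℝ) : ∑ j, x j = cum x (Fin.last k) := by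
  rw [cum]
  congr 1
  ext j; simp [Fin.le_last]

lemma cell_sum_bounds {k : ℕ} {s τ : ℝ} (a : Fin (k + 1) → Fin m) {p : Fin (k + 1) → ℝ}
    (hp : p ∈ simplex (k + 1) s) :
    ∑ j, (cell s τ a).map p j < τ + s * m ∧
      ∀ i, τ + s * (a i : ℕ) < ∑ j, (cell s τ a).map p j := by
  have hs : 0 < s := lt_of_le_of_lt (Finset.sum_nonneg fun k _ => (hp.1 k).le) hp.2
  refine ⟨?_, fun i => ?_⟩
  · rw [sum_eq_cum_top, cum_cell_map]
    have := (cum_bounds hp (Tuple.sort a (Fin.last k))).2
    have h : ((a (Tuple.sort a (Fin.last k)) : ℕ) : ℝ) + 1 ≤ m := by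
      exact_mod_cast (a (Tuple.sort a (Fin.last k))).isLt
    nlinarith
  · rw [sum_eq_cum_top]
    refine lt_of_lt_of_le ?_
      ((strictMono_cum_cell τ a hp).monotone (Fin.le_last ((Tuple.sort a).symm i)))
    rw [cum_cell_map, Equiv.apply_symm_apply]
    linarith [(cum_bounds hp i).1]

lemma cell_injective {s τ : ℝ} {a a' : Fin n → Fin m} {p p' : Fin n → ℝ}
    (hp : p ∈ simplex n s) (hp' : p' ∈ simplex n s)
    (h : (cell s τ a).map p = (cell s τ a').map p') : a = a' := by
  set σ := Tuple.sort a with hσ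
  set σ' := Tuple.sort a' with hσ'
  have hj : ∀ j, a (σ j) = a' (σ' j) ∧ cum p (σ j) = cum p' (σ' j) := by
    intro j
    have e : cum ((cell s τ a).map p) j = cum ((cell s τ a').map p') j := by rw [h]
    rw [cum_cell_map, cum_cell_map] at e
    have hs : 0 < s := lt_of_le_of_lt (Finset.sum_nonneg fun k _ => (hp.1 k).le) hp.2
    have b := cum_bounds hp (σ j)
    have b' := cum_bounds hp' (σ' j)
    have h1 : a (σ j) = a' (σ' j) := by
      apply Fin.ext
      by_contra hne
      rcases lt_or_gt_of_ne hne with hlt | hlt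
      · have : ((a (σ j) : ℕ) : ℝ) + 1 ≤ (a' (σ' j) : ℕ) := by exact_mod_cast hlt
        nlinarith
      · have : ((a' (σ' j) : ℕ) : ℝ) + 1 ≤ (a (σ j) : ℕ) := by exact_mod_cast hlt
        nlinarith
    refine ⟨h1, ?_⟩
    rw [h1] at e
    linarith
  have hmono : StrictMono (σ'.symm.trans σ) := by
    intro i i' hii'
    have e := (hj (σ'.symm i)).2
    have e' := (hj (σ'.symm i')).2
    rw [Equiv.apply_symm_apply] at e e'
    rw [← (cum_strictMono hp.1).lt_iff_lt]
    simp only [Equiv.trans_apply]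
    rw [e, e']
    exact cum_strictMono hp'.1 hii'
  have hid : ⇑(σ'.symm.trans σ) = id :=
    (StrictMono.range_inj hmono strictMono_id).mp (by simp)
  funext i
  have h1 : σ (σ'.symm i) = i := congrFun hid i
  have := (hj (σ'.symm i)).1
  rwa [Equiv.apply_symm_apply, h1] at this

/-- The identity piece. -/
def corner (n : ℕ) : Piece n where
  A := 1
  B := 1
  hBA := Matrix.one_mul 1
  b := 0

lemma corner_map (p : Fin n → ℝ) : (corner n).map p = p := by
  simp [Piece.map, corner, rmat_one]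

lemma card_top_cells (n m : ℕ) :
    (Finset.univ.filter fun a : Fin n → Fin (m + 1) => ∃ i, a i = Fin.last m).card =
      (m + 1) ^ n - m ^ n := by
  have h : (Finset.univ.filter fun a : Fin n → Fin (m + 1) => ¬ ∃ i, a i = Fin.last m) =
      Fintype.piFinset fun _ => Finset.univ.erase (Fin.last m) := by
    ext a; simp [Fintype.mem_piFinset]
  have h2 := Finset.card_filter_add_card_filter_not
    (s := (Finset.univ : Finset (Fin n → Fin (m + 1)))) (fun a => ∃ i, a i = Fin.last m)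
  rw [h, Fintype.card_piFinset] at h2
  simp at h2
  omega

/-- Simplices for one large ball `i₀` and at most `m ^ n - (m - 1) ^ n` balls of capacity less than
`R / m`: a corner and cells of a slab. -/
theorem slab_pieces {n k m : ℕ} {R : ℝ} {r : Fin k → ℝ} (hn : 1 ≤ n) (hm : 1 ≤ m)
    (B : Finset (Fin k)) (i₀ : Fin k) (hB₀ : i₀ ∉ B) (hcard : B.card ≤ m ^ n - (m - 1) ^ n)
    (hr : ∀ i, 0 < r i) (h₀ : r i₀ < R)
    (hpair : ∀ i ∈ B, r i + r i₀ < R) (hsmall : ∀ i ∈ B, r i < R / m) :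
    ∃ (P : Fin k → Piece n) (S : Fin k → ℝ),
      (∀ i ∈ insert i₀ B, r i < S i) ∧
      (∀ i ∈ insert i₀ B, P i = corner n ∨ ∃ (s τ : ℝ) (a : Fin n → Fin m), P i = cell s τ a) ∧
      (∀ i ∈ insert i₀ B, ∀ p ∈ simplex n (S i), (P i).map p ∈ simplex n R) ∧
      (∀ i ∈ insert i₀ B, ∀ i' ∈ insert i₀ B, i ≠ i' → ∀ p ∈ simplex n (S i),
        ∀ p' ∈ simplex n (S i'), (P i).map p ≠ (P i').map p') := by
  obtain ⟨n, rfl⟩ : ∃ l, n = l + 1 := ⟨n - 1, by omega⟩
  obtain ⟨m, rfl⟩ : ∃ l, m = l + 1 := ⟨m - 1, by omega⟩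
  have hR : 0 < R := (hr i₀).trans h₀
  set s₀ := min (R - r i₀) (R / ((m + 1 : ℕ) : ℝ)) with hs₀
  have hs₀pos : 0 < s₀ := lt_min (by linarith) (by positivity)
  obtain ⟨s, hs, hspos, hss₀⟩ : ∃ s, (∀ i, i ∈ B → r i < s) ∧ 0 < s ∧ s < s₀ := by
    have h1 : ∀ᶠ s in nhdsWithin s₀ (Set.Iio s₀), ∀ i, i ∈ B → r i < s := by
      refine Filter.eventually_all.mpr fun i => ?_
      by_cases hi : i ∈ B
      · have : r i < s₀ := lt_min (by linarith [hpair i hi]) (hsmall i hi)
        exact (eventually_nhdsWithin_of_eventually_nhds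
          (eventually_gt_nhds this)).mono fun _ h _ => h
      · exact Filter.Eventually.of_forall fun _ h => absurd h hi
    have h2 : ∀ᶠ s in nhdsWithin s₀ (Set.Iio s₀), 0 < s :=
      eventually_nhdsWithin_of_eventually_nhds (eventually_gt_nhds hs₀pos)
    exact ((h1.and (h2.and (eventually_nhdsWithin_of_forall fun s hs => hs))).exists)
  have hsR : s * ((m + 1 : ℕ) : ℝ) ≤ R := by
    have : s ≤ R / ((m + 1 : ℕ) : ℝ) := hss₀.le.trans (min_le_right _ _)
    rwa [le_div_iff₀ (by positivity)] at this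
  have hbig : r i₀ < R - s := by
    linarith [lt_of_lt_of_le hss₀ (min_le_left _ _)]
  set τ := R - s * ((m + 1 : ℕ) : ℝ) with hτ
  set T := Finset.univ.filter fun a : Fin (n + 1) → Fin (m + 1) => ∃ i, a i = Fin.last m
  obtain ⟨g⟩ : Nonempty (B ↪ T) := by
    apply Function.Embedding.nonempty_of_card_le
    rw [Fintype.card_coe, Fintype.card_coe, card_top_cells]
    simpa using hcard
  let P : Fin k → Piece (n + 1) := fun i =>
    if h : i ∈ B then cell s τ (g ⟨i, h⟩).1 else corner (n + 1)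
  have hτ0 : 0 ≤ τ := by linarith
  have slab : ∀ (a : Fin (n + 1) → Fin (m + 1)), a ∈ T → ∀ p ∈ simplex (n + 1) s,
      R - s < ∑ j, (cell s τ a).map p j ∧ ∑ j, (cell s τ a).map p j < R := by
    intro a ha p hp
    obtain ⟨i, hi⟩ := (Finset.mem_filter.mp ha).2
    have hb := cell_sum_bounds (τ := τ) a hp
    refine ⟨?_, by linarith [hb.1]⟩
    have := hb.2 i
    rw [hi, Fin.val_last] at this
    rw [hτ] at this ⊢
    push_cast at this ⊢
    linarith
  have h0P : P i₀ = corner (n + 1) := dif_neg hB₀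
  refine ⟨P, fun i => if i ∈ B then s else R - s, fun i hi => ?_, fun i hi => ?_, fun i hi p hp => ?_,
    fun i hi i' hi' hne p hp p' hp' heq => ?_⟩
  · rcases Finset.mem_insert.1 hi with rfl | h
    · simp [hB₀, hbig]
    · simp [h, hs i h]
  · rcases Finset.mem_insert.1 hi with rfl | h
    · exact Or.inl h0P
    · exact Or.inr ⟨s, τ, _, dif_pos h⟩
  · rcases Finset.mem_insert.1 hi with rfl | h
    · simp only [hB₀, if_false, h0P, corner_map] at hp ⊢
      exact ⟨hp.1, by linarith [hp.2]⟩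
    · simp only [h, if_true, P, dif_pos] at hp ⊢
      exact ⟨cell_map_pos hτ0 _ hp, (slab _ (g ⟨i, h⟩).2 p hp).2⟩
  · rcases Finset.mem_insert.1 hi with rfl | h <;> rcases Finset.mem_insert.1 hi' with h' | h'
    · exact hne h'.symm
    · simp only [hB₀, h', if_false, if_true, h0P, corner_map] at hp hp' heq
      simp only [P, dif_pos h'] at heq
      have := (slab _ (g ⟨i', h'⟩).2 p' hp').1
      rw [← heq] at this
      linarith [hp.2]
    · subst h'
      simp only [hB₀, h, if_false, if_true, h0P, corner_map] at hp hp' heq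
      simp only [P, dif_pos h] at heq
      have := (slab _ (g ⟨i, h⟩).2 p hp).1
      rw [heq] at this
      linarith [hp'.2]
    · simp only [h, h', if_true, P, dif_pos] at hp hp' heq
      have := g.injective (Subtype.ext (cell_injective hp hp' heq))
      exact hne (by simpa using congrArg Subtype.val this)

end

end Vale.Agent.P209
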