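import Vale.Agent.P209.Nested
import Mathlib.MeasureTheory.Measure.Lebesgue.EqHaar
import Mathlib.MeasureTheory.Constructions.Pi

/-!
# Completing a packing of few large balls by arbitrarily many small ones

The cells of a fine grid that avoid a given tame packing of a bounded number of simplices carry all but
an arbitrarily small part of the free volume.
-/

namespace Vale.Agent.P209

open Matrix MeasureTheory
open scoped Pointwise

noncomputable section

variable {n : ℕ}

lemma cum_add (x y : Fin n → ℝ) (i : Fin n) : cum (x + y) i = cum x i + cum y i :=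
  Finset.sum_add_distrib

lemma cum_sub (x y : Fin n → ℝ) (i : Fin n) : cum (x - y) i = cum x i - cum y i :=
  Finset.sum_sub_distrib _ _

/-- Small partial sums give small coordinates. -/
lemma abs_lt_of_cum {x : Fin n → ℝ} {h : ℝ} (hx : ∀ i, |cum x i| < h) (j : Fin n) : |x j| < 2 * h := by
  obtain ⟨j, hj⟩ := j
  rcases j with _ | j
  · have he : Finset.Iic (⟨0, hj⟩ : Fin n) = {⟨0, hj⟩} := by
      ext k; simp [Fin.le_def, Fin.ext_iff]
    have := hx ⟨0, hj⟩
    simp only [cum, he, Finset.sum_singleton] at this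
    linarith [abs_nonneg (x ⟨0, hj⟩)]
  · have he : Finset.Iic (⟨j + 1, hj⟩ : Fin n) = insert ⟨j + 1, hj⟩ (Finset.Iic ⟨j, by omega⟩) := by
      ext k; simp [Fin.le_def, Fin.ext_iff]; omega
    have h1 := hx ⟨j + 1, hj⟩
    simp only [cum, he] at h1
    rw [Finset.sum_insert (by simp [Fin.le_def])] at h1
    have h2 : |cum x ⟨j, by omega⟩| < h := hx _
    rw [cum] at h2
    have h1' := abs_lt.1 h1
    have h2' := abs_lt.1 h2
    exact abs_lt.2 ⟨by linarith, by linarith⟩

lemma sum_abs_lt_of_cum {x : Fin (n + 1) → ℝ} {h : ℝ} (hx : ∀ i, |cum x i| < h) :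
    |∑ i, x i| < h := by
  rw [sum_eq_cum_top]; exact hx _

/-- The inverse of a piece. -/
lemma Piece.map_B (P : Piece n) (x : Fin n → ℝ) : P.map (rmat P.B *ᵥ (x - P.b)) = x := by
  have hAB : P.A * P.B = 1 := mul_eq_one_comm.1 P.hBA
  rw [Piece.map, Matrix.mulVec_mulVec, ← rmat_mul, hAB, rmat_one, Matrix.one_mulVec, add_sub_cancel]

lemma Piece.image_eq_preimage (P : Piece n) (S : Set (Fin n → ℝ)) :
    P.map '' S = (fun x => rmat P.B *ᵥ (x - P.b)) ⁻¹' S := by
  ext x
  constructor
  · rintro ⟨p, hp, rfl⟩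
    have h := P.map_injective (P.map_B (P.map p))
    show rmat P.B *ᵥ (P.map p - P.b) ∈ S
    rw [h]; exact hp
  · exact fun hx => ⟨_, hx, P.map_B x⟩

lemma isOpen_simplex (s : ℝ) : IsOpen (simplex n s) := by
  simp only [simplex, Set.ofPred_and, Set.ofPred_forall]
  exact (isOpen_iInter_of_finite fun j => isOpen_lt continuous_const (continuous_apply j)).inter
    (isOpen_lt (by fun_prop) continuous_const)

lemma Piece.isOpen_image (P : Piece n) {S : Set (Fin n → ℝ)} (hS : IsOpen S) :
    IsOpen (P.map '' S) := by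
  rw [P.image_eq_preimage]
  exact hS.preimage ((Matrix.mulVecLin (rmat P.B)).continuous_of_finiteDimensional.comp
    (continuous_id.sub continuous_const))

lemma Piece.volume_image (P : Piece n) (S : Set (Fin n → ℝ)) :
    volume (P.map '' S) = volume S := by
  have e : P.map '' S = (fun x => P.b + x) '' (Matrix.toLin' (rmat P.A) '' S) := by
    rw [Set.image_image]; rfl
  have hdet : |LinearMap.det (Matrix.toLin' (rmat P.A))| = 1 := by
    rw [LinearMap.det_toLin', rmat, ← RingHom.mapMatrix_apply, ← RingHom.map_det]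
    have hu : IsUnit P.A.det := by
      refine IsUnit.of_mul_eq_one P.B.det ?_
      rw [← Matrix.det_mul, mul_eq_one_comm.1 P.hBA, Matrix.det_one]
    rcases Int.isUnit_iff.1 hu with h | h <;> simp [h]
  rw [e, Set.image_add_left, measure_preimage_add, Measure.addHaar_image_linearMap, hdet,
    ENNReal.ofReal_one, one_mul]

lemma simplex_smul {s : ℝ} (hs : 0 < s) : simplex n s = s • simplex n 1 := by
  ext p
  rw [Set.mem_smul_set_iff_inv_smul_mem₀ hs.ne']
  simp only [simplex, Set.mem_ofPred_eq, Pi.smul_apply, smul_eq_mul, ← Finset.mul_sum]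
  refine and_congr (forall_congr' fun j => ?_) ?_
  · exact (mul_pos_iff_of_pos_left (inv_pos.2 hs)).symm
  · rw [inv_mul_lt_iff₀ hs, mul_one]

lemma volume_simplex {s : ℝ} (hs : 0 < s) :
    volume (simplex n s) = ENNReal.ofReal (s ^ n) * volume (simplex n 1) := by
  rw [simplex_smul hs, Measure.addHaar_smul, Module.finrank_pi, Fintype.card_fin,
    abs_of_pos (pow_pos hs n)]

lemma volume_simplex_pos : 0 < volume (simplex n 1) := by
  refine (isOpen_simplex 1).measure_pos _ ⟨fun _ => 1 / (n + 1), fun _ => by positivity, ?_⟩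
  simp only [Finset.sum_const, Finset.card_univ, Fintype.card_fin, nsmul_eq_mul]
  rw [mul_one_div, div_lt_one (by positivity)]
  linarith

lemma volume_simplex_ne_top : volume (simplex n 1) ≠ ⊤ := by
  refine ne_top_of_le_ne_top ?_ (measure_mono (t := Set.Icc (0 : Fin n → ℝ) 1) fun p hp => ?_)
  · exact (isCompact_Icc.measure_lt_top).ne
  · refine ⟨fun j => (hp.1 j).le, fun j => ?_⟩
    exact (Finset.single_le_sum (fun i _ => (hp.1 i).le) (Finset.mem_univ j)).trans hp.2.le

/-- A piece is tame if points close in partial sums have preimages close in partial sums. -/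
def Piece.Tame (P : Piece n) : Prop :=
  ∀ (h : ℝ) (q q' : Fin n → ℝ), (∀ j, |cum (P.map q') j - cum (P.map q) j| < h) →
    ∀ i, |cum q' i - cum q i| < h

lemma tame_corner : (corner n).Tame := fun h q q' hq i => by
  simpa [corner_map] using hq i

lemma tame_cell {m : ℕ} (s τ : ℝ) (a : Fin n → Fin m) : (cell s τ a).Tame := fun h q q' hq i => by
  have := hq ((Tuple.sort a).symm i)
  rw [cum_cell_map, cum_cell_map, Equiv.apply_symm_apply] at this
  simpa using this

/-- At most `((s + (2n+3) h) / h) ^ (n+1)` grid cells meet a tame simplex of size `s`. -/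
lemma card_meet_le {M : ℕ} {P : Piece (n + 1)} (hP : P.Tame) {s h : ℝ} (hs : 0 < s) (hh : 0 < h)
    (T : Finset (Fin (n + 1) → Fin M))
    (hT : ∀ a ∈ T, ∃ q ∈ simplex (n + 1) s, ∃ p ∈ simplex (n + 1) h,
      P.map q = (cell h 0 a).map p) :
    (T.card : ℝ) * h ^ (n + 1) ≤ (s + (2 * n + 3) * h) ^ (n + 1) := by
  set e : Fin (n + 1) → ℝ := fun _ => -(2 * h) with he
  have hs' : 0 < s + (2 * n + 3) * h := by positivity
  have hsub : (⋃ a ∈ T, (cell h 0 a).map '' simplex (n + 1) h) ⊆
      P.map '' ((fun x => e + x) '' simplex (n + 1) (s + (2 * n + 3) * h)) := by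
    intro x hx
    simp only [Set.mem_iUnion] at hx
    obtain ⟨a, ha, p', hp', rfl⟩ := hx
    obtain ⟨q, hq, p, hp, hqp⟩ := hT a ha
    set q' := rmat P.B *ᵥ ((cell h 0 a).map p' - P.b) with hq'
    have hmap : P.map q' = (cell h 0 a).map p' := P.map_B _
    have hclose : ∀ i, |cum q' i - cum q i| < h := by
      refine hP h q q' fun j => ?_
      rw [hmap, hqp, cum_cell_map, cum_cell_map]
      have b1 := cum_bounds hp (Tuple.sort a j)
      have b2 := cum_bounds hp' (Tuple.sort a j)
      rw [abs_lt]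
      constructor <;> linarith
    have hd : ∀ i, |cum (q' - q) i| < h := fun i => by rw [cum_sub]; exact hclose i
    refine ⟨q', ⟨q' - e, ⟨fun j => ?_, ?_⟩, add_sub_cancel _ _⟩, hmap⟩
    · have h1 := (abs_lt.1 (abs_lt_of_cum hd j)).1
      have h2 := hq.1 j
      simp only [Pi.sub_apply] at h1
      simp only [Pi.sub_apply, he]
      linarith
    · have h1 := (abs_lt.1 (sum_abs_lt_of_cum hd)).2
      simp only [Pi.sub_apply, Finset.sum_sub_distrib] at h1
      simp only [Pi.sub_apply, he, Finset.sum_sub_distrib, Finset.sum_const, Finset.card_univ,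
        Fintype.card_fin, nsmul_eq_mul, Nat.cast_add, Nat.cast_one]
      nlinarith [hq.2]
  have hm := measure_mono (μ := volume) hsub
  rw [measure_biUnion_finset ?_ (fun a _ => ((cell h 0 a).isOpen_image (isOpen_simplex h)).measurableSet),
    Piece.volume_image, Set.image_add_left, measure_preimage_add, volume_simplex hs'] at hm
  · simp only [Piece.volume_image, volume_simplex hh, Finset.sum_const, nsmul_eq_mul] at hm
    rw [← mul_assoc, ENNReal.mul_le_mul_iff_left volume_simplex_pos.ne' volume_simplex_ne_top,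
      ← ENNReal.ofReal_natCast, ← ENNReal.ofReal_mul (Nat.cast_nonneg _),
      ENNReal.ofReal_le_ofReal_iff (by positivity)] at hm
    exact hm
  · intro a _ a' _ hne
    rw [Function.onFun, Set.disjoint_left]
    rintro x ⟨p, hp, rfl⟩ ⟨p', hp', he'⟩
    exact hne (cell_injective hp hp' he'.symm)

/-- Greedy distribution of small weights into bins. -/
lemma exists_bins {ι κ : Type} [Fintype ι] [Fintype κ] [DecidableEq κ] (w : ι → ℝ) {c e : ℝ}
    (hc : 0 ≤ c) (he : 0 ≤ e) (hw : ∀ i, 0 < w i) (hwe : ∀ i, w i ≤ e)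
    (hsum : ∑ i, w i ≤ Fintype.card κ * c) :
    ∃ f : ι → κ, ∀ a, ∑ i ∈ Finset.univ.filter (fun i => f i = a), w i ≤ c + e := by
  classical
  cases isEmpty_or_nonempty ι with
  | inl h => exact ⟨isEmptyElim, fun a => by simp; linarith⟩
  | inr h =>
    have : Nonempty κ := by
      rw [← Fintype.card_pos_iff]
      by_contra h0
      have : ∑ i, w i ≤ 0 := by simpa [Nat.eq_zero_of_not_pos h0] using hsum
      linarith [Finset.sum_pos (fun i _ => hw i) (Finset.univ_nonempty (α := ι))]
    suffices H : ∀ S : Finset ι, ∃ f : ι → κ, ∀ a, ∑ i ∈ S.filter (fun i => f i = a), w i ≤ c + e from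
      H Finset.univ
    intro S
    induction S using Finset.induction with
    | empty => exact ⟨fun _ => Classical.arbitrary κ, fun a => by simp; linarith⟩
    | insert i S hi ih =>
      obtain ⟨f, hf⟩ := ih
      obtain ⟨a₀, ha₀⟩ : ∃ a, ∑ x ∈ S.filter (fun x => f x = a), w x ≤ c := by
        by_contra hcon
        push Not at hcon
        have h1 := Finset.sum_fiberwise S f w
        have h2 : ∑ a : κ, c ≤ ∑ a, ∑ x ∈ S.filter (fun x => f x = a), w x :=
          Finset.sum_le_sum fun a _ => (hcon a).le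
        have h3 : ∑ x ∈ insert i S, w x ≤ ∑ x, w x :=
          Finset.sum_le_univ_sum_of_nonneg fun x => (hw x).le
        rw [Finset.sum_insert hi] at h3
        simp only [Finset.sum_const, Finset.card_univ, nsmul_eq_mul] at h2
        linarith [hw i]
      refine ⟨Function.update f i a₀, fun a => ?_⟩
      have heq : S.filter (fun x => Function.update f i a₀ x = a) = S.filter (fun x => f x = a) :=
        Finset.filter_congr fun x hx => by
          rw [Function.update_of_ne]; rintro rfl; exact hi hx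
      rw [Finset.filter_insert, Function.update_self]
      split_ifs with ha
      · rw [Finset.sum_insert (by simp [hi]), heq, ← ha]
        linarith [hwe i]
      · rw [heq]; exact hf a

/-- A packing of at most `b` large balls by tame pieces extends by arbitrarily many small balls. -/
theorem hasBallPacking_complete (N : ℕ) (hN : 1 ≤ N) (δ : ℝ) (hδ : 0 < δ) (b : ℕ) :
    ∃ m : ℕ, 2 ≤ m ∧ ∀ (k : ℕ) (R : ℝ) (r : Fin k → ℝ), 0 < R → (∀ i, 0 < r i) →
      ∑ i, r i ^ N ≤ (1 - δ) * R ^ N →
      ∀ (B : Finset (Fin k)), B.card ≤ b → (∀ i ∉ B, r i < R / m) →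
      ∀ (P : Fin k → Piece N) (S : Fin k → ℝ), (∀ i ∈ B, r i < S i ∧ (P i).Tame) →
        (∀ i ∈ B, ∀ p ∈ simplex N (S i), (P i).map p ∈ simplex N R) →
        (∀ i ∈ B, ∀ i' ∈ B, i ≠ i' → ∀ p ∈ simplex N (S i), ∀ p' ∈ simplex N (S i'),
          (P i).map p ≠ (P i').map p') →
        HasBallPacking N R r := by
  classical
  obtain ⟨n, rfl⟩ : ∃ l, N = l + 1 := ⟨N - 1, by omega⟩
  set d := min δ 1 with hd
  have hd0 : 0 < d := lt_min hδ one_pos
  have hd1 : d ≤ 1 := min_le_right _ _
  obtain ⟨m₁, hm₁, hsmallThm⟩ := packs_small (n + 1) (by omega) (d / 4) (by linarith)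
  obtain ⟨m₂, hm₂⟩ := exists_nat_gt (4 / d)
  set C : ℝ := 2 * n + 4 with hC
  obtain ⟨M, hM⟩ := exists_nat_gt ((b : ℝ) * C * (n + 1) * (1 + C) ^ n / (d / 2) + 1)
  have hMr : (1 : ℝ) < M := lt_of_le_of_lt (le_add_of_nonneg_left (by positivity)) hM
  have hM0 : 0 < M := by exact_mod_cast lt_trans zero_lt_one hMr
  refine ⟨2 * (M * (m₁ + m₂ + 1)), by nlinarith, fun k R r hR hr hvol B hB hsmall P S hS hP hdis => ?_⟩
  set h := R / M with hh'
  have hh : 0 < h := by positivity
  have hRh : h * M = R := div_mul_cancel₀ _ (by positivity)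
  have hRN : 0 < R ^ (n + 1) := by positivity
  have hhN : 0 < h ^ (n + 1) := by positivity
  -- sizes of the large simplices
  set S' : Fin k → ℝ := fun i => min (S i) (r i + h) with hS'
  have hS'r : ∀ i ∈ B, r i < S' i := fun i hi => lt_min (hS i hi).1 (by linarith)
  have hmono : ∀ i, simplex (n + 1) (S' i) ⊆ simplex (n + 1) (S i) := fun i p hp =>
    ⟨hp.1, hp.2.trans_le (min_le_left _ _)⟩
  -- free cells
  let meets : Fin k → Finset (Fin (n + 1) → Fin M) := fun i => Finset.univ.filter fun a =>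
    ∃ q ∈ simplex (n + 1) (S' i), ∃ p ∈ simplex (n + 1) h, (P i).map q = (cell h 0 a).map p
  set Free : Finset (Fin (n + 1) → Fin M) := Finset.univ \ B.biUnion meets with hFree
  have hcard : (M : ℝ) ^ (n + 1) ≤ Free.card + ∑ i ∈ B, ((meets i).card : ℝ) := by
    have h1 := Finset.card_le_card (Finset.subset_union_left :
      (Finset.univ : Finset (Fin (n + 1) → Fin M)) ⊆ Finset.univ ∪ B.biUnion meets)
    rw [← Finset.sdiff_union_self_eq_union, ← hFree] at h1
    have h2 := h1.trans ((Finset.card_union_le _ _).trans (Nat.add_le_add_left Finset.card_biUnion_le _))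
    rw [Finset.card_univ, Fintype.card_fun, Fintype.card_fin, Fintype.card_fin] at h2
    exact_mod_cast h2
  have hrR : ∀ i, r i ≤ R := fun i => le_of_pow_le_pow_left₀ (n := n + 1) (by omega) hR.le
    ((Finset.single_le_sum (f := fun i => r i ^ (n + 1)) (fun j _ => by have := hr j; positivity)
      (Finset.mem_univ i)).trans (hvol.trans (by nlinarith)))
  have hmeet : ∀ i ∈ B, ((meets i).card : ℝ) * h ^ (n + 1) ≤
      r i ^ (n + 1) + C * h * (n + 1) * ((1 + C) * R) ^ n := by
    intro i hi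
    have h1 := card_meet_le (hS i hi).2 ((hr i).trans (hS'r i hi)) hh (meets i)
      fun a ha => (Finset.mem_filter.1 ha).2
    have h2 : S' i + (2 * n + 3) * h ≤ r i + C * h := by
      have : S' i ≤ r i + h := min_le_right _ _
      rw [hC]; linarith
    have hpos : 0 ≤ S' i + (2 * (n : ℝ) + 3) * h := by
      have := (hr i).trans (hS'r i hi)
      positivity
    refine h1.trans ((pow_le_pow_left₀ hpos h2 _).trans ?_)
    have hC0 : 0 < C := by positivity
    have hCh : C * h ≤ C * R := by
      gcongr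
      exact div_le_self hR.le hMr.le
    have key := abs_pow_sub_pow_le (r i + C * h) (r i) (n + 1)
    have hmax : max |r i + C * h| |r i| ≤ (1 + C) * R := by
      have := hr i
      rw [abs_of_pos (by positivity), abs_of_pos (hr i)]
      refine max_le ?_ ?_ <;> nlinarith [hrR i]
    rw [add_sub_cancel_left, abs_of_pos (by positivity : 0 < C * h), Nat.add_sub_cancel] at key
    have := (le_abs_self _).trans (key.trans (mul_le_mul_of_nonneg_left
      (pow_le_pow_left₀ (le_max_of_le_right (abs_nonneg _)) hmax n) (by positivity)))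
    push_cast at this
    linarith
  have hloss : (b : ℝ) * (C * h * (n + 1) * ((1 + C) * R) ^ n) ≤ d / 2 * R ^ (n + 1) := by
    have h1 : (b : ℝ) * C * (n + 1) * (1 + C) ^ n ≤ d / 2 * M := by
      rw [← div_le_iff₀' (by linarith)]; linarith
    calc (b : ℝ) * (C * h * (n + 1) * ((1 + C) * R) ^ n)
        = (b * C * (n + 1) * (1 + C) ^ n) * h * R ^ n := by rw [mul_pow]; ring
      _ ≤ d / 2 * M * h * R ^ n := by gcongr
      _ = d / 2 * R ^ (n + 1) := by rw [mul_assoc (d / 2), mul_comm (M : ℝ) h, hRh]; ring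
  have hgrid : R ^ (n + 1) = (M : ℝ) ^ (n + 1) * h ^ (n + 1) := by rw [← mul_pow, mul_comm, hRh]
  -- distribute the small balls
  let ι := {i : Fin k // i ∉ B}
  have hFvol : ∑ x : ι, r x.1 ^ (n + 1) ≤ Fintype.card Free * ((1 - d / 2) * h ^ (n + 1)) := by
    have hsplit : ∑ i ∈ B, r i ^ (n + 1) + ∑ x : ι, r x.1 ^ (n + 1) = ∑ i, r i ^ (n + 1) := by
      rw [← Finset.sum_add_sum_compl B]
      congr 1
      exact (Finset.sum_subtype Bᶜ (fun _ => Finset.mem_compl) (fun i => r i ^ (n + 1))).symm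
    have h1 : ∑ i ∈ B, ((meets i).card : ℝ) * h ^ (n + 1) ≤
        ∑ i ∈ B, r i ^ (n + 1) + d / 2 * R ^ (n + 1) := by
      refine (Finset.sum_le_sum hmeet).trans ?_
      rw [Finset.sum_add_distrib, Finset.sum_const, nsmul_eq_mul]
      refine add_le_add le_rfl (le_trans ?_ hloss)
      refine mul_le_mul_of_nonneg_right (by exact_mod_cast hB) (by positivity)
    have h2 := mul_le_mul_of_nonneg_right hcard hhN.le
    rw [add_mul, Finset.sum_mul, ← hgrid] at h2
    have h3 : (1 - δ) * R ^ (n + 1) ≤ (1 - d) * R ^ (n + 1) := by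
      gcongr; exact min_le_left _ _
    have h4 : (Free.card : ℝ) * h ^ (n + 1) ≤ R ^ (n + 1) := by
      rw [hgrid]; gcongr
      have := Finset.card_le_univ Free
      rw [Fintype.card_fun, Fintype.card_fin, Fintype.card_fin] at this
      exact_mod_cast this
    rw [Fintype.card_coe]
    nlinarith
  have hlt : ∀ x : ι, r x.1 < h / (m₁ + m₂ + 1 : ℕ) := fun x => by
    refine (hsmall x.1 x.2).trans_le ?_
    rw [hh', div_div]
    refine div_le_div_of_nonneg_left hR.le (by positivity) ?_
    push_cast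
    have : (0:ℝ) ≤ M * (m₁ + m₂ + 1) := by positivity
    linarith
  have hitem : ∀ x : ι, r x.1 ^ (n + 1) ≤ d / 4 * h ^ (n + 1) := by
    intro x
    have h1 : 4 / d < (m₁ + m₂ + 1 : ℕ) := hm₂.trans_le (by push_cast; linarith [m₁.cast_nonneg (α := ℝ)])
    refine (pow_le_pow_left₀ (hr _).le (hlt x).le _).trans ?_
    rw [div_pow, div_le_iff₀ (by positivity), mul_right_comm]
    refine le_mul_of_one_le_left hhN.le ?_
    have h2 : ((m₁ + m₂ + 1 : ℕ) : ℝ) ≤ ((m₁ + m₂ + 1 : ℕ) : ℝ) ^ (n + 1) :=
      le_self_pow₀ (by exact_mod_cast (by omega : 1 ≤ m₁ + m₂ + 1)) (by omega)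
    rw [div_lt_iff₀ hd0] at h1
    nlinarith
  obtain ⟨g, hg⟩ := exists_bins (fun x : ι => r x.1 ^ (n + 1)) (c := (1 - d / 2) * h ^ (n + 1))
    (e := d / 4 * h ^ (n + 1)) (by nlinarith) (by positivity) (fun x => by have := hr x.1; positivity)
    hitem hFvol
  -- pack inside each free cell
  have hin : ∀ a : Free, ∃ (s : {x : ι // g x = a} → ℝ) (Q : {x : ι // g x = a} → Piece (n + 1)),
      (∀ y, r y.1.1 < s y) ∧ (∀ y, ∀ p ∈ simplex (n + 1) (s y), (Q y).map p ∈ simplex (n + 1) h) ∧
      ∀ y y', y ≠ y' → ∀ p ∈ simplex (n + 1) (s y), ∀ p' ∈ simplex (n + 1) (s y'),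
        (Q y).map p ≠ (Q y').map p' := by
    intro a
    let E := Fintype.equivFin {x : ι // g x = a}
    obtain ⟨s, hs, Q, hQ, hQd⟩ := hsmallThm _ h (fun l => r (E.symm l).1.1) hh (fun l => hr _)
      (fun l => (hlt _).trans_le (by
        refine div_le_div_of_nonneg_left hh.le (by exact_mod_cast hm₁) ?_
        exact_mod_cast (by omega : m₁ ≤ m₁ + m₂ + 1)))
      (by
        rw [E.symm.sum_comp (fun y => r y.1.1 ^ (n + 1)),
          ← Finset.sum_subtype (Finset.univ.filter fun x => g x = a) (fun x => by simp)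
            (fun x => r x.1 ^ (n + 1))]
        refine (hg a).trans (le_of_eq ?_)
        ring)
    refine ⟨fun y => s (E y), fun y => Q (E y), fun y => by simpa using hs (E y),
      fun y => hQ (E y), fun y y' hne => hQd _ _ (fun he => hne (E.injective he))⟩
  choose sS QS hsS hQS hQd using hin
  -- all pieces
  let fullS : Fin k → ℝ := fun i =>
    if hi : i ∈ B then S' i else sS (g ⟨i, hi⟩) ⟨⟨i, hi⟩, rfl⟩
  let fullP : Fin k → Piece (n + 1) := fun i =>
    if hi : i ∈ B then P i
    else (cell h 0 (g ⟨i, hi⟩).1).comp (QS (g ⟨i, hi⟩) ⟨⟨i, hi⟩, rfl⟩)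
  have hcellin : ∀ (a : Fin (n + 1) → Fin M), ∀ p ∈ simplex (n + 1) h,
      (cell h 0 a).map p ∈ simplex (n + 1) R := fun a p hp =>
    ⟨cell_map_pos le_rfl a hp, by linarith [(cell_sum_bounds (τ := 0) a hp).1]⟩
  have hfull : ∀ i, ∀ p ∈ simplex (n + 1) (fullS i), (fullP i).map p ∈ simplex (n + 1) R := by
    intro i p hp
    by_cases hi : i ∈ B
    · simp only [fullS, fullP, dif_pos hi] at hp ⊢
      exact hP i hi p (hmono i hp)
    · simp only [fullS, fullP, dif_neg hi] at hp ⊢
      rw [Piece.comp_map]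
      exact hcellin _ _ (hQS _ _ p hp)
  have hbs : ∀ i ∈ B, ∀ (i' : Fin k) (hi' : i' ∉ B), ∀ p ∈ simplex (n + 1) (S' i),
      ∀ p' ∈ simplex (n + 1) h, (P i).map p ≠ (cell h 0 (g ⟨i', hi'⟩).1).map p' := by
    intro i hi i' hi' p hp p' hp' he
    exact (Finset.mem_sdiff.1 (g ⟨i', hi'⟩).2).2 (Finset.mem_biUnion.2
      ⟨i, hi, Finset.mem_filter.2 ⟨Finset.mem_univ _, p, hp, p', hp', he⟩⟩)
  refine hasBallPacking_of_pieces fullP fullS hr (fun i => ?_) (fun i p hp => (hfull i p hp).1)
    (fun i p hp => (hfull i p hp).2) fun i i' hne p hp p' hp' => ?_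
  · by_cases hi : i ∈ B
    · simp only [fullS, dif_pos hi]; exact hS'r i hi
    · simp only [fullS, dif_neg hi]; exact hsS _ ⟨⟨i, hi⟩, rfl⟩
  · by_cases hi : i ∈ B <;> by_cases hi' : i' ∈ B
    · simp only [fullS, fullP, dif_pos hi, dif_pos hi'] at hp hp' ⊢
      exact hdis i hi i' hi' hne p (hmono i hp) p' (hmono i' hp')
    · simp only [fullS, fullP, dif_pos hi, dif_neg hi'] at hp hp' ⊢
      rw [Piece.comp_map]
      exact hbs i hi i' hi' p hp _ (hQS _ _ p' hp')
    · simp only [fullS, fullP, dif_neg hi, dif_pos hi'] at hp hp' ⊢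
      rw [Piece.comp_map]
      exact (hbs i' hi' i hi p' hp' _ (hQS _ _ p hp)).symm
    · simp only [fullS, fullP, dif_neg hi, dif_neg hi'] at hp hp' ⊢
      rw [Piece.comp_map, Piece.comp_map]
      intro he
      have hga : g ⟨i, hi⟩ = g ⟨i', hi'⟩ :=
        Subtype.ext (cell_injective (hQS _ _ p hp) (hQS _ _ p' hp') he)
      have key : ∀ (a a' : Free) (y : {x : ι // g x = a}) (y' : {x : ι // g x = a'}), a = a' →
          y.1 ≠ y'.1 → ∀ q ∈ simplex (n + 1) (sS a y), ∀ q' ∈ simplex (n + 1) (sS a' y'),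
          (cell h 0 a.1).map ((QS a y).map q) ≠ (cell h 0 a'.1).map ((QS a' y').map q') := by
        rintro a _ y y' rfl hy q hq q' hq' he
        exact hQd a y y' (fun e => hy (congrArg Subtype.val e)) q hq q' hq'
          (Piece.map_injective _ he)
      exact key _ _ ⟨⟨i, hi⟩, rfl⟩ ⟨⟨i', hi'⟩, rfl⟩ hga
        (fun e => hne (congrArg Subtype.val e)) p hp p' hp' he

end

end Vale.Agent.P209
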