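import Mathlib.Analysis.Calculus.ContDiff.Basic
import Mathlib.Analysis.SpecialFunctions.Trigonometric.Basic

/-!
# Symplectic ball packings of a ball: definitions
-/

namespace Vale.Agent.P209

open scoped ContDiff

/-- The standard area form on `ℂ`, `dx ∧ dy`. -/
def areaForm (u v : ℂ) : ℝ := u.re * v.im - u.im * v.re

/-- The standard symplectic form `∑ dx_j ∧ dy_j` on `ℂ^n`. -/
def omega0 {n : ℕ} (u v : Fin n → ℂ) : ℝ := ∑ j, areaForm (u j) (v j)

/-- The closed ball of capacity `R`. -/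
def closedCapBall (n : ℕ) (R : ℝ) : Set (Fin n → ℂ) := {z | Real.pi * ∑ j, ‖z j‖ ^ 2 ≤ R}

/-- The open ball of capacity `R`. -/
def openCapBall (n : ℕ) (R : ℝ) : Set (Fin n → ℂ) := {z | Real.pi * ∑ j, ‖z j‖ ^ 2 < R}

/-- A smooth symplectic embedding of an open subset of `ℂ^n` into `ℂ^n`. -/
def IsSymplecticEmbeddingOn {n : ℕ} (f : (Fin n → ℂ) → (Fin n → ℂ)) (U : Set (Fin n → ℂ)) : Prop :=
  IsOpen U ∧ ContDiffOn ℝ ∞ f U ∧ Set.InjOn f U ∧
    ∀ z ∈ U, ∀ u v, omega0 (fderiv ℝ f z u) (fderiv ℝ f z v) = omega0 u v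

/-- Closed balls of capacities `r i` embed symplectically, with disjoint images, into the open ball
of capacity `R`. -/
def HasBallPacking {k : ℕ} (n : ℕ) (R : ℝ) (r : Fin k → ℝ) : Prop :=
  ∃ f : Fin k → (Fin n → ℂ) → (Fin n → ℂ),
    (∀ i, ∃ U, closedCapBall n (r i) ⊆ U ∧ IsSymplecticEmbeddingOn (f i) U) ∧
    (∀ i, f i '' closedCapBall n (r i) ⊆ openCapBall n R) ∧
    Pairwise fun i i' => Disjoint (f i '' closedCapBall n (r i)) (f i' '' closedCapBall n (r i'))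

end Vale.Agent.P209
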