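import Vale.Agent.P209.Defs
import Mathlib.Analysis.SpecialFunctions.Complex.LogDeriv
import Mathlib.Analysis.SpecialFunctions.Complex.Arg
import Mathlib.Analysis.SpecialFunctions.Sqrt

/-!
# An explicit area preserving embedding of a disc into a strip

A closed-form version of Traynor's map from a disc to a rectangle, with the first coordinate
at most `π |z|² + δ`.
-/

namespace Vale.Agent.P209

open scoped ContDiff
open Complex (I)

noncomputable section

variable (a η K : ℝ)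

/-- Horizontal coordinate after pushing the disc off a ray. -/
def du (x y : ℝ) : ℝ := (2 * a * η - (η + K * y ^ 2) * x) / (1 + K * y ^ 2)

/-- The pushed point. -/
def dw (z : ℂ) : ℂ := ⟨du a η K z.re z.im, -z.im⟩

/-- Squared modulus of the pushed point. -/
def dS (z : ℂ) : ℝ := du a η K z.re z.im ^ 2 + z.im ^ 2

/-- Weight. -/
def dg (S : ℝ) : ℝ := (1 - η) / (Real.sqrt η * Real.sqrt (η + K * S))

/-- Eccentricity. -/
def dk (S : ℝ) : ℝ := Real.sqrt (η + K * S) / Real.sqrt η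

/-- The pushed point, stretched vertically. -/
def dw' (z : ℂ) : ℂ := ⟨du a η K z.re z.im, -(dk η K (dS a η K z) * z.im)⟩

/-- First coordinate. -/
def dP (S : ℝ) : ℝ :=
  Real.pi * S + 2 * Real.pi * (1 - η) * (Real.sqrt (η + K * S) - Real.sqrt η) / (K * Real.sqrt η)

/-- Second coordinate. -/
def dW (z : ℂ) : ℝ :=
  ((Complex.log (dw a η K z)).im + dg η K (dS a η K z) * (Complex.log (dw' a η K z)).im) /
    (2 * Real.pi * (1 + dg η K (dS a η K z)))

/-- The area preserving map. -/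
def dpsi (z : ℂ) : ℂ := ⟨dP η K (dS a η K z), dW a η K z⟩

/-- The domain of the map. -/
def ddom : Set ℂ := {z | z.re < 2 * a ∨ z.im ≠ 0}

variable {a η K}

lemma fderiv_eq_of_line {E F : Type*} [NormedAddCommGroup E] [NormedSpace ℝ E]
    [NormedAddCommGroup F] [NormedSpace ℝ F] {f : E → F} {z e : E} {v : F}
    (hf : DifferentiableAt ℝ f z) (h : HasDerivAt (fun t : ℝ => f (z + t • e)) v 0) :
    fderiv ℝ f z e = v := by
  have h1 : HasDerivAt (fun t : ℝ => z + t • e) e 0 := by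
    simpa using ((hasDerivAt_id (0 : ℝ)).smul_const e).const_add z
  exact ((hf.hasFDerivAt).comp_hasDerivAt_of_eq (0 : ℝ) h1 (by simp)).unique h

lemma isOpen_ddom : IsOpen (ddom a) :=
  (isOpen_lt Complex.continuous_re continuous_const).union
    (isOpen_ne_fun Complex.continuous_im continuous_const)

set_option linter.unusedSectionVars false

variable (hη : 0 < η) (hη1 : η ≤ 1) (hK : 0 < K)

include hη hK

lemma den_pos (y : ℝ) : 0 < η + K * y ^ 2 := by positivity

lemma den1_pos (y : ℝ) : 0 < 1 + K * y ^ 2 := by positivity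

lemma dw_mem {z : ℂ} (hz : z ∈ ddom a) : dw a η K z ∈ Complex.slitPlane := by
  rw [Complex.mem_slitPlane_iff]
  by_cases h : z.im = 0
  · left
    have hx : z.re < 2 * a := hz.resolve_right (fun hh => hh h)
    simp only [dw, du, h]
    norm_num
    nlinarith
  · right
    simpa [dw] using h

lemma dS_pos {z : ℂ} (hz : z ∈ ddom a) : 0 < dS a η K z := by
  have h := Complex.slitPlane_ne_zero (dw_mem hη hK hz)
  have := Complex.normSq_pos.mpr h
  simpa [Complex.normSq_apply, dw, dS, pow_two] using this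

lemma sqrt_den_pos {S : ℝ} (hS : 0 ≤ S) : 0 < Real.sqrt (η + K * S) := by
  apply Real.sqrt_pos.mpr; positivity

lemma dk_pos {S : ℝ} (hS : 0 ≤ S) : 0 < dk η K S :=
  div_pos (sqrt_den_pos hη hK hS) (Real.sqrt_pos.mpr hη)

lemma dw'_mem {z : ℂ} (hz : z ∈ ddom a) : dw' a η K z ∈ Complex.slitPlane := by
  have h := dw_mem hη hK hz
  have hk := dk_pos hη hK (dS_pos hη hK hz).le
  rw [Complex.mem_slitPlane_iff] at h ⊢
  rcases h with h | h
  · left; simpa [dw, dw'] using h
  · right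
    simp only [dw, dw'] at h ⊢
    simp only [ne_eq, neg_eq_zero, mul_eq_zero, not_or] at h ⊢
    exact ⟨hk.ne', h⟩

omit hη hK in
lemma mk_eq (x y : ℝ) : (⟨x, y⟩ : ℂ) = (x : ℂ) + (y : ℂ) * I :=
  (Complex.mk_eq_add_mul_I x y)

include hη1

lemma dg_nonneg (S : ℝ) : 0 ≤ dg η K S :=
  div_nonneg (by linarith) (mul_nonneg (Real.sqrt_nonneg _) (Real.sqrt_nonneg _))

lemma contDiffOn_dpsi : ContDiffOn ℝ ∞ (dpsi a η K) (ddom a) := by
  intro z hz
  apply ContDiffAt.contDiffWithinAt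
  have hre : ContDiffAt ℝ ∞ (fun z : ℂ => z.re) z := Complex.reCLM.contDiff.contDiffAt
  have him : ContDiffAt ℝ ∞ (fun z : ℂ => z.im) z := Complex.imCLM.contDiff.contDiffAt
  have hof : ∀ {f : ℂ → ℝ}, ContDiffAt ℝ ∞ f z → ContDiffAt ℝ ∞ (fun z => (f z : ℂ)) z :=
    fun hf => Complex.ofRealCLM.contDiff.contDiffAt.comp z hf
  have hmk : ∀ {f g : ℂ → ℝ}, ContDiffAt ℝ ∞ f z → ContDiffAt ℝ ∞ g z →
      ContDiffAt ℝ ∞ (fun z => (⟨f z, g z⟩ : ℂ)) z := by
    intro f g hf hg
    simp only [mk_eq]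
    exact (hof hf).add ((hof hg).mul contDiffAt_const)
  have hu : ContDiffAt ℝ ∞ (fun z : ℂ => du a η K z.re z.im) z := by
    unfold du
    exact (contDiffAt_const.sub ((contDiffAt_const.add (contDiffAt_const.mul (him.pow 2))).mul
      hre)).div (contDiffAt_const.add (contDiffAt_const.mul (him.pow 2))) (den1_pos hη hK _).ne'
  have hS : ContDiffAt ℝ ∞ (dS a η K) z := (hu.pow 2).add (him.pow 2)
  have hpos := dS_pos hη hK hz
  have hsq : ContDiffAt ℝ ∞ (fun z => Real.sqrt (η + K * dS a η K z)) z :=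
    (contDiffAt_const.add (contDiffAt_const.mul hS)).sqrt (by positivity)
  have hg : ContDiffAt ℝ ∞ (fun z => dg η K (dS a η K z)) z :=
    contDiffAt_const.div (contDiffAt_const.mul hsq)
      (mul_pos (Real.sqrt_pos.mpr hη) (sqrt_den_pos hη hK hpos.le)).ne'
  have hk : ContDiffAt ℝ ∞ (fun z => dk η K (dS a η K z)) z :=
    hsq.div_const _
  have hlog : ∀ {f : ℂ → ℂ}, ContDiffAt ℝ ∞ f z → f z ∈ Complex.slitPlane →
      ContDiffAt ℝ ∞ (fun z => (Complex.log (f z)).im) z :=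
    fun hf hm => Complex.imCLM.contDiff.contDiffAt.comp z
      (((Complex.contDiffAt_log hm).restrict_scalars ℝ).comp z hf)
  have hW : ContDiffAt ℝ ∞ (dW a η K) z := by
    unfold dW
    have := dg_nonneg hη hη1 hK (dS a η K z)
    exact ((hlog (hmk hu him.neg) (dw_mem hη hK hz)).add (hg.mul
      (hlog (hmk hu (hk.mul him).neg) (dw'_mem hη hK hz)))).div
      (contDiffAt_const.mul (contDiffAt_const.add hg)) (by positivity)
  have hP : ContDiffAt ℝ ∞ (fun z => dP η K (dS a η K z)) z := by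
    unfold dP
    exact (contDiffAt_const.mul hS).add ((contDiffAt_const.mul (hsq.sub contDiffAt_const)).div_const _)
  exact hmk hP hW

omit hη hη1 hK in
lemma area_algebra {ex ey fx fy u y c g k Ue Uf uy S D β p : ℝ}
    (hUe : Ue = -c * ex + uy * ey) (hUf : Uf = -c * fx + uy * fy) (hS : S = u ^ 2 + y ^ 2)
    (hD : D = u ^ 2 + k ^ 2 * y ^ 2) (hS0 : S ≠ 0) (hD0 : D ≠ 0) (hp : p ≠ 0) (hg : 1 + g ≠ 0)
    (h : c * (1 + S * (g * k) / D) = 1) :
    let L : ℝ → ℝ → ℝ := fun U e => -u * e + y * U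
    let s : ℝ → ℝ → ℝ := fun U e => 2 * u * U + 2 * y * e
    let w : ℝ → ℝ → ℝ := fun U e =>
      (L U e / S + g * (k * L U e / D)) / (2 * p * (1 + g)) + β * s U e
    p * (1 + g) * s Ue ey * w Uf fy - p * (1 + g) * s Uf fy * w Ue ey = ex * fy - ey * fx := by
  intro L s w
  have key : s Ue ey * L Uf fy - s Uf fy * L Ue ey = 2 * S * c * (ex * fy - ey * fx) := by
    simp only [s, L, hUe, hUf, hS]; ring
  have : p * (1 + g) * s Ue ey * w Uf fy - p * (1 + g) * s Uf fy * w Ue ey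
      = (s Ue ey * L Uf fy - s Uf fy * L Ue ey) * ((1 / S + g * k / D) / 2) := by
    simp only [w]; field_simp; ring
  rw [this, key]
  have h2 : 2 * S * c * ((1 / S + g * k / D) / 2) = 1 :=
    Eq.trans (by field_simp) h
  linear_combination (ex * fy - ey * fx) * h2

lemma fderiv_dpsi {z : ℂ} (hz : z ∈ ddom a) (e f : ℂ) :
    areaForm (fderiv ℝ (dpsi a η K) z e) (fderiv ℝ (dpsi a η K) z f) = areaForm e f := by
  have hd : DifferentiableAt ℝ (dpsi a η K) z :=
    ((contDiffOn_dpsi hη hη1 hK).differentiableOn (by simp)).differentiableAt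
      (isOpen_ddom.mem_nhds hz)
  set x := z.re with hx
  set y := z.im with hy
  set u := du a η K x y with hu
  set S := dS a η K z with hS
  set g := dg η K S with hg
  set k := dk η K S with hk
  set g' := -(g * K / (2 * (η + K * S))) with hg'
  set k' := K / (2 * Real.sqrt η * Real.sqrt (η + K * S)) with hk'
  set c := (η + K * y ^ 2) / (1 + K * y ^ 2) with hc
  set uy := ((-(2 * K * y * x)) * (1 + K * y ^ 2) - (2 * a * η - (η + K * y ^ 2) * x) * (2 * K * y))
    / (1 + K * y ^ 2) ^ 2 with huy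
  set D := u ^ 2 + k ^ 2 * y ^ 2 with hD
  have hSpos : 0 < S := dS_pos hη hK hz
  have hsη : 0 < Real.sqrt η := Real.sqrt_pos.mpr hη
  have hsS : 0 < Real.sqrt (η + K * S) := sqrt_den_pos hη hK hSpos.le
  have hgn : 0 ≤ g := dg_nonneg hη hη1 hK S
  have hk2 : k ^ 2 = (η + K * S) / η := by
    rw [hk, dk, div_pow, Real.sq_sqrt (by positivity), Real.sq_sqrt hη.le]
  have hS' : S = u ^ 2 + y ^ 2 := by rw [hS, dS]
  have hD' : D = S * (η + K * y ^ 2) / η := by
    rw [hD, hk2, hS']; field_simp; ring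
  have hDpos : 0 < D := by rw [hD']; positivity
  set A2 := (Complex.log (dw' a η K z)).im with hA2
  set N := (Complex.log (dw a η K z)).im + g * A2 with hN
  set β := ((-u * y * k' / D) * g + g' * A2) / (2 * Real.pi * (1 + g)) -
    N * g' / (2 * Real.pi * (1 + g) ^ 2) with hβ
  have main : ∀ e : ℂ, let U := -c * e.re + uy * e.im
      let L := -u * e.im + y * U
      let s := 2 * u * U + 2 * y * e.im
      fderiv ℝ (dpsi a η K) z e = ⟨Real.pi * (1 + g) * s,
        (L / S + g * (k * L / D)) / (2 * Real.pi * (1 + g)) + β * s⟩ := by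
    intro e U L s
    apply fderiv_eq_of_line hd
    have h0 : z + (0 : ℝ) • e = z := by simp
    have hxt : HasDerivAt (fun t : ℝ => (z + t • e).re) e.re 0 := by
      simpa using ((hasDerivAt_id (0 : ℝ)).mul_const e.re).const_add x
    have hyt : HasDerivAt (fun t : ℝ => (z + t • e).im) e.im 0 := by
      simpa using ((hasDerivAt_id (0 : ℝ)).mul_const e.im).const_add y
    have hut : HasDerivAt (fun t : ℝ => du a η K (z + t • e).re (z + t • e).im) U 0 := by
      have := (((((hyt.pow 2).const_mul K).const_add η).mul hxt).const_sub (2 * a * η)).div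
        (((hyt.pow 2).const_mul K).const_add 1) (by simp only [Pi.pow_apply, h0]; exact (den1_pos hη hK y).ne')
      refine this.congr_deriv ?_
      simp only [Pi.pow_apply, h0, U, c, uy, x, y]
      have := den1_pos hη hK y
      field_simp
      simp
      ring
    have hSt : HasDerivAt (fun t : ℝ => dS a η K (z + t • e)) s 0 := by
      refine ((hut.pow 2).add (hyt.pow 2)).congr_deriv ?_
      simp only [h0, s, u, x, y]
      push_cast
      ring
    have hsqt : HasDerivAt (fun t : ℝ => Real.sqrt (η + K * dS a η K (z + t • e)))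
        (K * s / (2 * Real.sqrt (η + K * S))) 0 := by
      have := ((hSt.const_mul K).const_add η).sqrt (by rw [h0]; positivity)
      refine this.congr_deriv ?_
      simp only [h0, S]
    have hgt : HasDerivAt (fun t : ℝ => dg η K (dS a η K (z + t • e))) (g' * s) 0 := by
      have := (hasDerivAt_const (0 : ℝ) (1 - η)).div (hsqt.const_mul (Real.sqrt η))
        (by rw [h0]; positivity)
      refine this.congr_deriv ?_
      simp only [h0, g', g, dg]
      change _ = -((1 - η) / (Real.sqrt η * Real.sqrt (η + K * S)) * K / (2 * (η + K * S))) * s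
      rw [show dS a η K z = S from rfl]
      field_simp
      rw [Real.sq_sqrt (by positivity : (0:ℝ) ≤ η + K * S)]
      ring
    have hkt : HasDerivAt (fun t : ℝ => dk η K (dS a η K (z + t • e))) (k' * s) 0 := by
      refine (hsqt.div_const (Real.sqrt η)).congr_deriv ?_
      simp only [k']; field_simp
    have harg : ∀ {p q : ℝ → ℝ} {p' q' : ℝ}, HasDerivAt p p' 0 → HasDerivAt q q' 0 →
        (⟨p 0, q 0⟩ : ℂ) ∈ Complex.slitPlane →
        HasDerivAt (fun t => (Complex.log ⟨p t, q t⟩).im)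
          ((p 0 * q' - q 0 * p') / (p 0 ^ 2 + q 0 ^ 2)) 0 := by
      intro p q p' q' hp hq hm
      have h1 : HasDerivAt (fun t => (⟨p t, q t⟩ : ℂ)) ((p' : ℂ) + (q' : ℂ) * I) 0 := by
        simp only [mk_eq]
        exact hp.ofReal_comp.add (hq.ofReal_comp.mul_const I)
      have h2 := Complex.imCLM.hasFDerivAt.comp_hasDerivAt (0 : ℝ) (h1.clog_real hm)
      refine h2.congr_deriv ?_
      simp [Complex.div_im, Complex.normSq_apply]
      ring
    have ha1 : HasDerivAt (fun t : ℝ => (Complex.log (dw a η K (z + t • e))).im) (L / S) 0 := by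
      refine (harg hut hyt.neg (by simp only [Pi.neg_apply, h0]; exact dw_mem hη hK hz)).congr_deriv ?_
      simp only [h0, L, Pi.neg_apply, hS', u, x, y]
      ring
    have ha2 : HasDerivAt (fun t : ℝ => (Complex.log (dw' a η K (z + t • e))).im)
        (k * L / D + (-u * y * k' / D) * s) 0 := by
      refine (harg hut (hkt.mul hyt).neg
        (by simp only [Pi.neg_apply, Pi.mul_apply, h0]; exact dw'_mem hη hK hz)).congr_deriv ?_
      simp only [Pi.neg_apply, Pi.mul_apply, h0, L, D, u, x, y, k, S]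
      ring
    have hWt : HasDerivAt (fun t : ℝ => dW a η K (z + t • e))
        ((L / S + g * (k * L / D)) / (2 * Real.pi * (1 + g)) + β * s) 0 := by
      have := (ha1.add (hgt.mul ha2)).div ((hgt.const_add 1).const_mul (2 * Real.pi))
        (by rw [h0]; positivity)
      refine this.congr_deriv ?_
      simp only [Pi.add_apply, Pi.mul_apply, h0, β, N, A2]
      rw [show dS a η K z = S from rfl, show dg η K S = g from rfl]
      field_simp
      ring
    have hPt : HasDerivAt (fun t : ℝ => dP η K (dS a η K (z + t • e)))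
        (Real.pi * (1 + g) * s) 0 := by
      have := (hSt.const_mul Real.pi).add (((hsqt.sub_const (Real.sqrt η)).const_mul
        (2 * Real.pi * (1 - η))).div_const (K * Real.sqrt η))
      refine this.congr_deriv ?_
      simp only [g, dg]; field_simp
    unfold dpsi
    simp only [mk_eq]
    exact hPt.ofReal_comp.add (hWt.ofReal_comp.mul_const I)
  rw [main e, main f]
  have hcc : c * (1 + S * (g * k) / D) = 1 := by
    rw [hD', hc, hg, hk, dg, dk]
    have := den_pos hη hK y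
    have := den1_pos hη hK y
    field_simp
    rw [Real.sq_sqrt hη.le]
    ring
  have hne : 1 + g ≠ 0 := by positivity
  have := area_algebra (ex := e.re) (ey := e.im) (fx := f.re) (fy := f.im) (β := β) (uy := uy)
    (Ue := -c * e.re + uy * e.im) (Uf := -c * f.re + uy * f.im)
    rfl rfl hS' hD hSpos.ne' hDpos.ne' Real.pi_ne_zero hne hcc
  simp only [areaForm] at this ⊢
  linear_combination this

lemma dP_strictMono {S T : ℝ} (hST : S < T) : dP η K S < dP η K T := by
  unfold dP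
  have h1 : Real.sqrt (η + K * S) ≤ Real.sqrt (η + K * T) := Real.sqrt_le_sqrt (by nlinarith)
  have h2 : 0 ≤ 2 * Real.pi * (1 - η) / (K * Real.sqrt η) :=
    div_nonneg (mul_nonneg (by positivity) (by linarith)) (by positivity)
  have h3 := mul_le_mul_of_nonneg_left (sub_le_sub_right h1 (Real.sqrt η)) h2
  rw [div_mul_eq_mul_div, div_mul_eq_mul_div] at h3
  nlinarith [mul_lt_mul_of_pos_left hST Real.pi_pos]

omit hη hη1 hK in
lemma arg_stretch_mono {u₁ v₁ u₂ v₂ k : ℝ} (hk : 0 < k)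
    (h₁ : (⟨u₁, v₁⟩ : ℂ) ∈ Complex.slitPlane) (h₂ : (⟨u₂, v₂⟩ : ℂ) ∈ Complex.slitPlane)
    (h : Complex.arg ⟨u₁, v₁⟩ < Complex.arg ⟨u₂, v₂⟩) :
    Complex.arg ⟨u₁, k * v₁⟩ ≤ Complex.arg ⟨u₂, k * v₂⟩ := by
  have sub : ∀ {u v u' v' : ℝ}, (⟨u, v⟩ : ℂ) ∈ Complex.slitPlane →
      (⟨u', v'⟩ : ℂ) ∈ Complex.slitPlane →
      Real.sin (Complex.arg ⟨u', v'⟩ - Complex.arg ⟨u, v⟩) *
        (‖(⟨u', v'⟩ : ℂ)‖ * ‖(⟨u, v⟩ : ℂ)‖) = v' * u - u' * v := by
    intro u v u' v' ha hb
    have h0 := Complex.slitPlane_ne_zero ha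
    have h0' := Complex.slitPlane_ne_zero hb
    have := norm_ne_zero_iff.mpr h0
    have := norm_ne_zero_iff.mpr h0'
    rw [Real.sin_sub, Complex.sin_arg, Complex.sin_arg, Complex.cos_arg h0, Complex.cos_arg h0']
    field_simp
  have mem : ∀ {u v : ℝ}, (⟨u, v⟩ : ℂ) ∈ Complex.slitPlane →
      (⟨u, k * v⟩ : ℂ) ∈ Complex.slitPlane := by
    intro u v hm
    rw [Complex.mem_slitPlane_iff] at hm ⊢
    rcases hm with hm | hm
    · exact Or.inl hm
    · exact Or.inr (mul_ne_zero hk.ne' hm)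
  have lt_pi : ∀ {w : ℂ}, w ∈ Complex.slitPlane → Complex.arg w < Real.pi := fun {w} hw =>
    (Complex.arg_le_pi w).lt_of_ne (Complex.mem_slitPlane_iff_arg.mp hw).1
  have m₁ := mem h₁
  have m₂ := mem h₂
  by_contra hc
  push Not at hc
  have n1 : 0 ≤ Complex.arg ⟨u₁, v₁⟩ ↔ 0 ≤ v₁ := Complex.arg_nonneg_iff
  have n2 : 0 ≤ Complex.arg ⟨u₂, v₂⟩ ↔ 0 ≤ v₂ := Complex.arg_nonneg_iff
  have p1 : 0 ≤ Complex.arg ⟨u₁, k * v₁⟩ ↔ 0 ≤ v₁ :=
    Complex.arg_nonneg_iff.trans (mul_nonneg_iff_of_pos_left hk)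
  have p2 : 0 ≤ Complex.arg ⟨u₂, k * v₂⟩ ↔ 0 ≤ v₂ :=
    Complex.arg_nonneg_iff.trans (mul_nonneg_iff_of_pos_left hk)
  have b1 := Complex.neg_pi_lt_arg ⟨u₁, v₁⟩
  have b2 := Complex.neg_pi_lt_arg ⟨u₂, k * v₂⟩
  have c2 := lt_pi h₂
  have c1 := lt_pi m₁
  have same : (0 ≤ v₁ ↔ 0 ≤ v₂) := by
    constructor
    · intro hv; exact n2.mp (le_trans (n1.mpr hv) h.le)
    · intro hv; exact p1.mp (le_trans (p2.mpr hv) hc.le)
  have d1 : Complex.arg ⟨u₂, v₂⟩ - Complex.arg ⟨u₁, v₁⟩ < Real.pi := by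
    by_cases hv : 0 ≤ v₁
    · linarith [n1.mpr hv]
    · linarith [not_le.mp (fun hh => hv (same.mpr (n2.mp hh)))]
  have d2 : Complex.arg ⟨u₁, k * v₁⟩ - Complex.arg ⟨u₂, k * v₂⟩ < Real.pi := by
    by_cases hv : 0 ≤ v₁
    · linarith [p2.mpr (same.mp hv)]
    · linarith [not_le.mp (fun hh => hv (p1.mp hh))]
  have e1 := mul_pos (Real.sin_pos_of_pos_of_lt_pi (sub_pos.mpr h) d1)
    (mul_pos (norm_pos_iff.mpr (Complex.slitPlane_ne_zero h₂))
      (norm_pos_iff.mpr (Complex.slitPlane_ne_zero h₁)))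
  have e2 := mul_pos (Real.sin_pos_of_pos_of_lt_pi (sub_pos.mpr hc) d2)
    (mul_pos (norm_pos_iff.mpr (Complex.slitPlane_ne_zero m₁))
      (norm_pos_iff.mpr (Complex.slitPlane_ne_zero m₂)))
  rw [sub h₁ h₂] at e1
  rw [sub m₂ m₁] at e2
  nlinarith [mul_pos hk e1]

lemma injOn_dpsi : Set.InjOn (dpsi a η K) (ddom a) := by
  intro z₁ h₁ z₂ h₂ heq
  have hP : dP η K (dS a η K z₁) = dP η K (dS a η K z₂) := congrArg Complex.re heq
  have hW : dW a η K z₁ = dW a η K z₂ := congrArg Complex.im heq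
  have hS : dS a η K z₁ = dS a η K z₂ := by
    rcases lt_trichotomy (dS a η K z₁) (dS a η K z₂) with h | h | h
    · exact absurd hP (dP_strictMono hη hη1 hK h).ne
    · exact h
    · exact absurd hP (dP_strictMono hη hη1 hK h).ne'
  set g := dg η K (dS a η K z₁) with hg
  set k := dk η K (dS a η K z₁) with hk
  have hgn : 0 ≤ g := dg_nonneg hη hη1 hK _
  have hkp : 0 < k := dk_pos hη hK (dS_pos hη hK h₁).le
  have e1 : dw' a η K z₁ = ⟨du a η K z₁.re z₁.im, k * -z₁.im⟩ := by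
    simp [dw', k]
  have e2 : dw' a η K z₂ = ⟨du a η K z₂.re z₂.im, k * -z₂.im⟩ := by
    simp [dw', k, hS]
  have m1 := dw_mem hη hK h₁
  have m2 := dw_mem hη hK h₂
  have hA : Complex.arg (dw a η K z₁) + g * Complex.arg (dw' a η K z₁) =
      Complex.arg (dw a η K z₂) + g * Complex.arg (dw' a η K z₂) := by
    have := hW
    unfold dW at this
    simp only [Complex.log_im, ← hS] at this
    exact (div_left_inj' (by positivity)).mp this
  have harg : Complex.arg (dw a η K z₁) = Complex.arg (dw a η K z₂) := by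
    rw [e1, e2] at hA
    rcases lt_trichotomy (Complex.arg (dw a η K z₁)) (Complex.arg (dw a η K z₂)) with h | h | h
    · nlinarith [mul_le_mul_of_nonneg_left (arg_stretch_mono hkp m1 m2 h) hgn]
    · exact h
    · nlinarith [mul_le_mul_of_nonneg_left (arg_stretch_mono hkp m2 m1 h) hgn]
  have hnorm : ‖dw a η K z₁‖ = ‖dw a η K z₂‖ := by
    simp only [Complex.norm_def, Complex.normSq_apply, dw]
    simp only [dS] at hS
    congr 1
    linear_combination hS
  have hw := Complex.ext_norm_arg hnorm harg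
  have hy : z₁.im = z₂.im := by simpa [dw] using congrArg Complex.im hw
  have hu : du a η K z₁.re z₁.im = du a η K z₂.re z₂.im := congrArg Complex.re hw
  apply Complex.ext _ hy
  rw [du, du, hy, div_left_inj' (den1_pos hη hK _).ne'] at hu
  exact mul_left_cancel₀ (den_pos hη hK z₂.im).ne' (by linarith)

lemma dpsi_re_pos {z : ℂ} (hz : z ∈ ddom a) : 0 < (dpsi a η K z).re := by
  have h := dP_strictMono hη hη1 hK (dS_pos hη hK hz)
  simpa [dP, dpsi] using h

lemma dpsi_im_abs {z : ℂ} (hz : z ∈ ddom a) : |(dpsi a η K z).im| < 1 / 2 := by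
  have lt_pi : ∀ {w : ℂ}, w ∈ Complex.slitPlane → |Complex.arg w| < Real.pi := fun {w} hw =>
    abs_lt.mpr ⟨Complex.neg_pi_lt_arg w,
      (Complex.arg_le_pi w).lt_of_ne (Complex.mem_slitPlane_iff_arg.mp hw).1⟩
  have h1 := abs_lt.mp (lt_pi (dw_mem hη hK hz))
  have h2 := abs_lt.mp (lt_pi (dw'_mem hη hK hz))
  have hgn : 0 ≤ dg η K (dS a η K z) := dg_nonneg hη hη1 hK _
  have h21 := mul_le_mul_of_nonneg_left h2.1.le hgn
  have h22 := mul_le_mul_of_nonneg_left h2.2.le hgn
  simp only [dpsi, dW, Complex.log_im]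
  rw [abs_div, abs_of_pos (by positivity : (0:ℝ) < 2 * Real.pi * (1 + dg η K (dS a η K z))),
    div_lt_iff₀ (by positivity), abs_lt]
  constructor <;> nlinarith

lemma dS_le {z : ℂ} (ha : 0 ≤ a) (hz : ‖z‖ ≤ a) : dS a η K z ≤ ‖z‖ ^ 2 + 8 * a ^ 2 * η := by
  have hx : |z.re| ≤ a := (Complex.abs_re_le_norm z).trans hz
  have hu : |du a η K z.re z.im| ≤ |z.re| + 2 * a * η := by
    rw [du, abs_div, abs_of_pos (den1_pos hη hK _), div_le_iff₀ (den1_pos hη hK _)]
    have hy : 0 ≤ K * z.im ^ 2 := by positivity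
    have h1 : |(η + K * z.im ^ 2) * z.re| ≤ (1 + K * z.im ^ 2) * |z.re| := by
      rw [abs_mul, abs_of_pos (den_pos hη hK _)]
      exact mul_le_mul_of_nonneg_right (by linarith) (abs_nonneg _)
    have h2 : 2 * a * η ≤ (1 + K * z.im ^ 2) * (2 * a * η) :=
      le_mul_of_one_le_left (by positivity) (by linarith)
    have h3 := abs_sub (2 * a * η) ((η + K * z.im ^ 2) * z.re)
    rw [abs_of_nonneg (by positivity : 0 ≤ 2 * a * η)] at h3
    linarith
  have h4 : du a η K z.re z.im ^ 2 ≤ (|z.re| + 2 * a * η) ^ 2 := by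
    rw [← sq_abs (du a η K z.re z.im)]
    exact pow_le_pow_left₀ (abs_nonneg _) hu 2
  rw [dS, Complex.sq_norm, Complex.normSq_apply]
  have h5 := mul_le_mul_of_nonneg_right hx (by positivity : 0 ≤ a * η)
  have h6 := mul_le_mul_of_nonneg_left hη1 (by positivity : 0 ≤ a * a * η)
  nlinarith [sq_abs z.re]

lemma dP_le {S M : ℝ} (hS : S ≤ M) (hM : 0 ≤ M) (hK1 : 1 ≤ K) :
    dP η K S ≤ Real.pi * S + 2 * Real.pi * Real.sqrt (1 + M) / (Real.sqrt η * Real.sqrt K) := by
  unfold dP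
  have h1 : Real.sqrt (η + K * S) ≤ Real.sqrt K * Real.sqrt (1 + M) := by
    rw [← Real.sqrt_mul hK.le]
    exact Real.sqrt_le_sqrt (by nlinarith)
  have h2 : (1 - η) * (Real.sqrt (η + K * S) - Real.sqrt η) ≤ Real.sqrt K * Real.sqrt (1 + M) := by
    nlinarith [Real.sqrt_nonneg η, Real.sqrt_nonneg (η + K * S)]
  have h3 : 2 * Real.pi * (1 - η) * (Real.sqrt (η + K * S) - Real.sqrt η) / (K * Real.sqrt η) ≤
      2 * Real.pi * (Real.sqrt K * Real.sqrt (1 + M)) / (K * Real.sqrt η) := by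
    rw [mul_assoc (2 * Real.pi)]
    gcongr
  have h4 : 2 * Real.pi * (Real.sqrt K * Real.sqrt (1 + M)) / (K * Real.sqrt η) =
      2 * Real.pi * Real.sqrt (1 + M) / (Real.sqrt η * Real.sqrt K) := by
    have := Real.sqrt_pos.mpr hK
    have := Real.sqrt_pos.mpr hη
    field_simp
    rw [Real.sq_sqrt hK.le]
  linarith

omit hη hη1 hK in
/-- Traynor's disc-to-strip map. -/
theorem exists_disc_map {a δ : ℝ} (ha : 0 < a) (hδ : 0 < δ) :
    ∃ ψ : ℂ → ℂ, ContDiffOn ℝ ∞ ψ (Metric.ball 0 a) ∧ Set.InjOn ψ (Metric.ball 0 a) ∧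
      ∀ z ∈ Metric.ball (0 : ℂ) a,
        (∀ e f, areaForm (fderiv ℝ ψ z e) (fderiv ℝ ψ z f) = areaForm e f) ∧
        0 < (ψ z).re ∧ |(ψ z).im| < 1 / 2 ∧ (ψ z).re ≤ Real.pi * ‖z‖ ^ 2 + δ := by
  set η := min 1 (δ / (2 * (Real.pi * (8 * a ^ 2)))) with hηdef
  have hη : 0 < η := lt_min one_pos (by positivity)
  have hη1 : η ≤ 1 := min_le_left _ _
  have hηδ : Real.pi * (8 * a ^ 2 * η) ≤ δ / 2 := by
    have h : η ≤ δ / (2 * (Real.pi * (8 * a ^ 2))) := min_le_right _ _
    rw [le_div_iff₀ (by positivity)] at h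
    linarith
  set M := 9 * a ^ 2 with hMdef
  set T := 4 * Real.pi * Real.sqrt (1 + M) / (δ * Real.sqrt η) with hT
  set K := max 1 (T ^ 2) with hKdef
  have hK : 0 < K := lt_max_of_lt_left one_pos
  have hTK : T ≤ Real.sqrt K := (Real.le_sqrt (by positivity) hK.le).mpr (le_max_right _ _)
  have hsub : Metric.ball (0 : ℂ) a ⊆ ddom a := by
    intro z hz
    rw [mem_ball_zero_iff] at hz
    exact Or.inl (by linarith [(abs_le.mp (Complex.abs_re_le_norm z)).2])
  refine ⟨dpsi a η K, (contDiffOn_dpsi hη hη1 hK).mono hsub, (injOn_dpsi hη hη1 hK).mono hsub,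
    fun z hz => ⟨fderiv_dpsi hη hη1 hK (hsub hz), dpsi_re_pos hη hη1 hK (hsub hz),
      dpsi_im_abs hη hη1 hK (hsub hz), ?_⟩⟩
  rw [mem_ball_zero_iff] at hz
  have hS := dS_le hη hη1 hK ha.le hz.le
  have hz2 : ‖z‖ ^ 2 ≤ a ^ 2 := pow_le_pow_left₀ (norm_nonneg _) hz.le 2
  have hSM : dS a η K z ≤ M := by
    nlinarith [mul_le_mul_of_nonneg_left hη1 (sq_nonneg a)]
  have h := dP_le hη hη1 hK hSM (by positivity) (le_max_left _ _)
  have hb : 2 * Real.pi * Real.sqrt (1 + M) / (Real.sqrt η * Real.sqrt K) ≤ δ / 2 := by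
    rw [hT, div_le_iff₀ (by positivity)] at hTK
    rw [div_le_iff₀ (by positivity)]
    nlinarith
  have hp := mul_le_mul_of_nonneg_left hS Real.pi_pos.le
  show dP η K (dS a η K z) ≤ _
  linarith

end

end Vale.Agent.P209
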