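import Vale.Agent.P209.Nested

/-!
# Half the capacity suffices in every dimension
-/

namespace Vale.Agent.P209

/-- In every dimension, balls with `∑ r i ^ n ≤ (R / 2) ^ n` pack. -/
theorem hasBallPacking_half (n : ℕ) (hn : 1 ≤ n) (k : ℕ) (R : ℝ) (r : Fin k → ℝ) (hR : 0 < R)
    (hr : ∀ i, 0 < r i) (hvol : ∑ i, r i ^ n ≤ (R / 2) ^ n) : HasBallPacking n R r := by
  obtain ⟨d, rfl⟩ : ∃ d, n = d + 1 := ⟨n - 1, by omega⟩
  have hrR : ∀ i, r i ≤ R / 2 := fun i => le_of_pow_le_pow_left₀ (n := d + 1) (by omega)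
    (by positivity) ((Finset.single_le_sum (f := fun i => r i ^ (d + 1))
      (fun j _ => pow_nonneg (hr j).le _) (Finset.mem_univ i)).trans hvol)
  have hx : ∀ i, ((1 : ℕ) : ℝ) < R / r i := fun i => by
    rw [Nat.cast_one, lt_div_iff₀ (hr i)]
    linarith [hrR i]
  choose L j hj1 hj2 hj3 hj4 using fun i => exists_level le_rfl (hx i)
  have hj : ∀ i, j i = 1 := fun i => by have := hj1 i; have := hj2 i; omega
  simp only [hj, Nat.cast_one, one_mul] at hj3 hj4
  set Λ := Finset.univ.sup L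
  have hrs : ∀ i, r i < R / ((1 : ℕ) * 2 ^ L i) := fun i => by
    have h := hj3 i
    rw [lt_div_iff₀ (hr i)] at h
    rw [Nat.cast_one, one_mul, lt_div_iff₀ (by positivity)]
    linarith
  have hsum : (∑ i, (2 ^ (d + 1)) ^ (Λ - L i)) ≤ 1 ^ (d + 1) * (2 ^ (d + 1)) ^ Λ := by
    have h1 : ∀ i, ((((2 ^ (d + 1)) ^ (Λ - L i) : ℕ)) : ℝ) ≤
        ((2 : ℝ) ^ (d + 1)) ^ Λ * (2 / R) ^ (d + 1) * r i ^ (d + 1) := fun i => by
      have h := hj4 i
      norm_num at h
      rw [div_le_iff₀ (hr i)] at h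
      have h2 : (1 / (2 : ℝ) ^ L i) ≤ 2 / R * r i := by
        rw [div_mul_eq_mul_div, div_le_div_iff₀ (by positivity) hR]
        linarith
      push_cast
      rw [pow_sub₀ _ (by positivity) (Finset.le_sup (f := L) (Finset.mem_univ i)), mul_assoc,
        ← mul_pow, ← pow_mul 2 (d + 1) (L i), mul_comm (d + 1), pow_mul]
      gcongr
      rw [← inv_pow, ← one_div]
      exact pow_le_pow_left₀ (by positivity) h2 _
    have h3 := Finset.sum_le_sum fun i (_ : i ∈ Finset.univ) => h1 i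
    rw [← Finset.mul_sum] at h3
    have h4 := h3.trans (mul_le_mul_of_nonneg_left hvol (by positivity))
    rw [mul_assoc, ← mul_pow, show 2 / R * (R / 2) = 1 by field_simp, one_pow, mul_one] at h4
    rw [one_pow, one_mul]
    exact_mod_cast h4
  obtain ⟨P, hP, hdis⟩ := packs_levels (n := d) hR one_pos Λ L
    (fun i => Finset.le_sup (f := L) (Finset.mem_univ i)) hsum
  exact hasBallPacking_of_pieces P _ hr hrs (fun i p hp => (hP i p hp).1)
    (fun i p hp => (hP i p hp).2) hdis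

end Vale.Agent.P209
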