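import Vale.Agent.P209.Cells
import Mathlib.Analysis.SpecificLimits.Basic
import Mathlib.Algebra.BigOperators.Ring.Finset
import Mathlib.Algebra.Field.GeomSum
import Mathlib.Algebra.Order.Floor.Semiring

/-!
# Nested subdivisions: arbitrarily many small balls
-/

namespace Vale.Agent.P209

open Matrix

noncomputable section

variable {n : ℕ}

/-- Composition of pieces. -/
def Piece.comp (P Q : Piece n) : Piece n where
  A := P.A * Q.A
  B := Q.B * P.B
  hBA := by
    calc Q.B * P.B * (P.A * Q.A) = Q.B * (P.B * P.A) * Q.A := by simp only [Matrix.mul_assoc]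
      _ = 1 := by rw [P.hBA, Matrix.mul_one, Q.hBA]
  b := P.b + rmat P.A *ᵥ Q.b

lemma Piece.comp_map (P Q : Piece n) (p : Fin n → ℝ) : (P.comp Q).map p = P.map (Q.map p) := by
  simp only [Piece.comp, Piece.map, rmat_mul, Matrix.mulVec_add, Matrix.mulVec_mulVec]
  rw [add_assoc]

lemma Piece.map_injective (P : Piece n) {p q : Fin n → ℝ} (h : P.map p = P.map q) : p = q := by
  have h' := congrArg (fun v => rmat P.B *ᵥ v) (add_left_cancel h : rmat P.A *ᵥ p = rmat P.A *ᵥ q)
  simp only [Matrix.mulVec_mulVec, ← rmat_mul, P.hBA, rmat_one, Matrix.one_mulVec] at h'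
  exact h'

/-- Simplices of sizes `s i` fit disjointly, by pieces, into the simplex of size `R`. -/
def Packs {ι : Type*} (n : ℕ) (R : ℝ) (s : ι → ℝ) : Prop :=
  ∃ P : ι → Piece n, (∀ i, ∀ p ∈ simplex n (s i), (P i).map p ∈ simplex n R) ∧
    ∀ i i', i ≠ i' → ∀ p ∈ simplex n (s i), ∀ p' ∈ simplex n (s i'), (P i).map p ≠ (P i').map p'

/-- Subdivide: each simplex of size `S a` holds `(j a) ^ n` simplices of size `S a / j a`. -/
theorem Packs.refine {ι κ : Type*} [Fintype ι] [DecidableEq κ] {R : ℝ} {S : κ → ℝ}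
    (h : Packs (n + 1) R S) (f : ι → κ) (j : κ → ℕ) (s : ι → ℝ) (hs : ∀ i, 0 ≤ s i)
    (hsj : ∀ i, s i * j (f i) ≤ S (f i))
    (hcard : ∀ a, (Finset.univ.filter fun i => f i = a).card ≤ j a ^ (n + 1))
    (hsame : ∀ i i', f i = f i' → s i = s i') :
    Packs (n + 1) R s := by
  classical
  obtain ⟨P, hP, hdis⟩ := h
  have hemb : ∀ a, Nonempty ({i // f i = a} ↪ (Fin (n + 1) → Fin (j a))) := fun a => by
    refine Function.Embedding.nonempty_of_card_le ?_
    rw [Fintype.card_subtype]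
    simpa using hcard a
  let g : ∀ i, Fin (n + 1) → Fin (j (f i)) := fun i => (hemb (f i)).some ⟨i, rfl⟩
  refine ⟨fun i => (P (f i)).comp (cell (s i) 0 (g i)), fun i p hp => ?_,
    fun i i' hii' p hp p' hp' heq => ?_⟩
  · rw [Piece.comp_map]
    refine hP _ _ ⟨cell_map_pos le_rfl _ hp, ?_⟩
    linarith [(cell_sum_bounds (τ := 0) (g i) hp).1, hsj i]
  · rw [Piece.comp_map, Piece.comp_map] at heq
    have m1 : (cell (s i) 0 (g i)).map p ∈ simplex (n + 1) (S (f i)) :=
      ⟨cell_map_pos le_rfl _ hp, by linarith [(cell_sum_bounds (τ := 0) (g i) hp).1, hsj i]⟩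
    have m2 : (cell (s i') 0 (g i')).map p' ∈ simplex (n + 1) (S (f i')) :=
      ⟨cell_map_pos le_rfl _ hp', by linarith [(cell_sum_bounds (τ := 0) (g i') hp').1, hsj i']⟩
    by_cases hf : f i = f i'
    · have key : ∀ a (x x' : {i // f i = a}), x.1 ≠ x'.1 → ∀ q ∈ simplex (n + 1) (s x.1),
          ∀ q' ∈ simplex (n + 1) (s x'.1),
          (cell (s x.1) 0 ((hemb a).some x)).map q ≠ (cell (s x'.1) 0 ((hemb a).some x')).map q' := by
        intro a x x' hne q hq q' hq' he
        rw [← hsame x.1 x'.1 (x.2.trans x'.2.symm)] at he hq'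
        exact hne (congrArg Subtype.val ((hemb a).some.injective (cell_injective hq hq' he)))
      have hg' : ∀ (a : κ) (i : ι) (h : f i = a) (q : Fin (n + 1) → ℝ),
          (P (f i)).map ((cell (s i) 0 (g i)).map q) =
            (P a).map ((cell (s i) 0 ((hemb a).some ⟨i, h⟩)).map q) := by
        rintro _ i rfl q; rfl
      rw [hg' (f i) i rfl, hg' (f i) i' hf.symm] at heq
      exact key (f i) ⟨i, rfl⟩ ⟨i', hf.symm⟩ hii' p hp p' hp' (Piece.map_injective _ heq)
    · exact hdis _ _ hf _ m1 _ m2 heq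

/-- Equal simplices of size `R / M`. -/
theorem packs_base {ι : Type*} [Fintype ι] {R : ℝ} (hR : 0 < R) {M : ℕ} (hM : 0 < M)
    (hι : Fintype.card ι ≤ M ^ (n + 1)) : Packs (n + 1) R (fun _ : ι => R / M) := by
  have h0 : Packs (n + 1) R (fun _ : Unit => R) :=
    ⟨fun _ => corner (n + 1), fun i p hp => by rw [corner_map]; exact hp,
      fun i i' h => (h rfl).elim⟩
  refine h0.refine (fun _ => ()) (fun _ => M) _ (fun _ => by positivity) (fun _ => ?_) (fun a => ?_)
    (fun _ _ _ => rfl)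
  · rw [div_mul_cancel₀ _ (by exact_mod_cast hM.ne')]
  · exact (Finset.card_filter_le _ _).trans (by simpa using hι)

/-- Mixed dyadic levels fit whenever their volume does. -/
theorem packs_levels {R : ℝ} (hR : 0 < R) {M : ℕ} (hM : 0 < M) :
    ∀ (Λ : ℕ) {ι : Type} [Fintype ι] (L : ι → ℕ), (∀ i, L i ≤ Λ) →
      ∑ i, (2 ^ (n + 1)) ^ (Λ - L i) ≤ M ^ (n + 1) * (2 ^ (n + 1)) ^ Λ →
      Packs (n + 1) R (fun i => R / (M * 2 ^ L i)) := by
  intro Λ
  induction Λ with
  | zero =>
    intro ι _ L hL hsum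
    have e : ∀ i, L i = 0 := fun i => Nat.le_zero.1 (hL i)
    simp only [e, pow_zero, mul_one]
    exact packs_base hR hM (by simpa [e] using hsum)
  | succ Λ ih =>
    intro ι _ L hL hsum
    classical
    set q := 2 ^ (n + 1) with hq
    have hq0 : 0 < q := by positivity
    let F := {i // L i = Λ + 1}
    let C := {i // ¬L i = Λ + 1}
    set c := Fintype.card F with hc
    set d := (c + q - 1) / q with hd
    let e := Fintype.equivFin F
    have hlt : ∀ x : F, (e x : ℕ) / q < d := fun x => by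
      rw [hd, Nat.lt_iff_add_one_le, Nat.le_div_iff_mul_le hq0, add_one_mul]
      have h1 := (e x).isLt
      have h2 := Nat.div_mul_le_self (e x : ℕ) q
      have : (e x : ℕ) + 1 ≤ c := h1
      omega
    let L' : C ⊕ Fin d → ℕ := Sum.elim (fun x => L x.1) (fun _ => Λ)
    have hL' : ∀ x, L' x ≤ Λ := by
      rintro (x | x)
      · have h1 := hL x.1
        have h2 := x.2
        simp only [L', Sum.elim_inl]; omega
      · exact le_rfl
    have hsplit : (∑ x : C, q ^ (Λ - L x.1)) * q + c ≤ M ^ (n + 1) * q ^ Λ * q := by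
      rw [mul_assoc, ← pow_succ, Finset.sum_mul]
      refine le_trans (le_of_eq ?_) hsum
      rw [← Fintype.sum_subtype_add_sum_subtype (fun i => L i = Λ + 1), add_comm]
      congr 1
      · rw [hc, ← Finset.card_univ, Finset.card_eq_sum_ones]
        exact Finset.sum_congr rfl fun x _ => by rw [x.2, Nat.sub_self, pow_zero]
      · refine Finset.sum_congr rfl fun x _ => ?_
        have h1 := hL x.1
        have h2 := x.2
        rw [← pow_succ, Nat.sub_add_comm (by omega : L x.1 ≤ Λ)]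
    have hsum' : ∑ x, q ^ (Λ - L' x) ≤ M ^ (n + 1) * q ^ Λ := by
      rw [Fintype.sum_sum_type]
      simp only [L', Sum.elim_inl, Sum.elim_inr, Nat.sub_self, pow_zero, Finset.sum_const,
        Finset.card_univ, Fintype.card_fin, smul_eq_mul, mul_one]
      set S' := ∑ x : C, q ^ (Λ - L x.1)
      have hle : S' ≤ M ^ (n + 1) * q ^ Λ := Nat.le_of_mul_le_mul_right (by omega) hq0
      have hc' : c ≤ (M ^ (n + 1) * q ^ Λ - S') * q := by rw [Nat.sub_mul]; omega
      have : d ≤ M ^ (n + 1) * q ^ Λ - S' := by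
        rw [hd, Nat.div_le_iff_le_mul_add_pred hq0, mul_comm q]
        omega
      omega
    have hp := ih L' hL' hsum'
    let f : ι → C ⊕ Fin d := fun i =>
      if h : L i = Λ + 1 then Sum.inr ⟨_, hlt ⟨i, h⟩⟩ else Sum.inl ⟨i, h⟩
    refine hp.refine f (Sum.elim (fun _ => 1) (fun _ => 2)) _ (fun i => by positivity) (fun i => ?_)
      ?_ (fun i i' h => ?_)
    · by_cases h : L i = Λ + 1
      · simp only [f, L', dif_pos h, Sum.elim_inr, h, pow_succ]
        exact le_of_eq (by push_cast; field_simp)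
      · simp [f, L', dif_neg h]
    · rintro (x | x)
      · simp only [Sum.elim_inl, one_pow]
        refine Finset.card_le_one.2 fun i hi i' hi' => ?_
        have key : ∀ i, f i = Sum.inl x → i = x.1 := by
          intro i hi
          by_cases h : L i = Λ + 1
          · simp [f, dif_pos h] at hi
          · simp only [f, dif_neg h, Sum.inl.injEq] at hi
            exact congrArg Subtype.val hi
        simp only [Finset.mem_filter, Finset.mem_univ, true_and] at hi hi'
        rw [key i hi, key i' hi']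
      · simp only [Sum.elim_inr, ← hq]
        have : ∀ i ∈ Finset.univ.filter (fun i => f i = Sum.inr x),
            ∃ h : L i = Λ + 1, (e ⟨i, h⟩ : ℕ) / q = x := by
          intro i hi
          simp only [Finset.mem_filter, Finset.mem_univ, true_and] at hi
          by_cases h : L i = Λ + 1
          · refine ⟨h, ?_⟩
            simp only [f, dif_pos h, Sum.inr.injEq, Fin.ext_iff] at hi
            exact hi
          · simp [f, dif_neg h] at hi
        choose hL1 hdiv using this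
        refine le_trans (Finset.card_le_card_of_injOn
          (fun i => if h : L i = Λ + 1 then (e ⟨i, h⟩ : ℕ) % q else 0)
          (t := Finset.range q) (fun i hi => ?_) (fun i hi i' hi' he => ?_))
          (Finset.card_range q).le
        · rw [Finset.mem_coe] at hi
          simp [dif_pos (hL1 i hi), Nat.mod_lt _ hq0]
        · rw [Finset.mem_coe] at hi hi'
          simp only [dif_pos (hL1 i hi), dif_pos (hL1 i' hi')] at he
          have e1 := hdiv i hi
          have e2 := hdiv i' hi'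
          have := Nat.div_add_mod (e ⟨i, hL1 i hi⟩ : ℕ) q
          have := Nat.div_add_mod (e ⟨i', hL1 i' hi'⟩ : ℕ) q
          have heq : (e ⟨i, hL1 i hi⟩ : ℕ) = (e ⟨i', hL1 i' hi'⟩ : ℕ) := by
            rw [e1] at *; rw [e2] at *; omega
          exact congrArg Subtype.val (e.injective (Fin.ext heq))
    · by_cases hi : L i = Λ + 1 <;> by_cases hi' : L i' = Λ + 1
      · rw [hi, hi']
      · simp [f, dif_pos hi, dif_neg hi'] at h
      · simp [f, dif_neg hi, dif_pos hi'] at h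
      · simp only [f, dif_neg hi, dif_neg hi', Sum.inl.injEq] at h
        have h' : i = i' := congrArg Subtype.val h
        rw [h']

/-- Level and index of a number above `J`. -/
lemma exists_level {J : ℕ} (hJ : 1 ≤ J) {x : ℝ} (hx : (J : ℝ) < x) :
    ∃ L j : ℕ, J ≤ j ∧ j < 2 * J ∧ (j : ℝ) * 2 ^ L < x ∧ x ≤ (j + 1) * 2 ^ L := by
  classical
  have hex : ∃ L : ℕ, x ≤ 2 * J * 2 ^ L := by
    obtain ⟨L, hL⟩ := pow_unbounded_of_one_lt x (show (1:ℝ) < 2 by norm_num)
    refine ⟨L, hL.le.trans ?_⟩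
    have : (1:ℝ) ≤ J := by exact_mod_cast hJ
    nlinarith [show (0:ℝ) < 2 ^ L by positivity]
  set L := Nat.find hex with hL
  have hup : x ≤ 2 * J * 2 ^ L := Nat.find_spec hex
  have hlow : (J : ℝ) * 2 ^ L < x := by
    rcases Nat.eq_zero_or_pos L with h | h
    · simpa [h] using hx
    · have := not_le.1 (Nat.find_min hex (m := L - 1) (by omega))
      calc (J : ℝ) * 2 ^ L = 2 * J * 2 ^ (L - 1) := by
            rw [show L = L - 1 + 1 by omega, pow_succ]; simp; ring
        _ < x := this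
  have hp : (0:ℝ) < 2 ^ L := by positivity
  set y := x / 2 ^ L with hy
  have hy1 : (J : ℝ) < y := by rw [hy, lt_div_iff₀ hp]; exact hlow
  have hy2 : y ≤ (2 * J : ℕ) := by rw [hy, div_le_iff₀ hp]; push_cast; exact hup
  have hc1 : J < ⌈y⌉₊ := Nat.lt_ceil.2 hy1
  have hc2 : ⌈y⌉₊ ≤ 2 * J := Nat.ceil_le.2 hy2
  have hc3 : (⌈y⌉₊ : ℝ) < y + 1 := Nat.ceil_lt_add_one (le_trans (Nat.cast_nonneg J) hy1.le)
  have hcc : ((⌈y⌉₊ - 1 : ℕ) : ℝ) + 1 = ⌈y⌉₊ := by
    rw [← Nat.cast_add_one]; congr 1; omega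
  refine ⟨L, ⌈y⌉₊ - 1, by omega, by omega, ?_, ?_⟩
  · rw [← lt_div_iff₀ hp, ← hy]; linarith
  · rw [hcc, ← div_le_iff₀ hp, ← hy]; exact Nat.le_ceil y

/-- Arbitrarily many small simplices fill almost the whole simplex. -/
theorem packs_small (N : ℕ) (hN : 1 ≤ N) (δ : ℝ) (hδ : 0 < δ) :
    ∃ m : ℕ, 1 ≤ m ∧ ∀ (k : ℕ) (R : ℝ) (r : Fin k → ℝ), 0 < R → (∀ i, 0 < r i) →
      (∀ i, r i < R / m) → ∑ i, r i ^ N ≤ (1 - δ) * R ^ N →
        ∃ s : Fin k → ℝ, (∀ i, r i < s i) ∧ Packs N R s := by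
  classical
  obtain ⟨n, rfl⟩ : ∃ l, N = l + 1 := ⟨N - 1, by omega⟩
  obtain ⟨J, hJ1, hJ⟩ : ∃ J : ℕ, 1 ≤ J ∧ (1 + 1 / (J:ℝ)) ^ (n + 1) * (1 - δ) ≤ 1 - δ / 2 := by
    have h1 : Filter.Tendsto (fun J : ℕ => (1 + 1 / (J:ℝ)) ^ (n + 1) * (1 - δ)) Filter.atTop
        (nhds ((1 + 0) ^ (n + 1) * (1 - δ))) :=
      ((tendsto_const_nhds.add tendsto_one_div_atTop_nhds_zero_nat).pow (n + 1)).mul_const (1 - δ)
    obtain ⟨J, hJ⟩ := ((h1.eventually (eventually_le_nhds (show (1 + 0) ^ (n + 1) * (1 - δ) < 1 - δ / 2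
      by simp; linarith))).and (Filter.eventually_ge_atTop 1)).exists
    exact ⟨J, hJ.2, hJ.1⟩
  obtain ⟨M, hM⟩ := exists_nat_gt (4 * (J:ℝ) / δ + 1)
  have hM0 : 0 < M := by
    have : (0:ℝ) < M := lt_of_le_of_lt (by positivity) hM
    exact_mod_cast this
  refine ⟨M * J, Nat.one_le_iff_ne_zero.2 (Nat.mul_ne_zero hM0.ne' (by omega)),
    fun k R r hR hr hsmall hvol => ?_⟩
  have hMr : (0:ℝ) < M := by exact_mod_cast hM0
  have hJr : (0:ℝ) < J := by exact_mod_cast hJ1
  have hx : ∀ i, (J:ℝ) < R / (M * r i) := fun i => by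
    rw [lt_div_iff₀ (mul_pos hMr (hr i))]
    have := hsmall i
    rw [Nat.cast_mul, lt_div_iff₀ (mul_pos hMr hJr)] at this
    linarith
  choose L j hj1 hj2 hj3 hj4 using fun i => exists_level hJ1 (hx i)
  set s : Fin k → ℝ := fun i => R / (M * 2 ^ L i) / j i with hs
  have hjr : ∀ i, (0:ℝ) < j i := fun i => by exact_mod_cast (lt_of_lt_of_le hJ1 (hj1 i))
  have hrs : ∀ i, r i < s i := fun i => by
    have := hj3 i
    rw [lt_div_iff₀ (mul_pos hMr (hr i))] at this
    rw [hs, lt_div_iff₀ (hjr i), lt_div_iff₀ (by positivity)]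
    linarith
  have hsr : ∀ i, s i ≤ (1 + 1 / (J:ℝ)) * r i := fun i => by
    have := hj4 i
    rw [div_le_iff₀ (mul_pos hMr (hr i))] at this
    have h1 : ((j i : ℝ) + 1) ≤ (1 + 1 / (J:ℝ)) * j i := by
      rw [add_mul, one_mul, one_div_mul_eq_div]
      gcongr
      rw [one_le_div hJr]; exact_mod_cast hj1 i
    rw [hs, div_le_iff₀ (hjr i), div_le_iff₀ (by positivity)]
    calc R ≤ ((j i : ℝ) + 1) * 2 ^ L i * (M * r i) := this
      _ ≤ ((1 + 1 / (J:ℝ)) * j i) * 2 ^ L i * (M * r i) := by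
          have := hr i; gcongr
      _ = _ := by ring
  -- classes
  set Λ := Finset.univ.sup L
  set A := Finset.univ.image (fun i => (L i, j i)) with hA
  set cnt : ℕ × ℕ → ℕ := fun a => (Finset.univ.filter fun i => (L i, j i) = a).card with hcnt
  set num : ℕ × ℕ → ℕ := fun a => ⌈(cnt a : ℝ) / (a.2 : ℝ) ^ (n + 1)⌉₊ with hnum
  let G := Σ a : A, Fin (num a.1)
  have hAmem : ∀ i, (L i, j i) ∈ A := fun i => Finset.mem_image.2 ⟨i, Finset.mem_univ _, rfl⟩
  have hAsub : A ⊆ Finset.range (Λ + 1) ×ˢ Finset.Ico J (2 * J) := by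
    intro a ha
    obtain ⟨i, -, rfl⟩ := Finset.mem_image.1 ha
    simp [Finset.le_sup (f := L) (Finset.mem_univ i), hj1 i, hj2 i, Λ]
  have hlev : Packs (n + 1) R (fun g : G => R / (M * 2 ^ g.1.1.1)) := by
    refine packs_levels hR hM0 Λ (fun g : G => g.1.1.1) (fun g => ?_) ?_
    · have := hAsub g.1.2
      simp at this; omega
    · rw [Fintype.sum_sigma]
      simp only [Finset.sum_const, Finset.card_univ, Fintype.card_fin, smul_eq_mul]
      rw [Finset.univ_eq_attach, Finset.sum_attach A (fun a => num a * (2 ^ (n + 1)) ^ (Λ - a.1))]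
      suffices h : (∑ a ∈ A, (num a : ℝ) / ((2:ℝ) ^ (n + 1)) ^ a.1) ≤ (M:ℝ) ^ (n + 1) by
        have h' := mul_le_mul_of_nonneg_right h (by positivity : (0:ℝ) ≤ ((2:ℝ) ^ (n + 1)) ^ Λ)
        rw [Finset.sum_mul] at h'
        have e : ∀ a ∈ A, (num a : ℝ) / ((2:ℝ) ^ (n + 1)) ^ a.1 * ((2:ℝ) ^ (n + 1)) ^ Λ =
            ((num a * (2 ^ (n + 1)) ^ (Λ - a.1) : ℕ) : ℝ) := by
          intro a ha
          have := hAsub ha
          simp at this
          push_cast
          rw [pow_sub₀ _ (by positivity) (by omega : a.1 ≤ Λ)]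
          field_simp
        rw [Finset.sum_congr rfl e] at h'
        exact_mod_cast h'
      have hb : ∀ a ∈ A, (num a : ℝ) / ((2:ℝ) ^ (n + 1)) ^ a.1 ≤
          (∑ i ∈ Finset.univ.filter (fun i => (L i, j i) = a), (M * s i / R) ^ (n + 1)) +
            (1 / (2:ℝ)) ^ a.1 := by
        intro a _
        have e : ∀ i ∈ Finset.univ.filter (fun i => (L i, j i) = a),
            (M * s i / R) ^ (n + 1) = 1 / (a.2 : ℝ) ^ (n + 1) / ((2:ℝ) ^ (n + 1)) ^ a.1 := by
          intro i hi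
          obtain rfl := (Finset.mem_filter.1 hi).2
          rw [hs, ← pow_mul, mul_comm (n + 1), pow_mul, one_div, ← inv_pow, div_eq_mul_inv _ (_ ^ _),
            ← inv_pow, ← mul_pow]
          congr 1
          field_simp
        rw [Finset.sum_congr rfl e, Finset.sum_const, nsmul_eq_mul]
        have h1 : (num a : ℝ) ≤ (cnt a : ℝ) / (a.2 : ℝ) ^ (n + 1) + 1 :=
          (Nat.ceil_lt_add_one (by positivity)).le
        have h2 : (1:ℝ) / ((2:ℝ) ^ (n + 1)) ^ a.1 ≤ (1 / (2:ℝ)) ^ a.1 := by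
          rw [div_pow, one_pow]
          gcongr
          calc (2:ℝ) = 2 ^ 1 := (pow_one 2).symm
            _ ≤ 2 ^ (n + 1) := pow_le_pow_right₀ (by norm_num) (by omega)
        calc (num a : ℝ) / ((2:ℝ) ^ (n + 1)) ^ a.1
            ≤ ((cnt a : ℝ) / (a.2 : ℝ) ^ (n + 1) + 1) / ((2:ℝ) ^ (n + 1)) ^ a.1 := by gcongr
          _ ≤ _ := by
            rw [add_div]
            refine add_le_add (le_of_eq ?_) h2
            rw [hcnt]; ring
      refine (Finset.sum_le_sum hb).trans ?_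
      rw [Finset.sum_add_distrib, Finset.sum_fiberwise_of_maps_to (fun i _ => hAmem i)]
      have h1 : ∑ i, (M * s i / R) ^ (n + 1) ≤ (1 - δ / 2) * (M:ℝ) ^ (n + 1) := by
        calc ∑ i, (M * s i / R) ^ (n + 1)
            ≤ ∑ i, (M * ((1 + 1 / (J:ℝ)) * r i) / R) ^ (n + 1) := by
              refine Finset.sum_le_sum fun i _ => ?_
              have := (hr i).trans (hrs i)
              gcongr
              exact hsr i
          _ = (M:ℝ) ^ (n + 1) * (1 + 1 / (J:ℝ)) ^ (n + 1) * ((∑ i, r i ^ (n + 1)) / R ^ (n + 1)) := by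
              rw [Finset.sum_div, Finset.mul_sum]
              refine Finset.sum_congr rfl fun i _ => ?_
              rw [div_pow, mul_pow, mul_pow]; ring
          _ ≤ (M:ℝ) ^ (n + 1) * (1 + 1 / (J:ℝ)) ^ (n + 1) * (1 - δ) := by
              gcongr
              rw [div_le_iff₀ (by positivity)]; exact hvol
          _ ≤ (1 - δ / 2) * (M:ℝ) ^ (n + 1) := by
              rw [mul_assoc, mul_comm (1 - δ / 2)]; gcongr
      have h2 : ∑ a ∈ A, (1 / (2:ℝ)) ^ a.1 ≤ 2 * J := by
        refine (Finset.sum_le_sum_of_subset_of_nonneg hAsub fun a _ _ => by positivity).trans ?_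
        rw [Finset.sum_product]
        simp only [Finset.sum_const, Nat.card_Ico, nsmul_eq_mul]
        rw [← Finset.mul_sum, show (2 * J - J : ℕ) = J by omega, mul_comm]
        gcongr
        rw [geom_sum_eq (by norm_num), div_le_iff_of_neg (by norm_num)]
        have : (0:ℝ) ≤ (1 / 2) ^ (Λ + 1) := by positivity
        linarith
      have h3 : 2 * (J:ℝ) ≤ δ / 2 * (M:ℝ) ^ (n + 1) := by
        have hM1 : (1:ℝ) ≤ M := by exact_mod_cast hM0
        have : (M:ℝ) ≤ (M:ℝ) ^ (n + 1) := le_self_pow₀ hM1 (by omega)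
        have h4 : 4 * (J:ℝ) / δ ≤ M := by linarith
        rw [div_le_iff₀ hδ] at h4
        nlinarith
      linarith
  -- ranks inside the classes
  let e : ∀ a : ℕ × ℕ, {i // (L i, j i) = a} ≃ Fin (cnt a) := fun a =>
    Fintype.equivFinOfCardEq (Fintype.card_subtype _)
  have hnum_lt : ∀ (a : ℕ × ℕ), 1 ≤ a.2 → ∀ x : Fin (cnt a),
      (x : ℕ) / a.2 ^ (n + 1) < num a := fun a ha x => by
    rw [hnum, Nat.lt_ceil, lt_div_iff₀ (by positivity)]
    have h1 : ((x : ℕ) / a.2 ^ (n + 1)) * a.2 ^ (n + 1) < cnt a :=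
      lt_of_le_of_lt (Nat.div_mul_le_self _ _) x.isLt
    exact_mod_cast h1
  let f : Fin k → G := fun i =>
    ⟨⟨(L i, j i), hAmem i⟩, ⟨(e _ ⟨i, rfl⟩ : ℕ) / j i ^ (n + 1),
      hnum_lt _ (le_trans hJ1 (hj1 i)) _⟩⟩
  have hp : Packs (n + 1) R s := by
    refine hlev.refine f (fun g => g.1.1.2) s (fun i => ((hr i).trans (hrs i)).le) (fun i => ?_)
      (fun g => ?_) (fun i i' h => ?_)
    · show s i * (j i : ℝ) ≤ R / (M * 2 ^ L i)
      rw [hs, div_mul_cancel₀ _ (hjr i).ne']
    · obtain ⟨⟨a, ha⟩, b⟩ := g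
      show _ ≤ a.2 ^ (n + 1)
      have key : ∀ i, f i = ⟨⟨a, ha⟩, b⟩ →
          ∃ h : (L i, j i) = a, (e a ⟨i, h⟩ : ℕ) / a.2 ^ (n + 1) = (b : ℕ) := by
        intro i hi
        have h1 : (L i, j i) = a := congrArg (fun g : G => g.1.1) hi
        subst h1
        exact ⟨rfl, congrArg (fun g : G => (g.2 : ℕ)) hi⟩
      refine le_trans (Finset.card_le_card_of_injOn
        (fun i => if h : (L i, j i) = a then (e a ⟨i, h⟩ : ℕ) % a.2 ^ (n + 1) else 0)
        (t := Finset.range (a.2 ^ (n + 1))) (fun i hi => ?_) (fun i hi i' hi' he => ?_))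
        (Finset.card_range _).le
      · simp only [Finset.mem_coe, Finset.mem_filter, Finset.mem_univ, true_and] at hi
        obtain ⟨h1, -⟩ := key i hi
        simp only [dif_pos h1, Finset.coe_range, Set.mem_Iio]
        refine Nat.mod_lt _ (pow_pos ?_ _)
        rw [← h1]; exact lt_of_lt_of_le hJ1 (hj1 i)
      · simp only [Finset.mem_coe, Finset.mem_filter, Finset.mem_univ, true_and] at hi hi'
        obtain ⟨h1, e1⟩ := key i hi
        obtain ⟨h2, e2⟩ := key i' hi'
        simp only [dif_pos h1, dif_pos h2] at he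
        have t1 := Nat.div_add_mod (e a ⟨i, h1⟩ : ℕ) (a.2 ^ (n + 1))
        have t2 := Nat.div_add_mod (e a ⟨i', h2⟩ : ℕ) (a.2 ^ (n + 1))
        rw [e1] at t1; rw [e2] at t2
        have he' : (e a ⟨i, h1⟩ : ℕ) = (e a ⟨i', h2⟩ : ℕ) := by omega
        exact congrArg Subtype.val ((e a).injective (Fin.ext he'))
    · have h1 : (L i, j i) = (L i', j i') := congrArg (fun g : G => g.1.1) h
      simp only [Prod.mk.injEq] at h1
      simp only [hs, h1.1, h1.2]
  exact ⟨s, hrs, hp⟩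

/-- Arbitrarily many small balls fill almost the whole volume. -/
theorem hasBallPacking_small (N : ℕ) (hN : 1 ≤ N) (δ : ℝ) (hδ : 0 < δ) :
    ∃ m : ℕ, 1 ≤ m ∧ ∀ (k : ℕ) (R : ℝ) (r : Fin k → ℝ), 0 < R → (∀ i, 0 < r i) →
      (∀ i, r i < R / m) → ∑ i, r i ^ N ≤ (1 - δ) * R ^ N → HasBallPacking N R r := by
  obtain ⟨m, hm, h⟩ := packs_small N hN δ hδ
  refine ⟨m, hm, fun k R r hR hr hsmall hvol => ?_⟩
  obtain ⟨s, hrs, P, hP, hdis⟩ := h k R r hR hr hsmall hvol
  exact hasBallPacking_of_pieces P s hr hrs (fun i p hp => (hP i p hp).1)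
    (fun i p hp => (hP i p hp).2) hdis

end

end Vale.Agent.P209
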