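import Vale.Agent.P209.Toric
import Mathlib.Analysis.Calculus.FDeriv.Symmetric

/-!
# Action shears

`shear ψ K h` re-charts the coordinates in `K` by an area preserving map `ψ` into a strip,
translates their actions by a function `h` of the actions of the other coordinates, and rotates
the other coordinates so that the result is symplectic.
-/

namespace Vale.Agent.P209

open scoped ContDiff
open Complex (I)

noncomputable section

variable {n : ℕ}

/-- Actions of the coordinates outside `K`, zero on `K`. -/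
def pmask (K : Finset (Fin n)) (z : Fin n → ℂ) : Fin n → ℝ :=
  fun j => if j ∈ K then 0 else Real.pi * ‖z j‖ ^ 2

/-- Angle by which an outside coordinate is rotated. -/
def shearAngle (ψ : ℂ → ℂ) (K : Finset (Fin n)) (h : (Fin n → ℝ) → (Fin n → ℝ))
    (z : Fin n → ℂ) (j : Fin n) : ℝ :=
  -∑ k ∈ K, (ψ (z k)).im * fderiv ℝ h (pmask K z) (Pi.single j 1) k

/-- The shear. -/
def shear (ψ : ℂ → ℂ) (K : Finset (Fin n)) (h : (Fin n → ℝ) → (Fin n → ℝ))
    (z : Fin n → ℂ) : Fin n → ℂ := fun j =>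
  if j ∈ K then pol (ψ (z j) + (h (pmask K z) j : ℂ))
  else z j * Complex.exp (((2 * Real.pi * shearAngle ψ K h z j : ℝ) : ℂ) * I)

variable {ψ : ℂ → ℂ} {K : Finset (Fin n)} {h : (Fin n → ℝ) → (Fin n → ℝ)}

lemma shear_out {z : Fin n → ℂ} {j : Fin n} (hj : j ∉ K) :
    ‖shear ψ K h z j‖ = ‖z j‖ := by
  rw [shear, if_neg hj, norm_mul, Complex.norm_exp_ofReal_mul_I, mul_one]

lemma shear_in {z : Fin n → ℂ} {j : Fin n} (hj : j ∈ K)
    (hpos : 0 ≤ (ψ (z j)).re + h (pmask K z) j) :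
    Real.pi * ‖shear ψ K h z j‖ ^ 2 = (ψ (z j)).re + h (pmask K z) j := by
  rw [shear, if_pos hj, norm_sq_pol (by simpa using hpos)]
  simp

/-- Derivative of `π ‖·‖²`. -/
def dAction (w : ℂ) : ℂ →L[ℝ] ℝ :=
  (2 * Real.pi * w.re) • Complex.reCLM + (2 * Real.pi * w.im) • Complex.imCLM

lemma hasFDerivAt_action (w : ℂ) : HasFDerivAt (fun z : ℂ => Real.pi * ‖z‖ ^ 2) (dAction w) w := by
  have e : (fun z : ℂ => Real.pi * ‖z‖ ^ 2) = fun z : ℂ => Real.pi * (z.re * z.re + z.im * z.im) := by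
    funext z; rw [Complex.sq_norm, Complex.normSq_apply]
  rw [e]
  have hre : HasFDerivAt (fun z : ℂ => z.re) Complex.reCLM w := Complex.reCLM.hasFDerivAt
  have him : HasFDerivAt (fun z : ℂ => z.im) Complex.imCLM w := Complex.imCLM.hasFDerivAt
  refine (((hre.mul hre).add (him.mul him)).const_mul Real.pi).congr_fderiv ?_
  ext <;> simp [dAction] <;> ring

/-- Derivative of `pmask`. -/
def dMask (K : Finset (Fin n)) (z : Fin n → ℂ) : (Fin n → ℂ) →L[ℝ] (Fin n → ℝ) :=
  ContinuousLinearMap.pi fun j =>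
    if j ∈ K then 0 else (dAction (z j)).comp (ContinuousLinearMap.proj j)

lemma hasFDerivAt_pmask (z : Fin n → ℂ) : HasFDerivAt (pmask K) (dMask K z) z := by
  refine hasFDerivAt_pi.mpr fun j => ?_
  by_cases hj : j ∈ K
  · simp only [pmask, if_pos hj]; exact hasFDerivAt_const _ _
  · simp only [pmask, if_neg hj]
    exact (hasFDerivAt_action (z j)).comp (f := fun z : Fin n → ℂ => z j) z
      (hasFDerivAt_apply j z)

lemma contDiff_pmask : ContDiff ℝ ∞ (pmask K) := by
  refine contDiff_pi.mpr fun j => ?_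
  by_cases hj : j ∈ K
  · simp only [pmask, if_pos hj]; exact contDiff_const
  · simp only [pmask, if_neg hj]
    simp only [Complex.sq_norm, Complex.normSq_apply]
    have hre := Complex.reCLM.contDiff.comp (n := ∞) (contDiff_apply ℝ ℂ j (n := ∞) (ι := Fin n))
    have him := Complex.imCLM.contDiff.comp (n := ∞) (contDiff_apply ℝ ℂ j (n := ∞) (ι := Fin n))
    exact contDiff_const.mul ((hre.mul hre).add (him.mul him))

/-- Where a shear is defined. -/
def shearDomain (ψ : ℂ → ℂ) (K : Finset (Fin n)) (h : (Fin n → ℝ) → (Fin n → ℝ)) (D : Set ℂ)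
    (V : Set (Fin n → ℝ)) : Set (Fin n → ℂ) :=
  {z | (∀ k ∈ K, z k ∈ D) ∧ pmask K z ∈ V ∧ ∀ k ∈ K, 0 < (ψ (z k)).re + h (pmask K z) k}

lemma area_rot (w e f : ℂ) (a b t : ℝ) :
    areaForm (e * Complex.exp ((t : ℂ) * I) + w * (Complex.exp ((t : ℂ) * I) *
        (((2 * Real.pi * a : ℝ) : ℂ) * I)))
      (f * Complex.exp ((t : ℂ) * I) + w * (Complex.exp ((t : ℂ) * I) *
        (((2 * Real.pi * b : ℝ) : ℂ) * I)))
      = areaForm e f + (dAction w e * b - dAction w f * a) := by
  rw [show Complex.exp ((t : ℂ) * I) = (Real.cos t : ℂ) + (Real.sin t : ℂ) * I by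
    rw [Complex.exp_mul_I, ← Complex.ofReal_cos, ← Complex.ofReal_sin]]
  simp only [areaForm, dAction, ContinuousLinearMap.add_apply, ContinuousLinearMap.smul_apply,
    Complex.reCLM_apply, Complex.imCLM_apply, smul_eq_mul, Complex.mul_re, Complex.mul_im,
    Complex.add_re, Complex.add_im, Complex.ofReal_re, Complex.ofReal_im, Complex.I_re, Complex.I_im]
  linear_combination (e.re * f.im - e.im * f.re
    + 2 * Real.pi * b * (e.re * w.re + e.im * w.im)
    - 2 * Real.pi * a * (f.re * w.re + f.im * w.im)) * Real.sin_sq_add_cos_sq t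

section

variable {D : Set ℂ} {V : Set (Fin n → ℝ)}

/-- Derivative of the rotation angle. -/
def dAngle (ψ : ℂ → ℂ) (K : Finset (Fin n)) (h : (Fin n → ℝ) → (Fin n → ℝ))
    (z u : Fin n → ℂ) (j : Fin n) : ℝ :=
  -∑ k ∈ K, ((fderiv ℝ ψ (z k) (u k)).im * fderiv ℝ h (pmask K z) (Pi.single j 1) k +
    (ψ (z k)).im * fderiv ℝ (fderiv ℝ h) (pmask K z) (dMask K z u) (Pi.single j 1) k)

lemma isOpen_shearDomain (hD : IsOpen D) (hψ : ContDiffOn ℝ ∞ ψ D) (hV : IsOpen V)
    (hh : ContDiffOn ℝ ∞ h V) : IsOpen (shearDomain ψ K h D V) := by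
  have hW : IsOpen {z : Fin n → ℂ | (∀ k ∈ K, z k ∈ D) ∧ pmask K z ∈ V} := by
    refine IsOpen.inter ?_ (hV.preimage contDiff_pmask.continuous)
    show IsOpen {z : Fin n → ℂ | ∀ k ∈ K, z k ∈ D}
    simp only [Set.setOf_forall]
    exact isOpen_biInter_finset fun k _ => hD.preimage (continuous_apply k)
  rw [isOpen_iff_mem_nhds]
  rintro z ⟨h1, h2, hpos⟩
  have hev : ∀ᶠ y in nhds z, ∀ k ∈ K, 0 < (ψ (y k)).re + h (pmask K y) k := by
    refine (Filter.eventually_all_finset K).2 fun k hk => ?_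
    refine ((Complex.continuous_re.continuousAt.comp
      ((hψ.continuousOn.continuousAt (hD.mem_nhds (h1 k hk))).comp
        (f := fun z : Fin n → ℂ => z k) (continuous_apply k).continuousAt)).add
      ((continuous_apply k).continuousAt.comp
        ((hh.continuousOn.continuousAt (hV.mem_nhds h2)).comp
          contDiff_pmask.continuous.continuousAt))).eventually_const_lt (hpos k hk)
  filter_upwards [hW.mem_nhds (show z ∈ _ from ⟨h1, h2⟩), hev] with y hy hy'
  exact ⟨hy.1, hy.2, hy'⟩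

lemma contDiffOn_shear (hD : IsOpen D) (hψ : ContDiffOn ℝ ∞ ψ D) (hV : IsOpen V)
    (hh : ContDiffOn ℝ ∞ h V) : ContDiffOn ℝ ∞ (shear ψ K h) (shearDomain ψ K h D V) := by
  intro z hz
  have hψat : ∀ k ∈ K, ContDiffAt ℝ ∞ (fun z : Fin n → ℂ => ψ (z k)) z := fun k hk =>
    (hψ.contDiffAt (hD.mem_nhds (hz.1 k hk))).comp z (contDiff_apply ℝ ℂ k).contDiffAt
  have hh2 : ContDiffAt ℝ ∞ h (pmask K z) := hh.contDiffAt (hV.mem_nhds hz.2.1)
  refine (contDiffAt_pi.mpr fun j => ?_).contDiffWithinAt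
  by_cases hj : j ∈ K
  · simp only [shear, if_pos hj]
    refine (contDiffAt_pol ?_).comp z ((hψat j hj).add
      (Complex.ofRealCLM.contDiff.contDiffAt.comp z
        (contDiffAt_pi.mp (hh2.comp z contDiff_pmask.contDiffAt) j)))
    simpa using hz.2.2 j hj
  · simp only [shear, if_neg hj, shearAngle]
    have hang : ContDiffAt ℝ ∞ (fun z : Fin n → ℂ => 2 * Real.pi *
        -∑ k ∈ K, (ψ (z k)).im * fderiv ℝ h (pmask K z) (Pi.single j 1) k) z := by
      refine contDiffAt_const.mul (ContDiffAt.sum fun k hk => ?_).neg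
      refine (Complex.imCLM.contDiff.contDiffAt.comp z (hψat k hk)).mul ?_
      exact contDiffAt_pi.mp (((hh2.fderiv_right (m := ∞)
        (by simp)).comp z contDiff_pmask.contDiffAt).clm_apply contDiffAt_const) k
    exact (contDiff_apply ℝ ℂ j).contDiffAt.mul
      (((Complex.ofRealCLM.contDiff.contDiffAt.comp z hang).mul contDiffAt_const).cexp)

lemma fderiv_shear_apply {z : Fin n → ℂ} (hd : DifferentiableAt ℝ (shear ψ K h) z)
    {j : Fin n} {L : (Fin n → ℂ) →L[ℝ] ℂ} (hL : HasFDerivAt (fun y => shear ψ K h y j) L z)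
    (u : Fin n → ℂ) : fderiv ℝ (shear ψ K h) z u j = L u := by
  have h1 := (hasFDerivAt_apply (𝕜 := ℝ) j (shear ψ K h z)).comp z hd.hasFDerivAt
  exact congrArg (fun T : (Fin n → ℂ) →L[ℝ] ℂ => T u) (h1.unique hL)

variable {z : Fin n → ℂ} (hd : DifferentiableAt ℝ (shear ψ K h) z)
  (hψd : ∀ k ∈ K, DifferentiableAt ℝ ψ (z k)) (hd1 : DifferentiableAt ℝ h (pmask K z))

include hd hψd hd1

lemma fderiv_shear_in {k : Fin n} (hk : k ∈ K)
    (hpos : 0 < (ψ (z k)).re + h (pmask K z) k) (u : Fin n → ℂ) :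
    fderiv ℝ (shear ψ K h) z u k = fderiv ℝ pol (ψ (z k) + (h (pmask K z) k : ℂ))
      (fderiv ℝ ψ (z k) (u k) + ((fderiv ℝ h (pmask K z) (dMask K z u) k : ℝ) : ℂ)) := by
  have hA : HasFDerivAt (fun z : Fin n → ℂ => h (pmask K z) k)
      ((ContinuousLinearMap.proj k).comp ((fderiv ℝ h (pmask K z)).comp (dMask K z))) z :=
    (ContinuousLinearMap.proj (R := ℝ) (φ := fun _ : Fin n => ℝ) k).hasFDerivAt.comp z
      (hd1.hasFDerivAt.comp z (hasFDerivAt_pmask z))
  have hψk : HasFDerivAt (fun z : Fin n → ℂ => ψ (z k))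
      ((fderiv ℝ ψ (z k)).comp (ContinuousLinearMap.proj k)) z :=
    (hψd k hk).hasFDerivAt.comp (f := fun z : Fin n → ℂ => z k) z (hasFDerivAt_apply k z)
  have hw : HasFDerivAt (fun z : Fin n → ℂ => ψ (z k) + (h (pmask K z) k : ℂ)) _ z :=
    hψk.add (Complex.ofRealCLM.hasFDerivAt.comp z hA)
  have hpw : 0 < (ψ (z k) + (h (pmask K z) k : ℂ)).re := by simpa using hpos
  have hc := (((contDiffAt_pol hpw).differentiableAt (by simp)).hasFDerivAt).comp
    (f := fun z : Fin n → ℂ => ψ (z k) + (h (pmask K z) k : ℂ)) z hw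
  have hc' : HasFDerivAt (fun y => shear ψ K h y k) _ z :=
    hc.congr_of_eventuallyEq (Filter.Eventually.of_forall fun y => by
      show shear ψ K h y k = _
      rw [shear, if_pos hk]; rfl)
  rw [fderiv_shear_apply hd hc' u]
  simp

lemma fderiv_shear_out {j : Fin n} (hj : j ∉ K)
    (hd2 : DifferentiableAt ℝ (fderiv ℝ h) (pmask K z)) (u : Fin n → ℂ) :
    fderiv ℝ (shear ψ K h) z u j =
      u j * Complex.exp (((2 * Real.pi * shearAngle ψ K h z j : ℝ) : ℂ) * I) +
      z j * (Complex.exp (((2 * Real.pi * shearAngle ψ K h z j : ℝ) : ℂ) * I) *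
        (((2 * Real.pi * dAngle ψ K h z u j : ℝ) : ℂ) * I)) := by
  have hH : ∀ k, HasFDerivAt (fun z : Fin n → ℂ => fderiv ℝ h (pmask K z) (Pi.single j 1) k)
      (((ContinuousLinearMap.proj (R := ℝ) (φ := fun _ : Fin n => ℝ) k).comp
        (ContinuousLinearMap.apply ℝ (Fin n → ℝ) (Pi.single j (1:ℝ) : Fin n → ℝ))).comp
          ((fderiv ℝ (fderiv ℝ h) (pmask K z)).comp (dMask K z))) z := by
    intro k
    let T := (ContinuousLinearMap.proj (R := ℝ) (φ := fun _ : Fin n => ℝ) k).comp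
      (ContinuousLinearMap.apply ℝ (Fin n → ℝ) (Pi.single j (1:ℝ) : Fin n → ℝ))
    exact T.hasFDerivAt.comp (f := fun z => fderiv ℝ h (pmask K z)) z
      (hd2.hasFDerivAt.comp z (hasFDerivAt_pmask z))
  have hψk : ∀ k ∈ K, HasFDerivAt (fun z : Fin n → ℂ => (ψ (z k)).im)
      (Complex.imCLM.comp ((fderiv ℝ ψ (z k)).comp (ContinuousLinearMap.proj k))) z := fun k hk =>
    Complex.imCLM.hasFDerivAt.comp z
      ((hψd k hk).hasFDerivAt.comp (f := fun z : Fin n → ℂ => z k) z (hasFDerivAt_apply k z))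
  have hφ : HasFDerivAt (fun z => shearAngle ψ K h z j) _ z :=
    (HasFDerivAt.fun_sum (u := K) fun k hk => (hψk k hk).mul (hH k)).neg
  have hexp := (((Complex.ofRealCLM.hasFDerivAt.comp z
    (hφ.const_mul (2 * Real.pi))).mul_const I)).cexp
  have hc := (hasFDerivAt_apply (𝕜 := ℝ) (F' := fun _ : Fin n => ℂ) j z).mul hexp
  have hc' : HasFDerivAt (fun y => shear ψ K h y j) _ z :=
    hc.congr_of_eventuallyEq (Filter.Eventually.of_forall fun y => by
      show shear ψ K h y j = _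
      rw [shear, if_neg hj]; rfl)
  rw [fderiv_shear_apply hd hc' u]
  simp only [ContinuousLinearMap.add_apply, ContinuousLinearMap.smul_apply,
    ContinuousLinearMap.proj_apply, ContinuousLinearMap.comp_apply, ContinuousLinearMap.neg_apply,
    ContinuousLinearMap.sum_apply, ContinuousLinearMap.smulRight_apply,
    ContinuousLinearMap.apply_apply, Complex.ofRealCLM_apply, Complex.imCLM_apply, smul_eq_mul,
    Function.comp_apply]
  have e : ∑ k ∈ K, ((ψ (z k)).im *
        fderiv ℝ (fderiv ℝ h) (pmask K z) (dMask K z u) (Pi.single j 1) k +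
      fderiv ℝ h (pmask K z) (Pi.single j 1) k * (fderiv ℝ ψ (z k) (u k)).im) =
      -dAngle ψ K h z u j := by
    rw [dAngle, neg_neg]
    exact Finset.sum_congr rfl fun k _ => by ring
  rw [e]
  push_cast
  ring

omit hd hψd hd1

lemma sum_dMask_mul (T : (Fin n → ℝ) →L[ℝ] (Fin n → ℝ)) (z u : Fin n → ℂ) (k : Fin n) :
    ∑ j ∈ Kᶜ, dMask K z u j * T (Pi.single j 1) k = T (dMask K z u) k := by
  rw [Finset.sum_subset (Finset.subset_univ Kᶜ) fun j _ hj => by
    simp [dMask, show j ∈ K by simpa using hj]]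
  conv_rhs => rw [← Finset.univ_sum_single (dMask K z u), map_sum, Finset.sum_apply]
  refine Finset.sum_congr rfl fun j _ => ?_
  rw [show Pi.single j (dMask K z u j) = dMask K z u j • (Pi.single j (1:ℝ) : Fin n → ℝ) by
    rw [← Pi.single_smul]; simp, map_smul]
  rfl

lemma sum_cross (z u v : Fin n → ℂ) :
    ∑ j ∈ Kᶜ, dMask K z u j * dAngle ψ K h z v j = -∑ k ∈ K,
      ((fderiv ℝ ψ (z k) (v k)).im * fderiv ℝ h (pmask K z) (dMask K z u) k +
        (ψ (z k)).im * fderiv ℝ (fderiv ℝ h) (pmask K z) (dMask K z v) (dMask K z u) k) := by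
  simp only [dAngle, mul_neg, Finset.sum_neg_distrib, Finset.mul_sum]
  rw [Finset.sum_comm]
  refine congrArg Neg.neg (Finset.sum_congr rfl fun k _ => ?_)
  rw [← sum_dMask_mul (fderiv ℝ (fderiv ℝ h) (pmask K z) (dMask K z v)) z u k,
    ← sum_dMask_mul (fderiv ℝ h (pmask K z)) z u k,
    Finset.mul_sum, Finset.mul_sum, ← Finset.sum_add_distrib]
  exact Finset.sum_congr rfl fun j _ => by ring

end

theorem isSymp_shear {D : Set ℂ} (hD : IsOpen D) (hψ : ContDiffOn ℝ ∞ ψ D)
    (hs : ∀ z ∈ D, ∀ e f, areaForm (fderiv ℝ ψ z e) (fderiv ℝ ψ z f) = areaForm e f)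
    {V : Set (Fin n → ℝ)} (hV : IsOpen V) (hh : ContDiffOn ℝ ∞ h V) :
    IsSymp (shear ψ K h) (shearDomain ψ K h D V) := by
  refine ⟨contDiffOn_shear hD hψ hV hh, fun z hz u v => ?_⟩
  have hd : DifferentiableAt ℝ (shear ψ K h) z :=
    ((contDiffOn_shear hD hψ hV hh).differentiableOn (by simp)).differentiableAt
      ((isOpen_shearDomain hD hψ hV hh).mem_nhds hz)
  have hψd : ∀ k ∈ K, DifferentiableAt ℝ ψ (z k) := fun k hk =>
    (hψ.differentiableOn (by simp)).differentiableAt (hD.mem_nhds (hz.1 k hk))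
  have hh2 : ContDiffAt ℝ ∞ h (pmask K z) := hh.contDiffAt (hV.mem_nhds hz.2.1)
  have hd1 : DifferentiableAt ℝ h (pmask K z) := hh2.differentiableAt (by simp)
  have hd2 : DifferentiableAt ℝ (fderiv ℝ h) (pmask K z) :=
    (hh2.fderiv_right (m := ∞) (by simp)).differentiableAt (by simp)
  have hsym := (hh2.isSymmSndFDerivAt (n := ∞) (by simp only [minSmoothness_of_isRCLikeNormedField]; exact WithTop.coe_le_coe.2 le_top)).eq
  have hin : ∀ k ∈ K, areaForm (fderiv ℝ (shear ψ K h) z u k) (fderiv ℝ (shear ψ K h) z v k) =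
      areaForm (u k) (v k) +
        (fderiv ℝ h (pmask K z) (dMask K z u) k * (fderiv ℝ ψ (z k) (v k)).im -
         fderiv ℝ h (pmask K z) (dMask K z v) k * (fderiv ℝ ψ (z k) (u k)).im) := by
    intro k hk
    rw [fderiv_shear_in hd hψd hd1 hk (hz.2.2 k hk), fderiv_shear_in hd hψd hd1 hk (hz.2.2 k hk),
      fderiv_pol (by simpa using hz.2.2 k hk), ← hs (z k) (hz.1 k hk) (u k) (v k)]
    simp only [areaForm, Complex.add_re, Complex.add_im, Complex.ofReal_re, Complex.ofReal_im]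
    ring
  have hout : ∀ j ∈ Kᶜ, areaForm (fderiv ℝ (shear ψ K h) z u j) (fderiv ℝ (shear ψ K h) z v j) =
      areaForm (u j) (v j) + (dMask K z u j * dAngle ψ K h z v j -
        dMask K z v j * dAngle ψ K h z u j) := by
    intro j hj
    have hj' : j ∉ K := Finset.mem_compl.1 hj
    rw [fderiv_shear_out hd hψd hd1 hj' hd2, fderiv_shear_out hd hψd hd1 hj' hd2, area_rot]
    simp [dMask, hj']
  simp only [omega0]
  rw [← Finset.sum_add_sum_compl K, ← Finset.sum_add_sum_compl K (fun j => areaForm (u j) (v j)),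
    Finset.sum_congr rfl hin, Finset.sum_congr rfl hout]
  simp only [Finset.sum_add_distrib, Finset.sum_sub_distrib, sum_cross, hsym (dMask K z v) (dMask K z u),
    mul_comm ((fderiv ℝ ψ (z _) _).im)]
  ring

theorem injOn_shear {D : Set ℂ} (hinj : Set.InjOn ψ D) (him : ∀ z ∈ D, |(ψ z).im| < 1 / 2)
    {V : Set (Fin n → ℝ)} : Set.InjOn (shear ψ K h) (shearDomain ψ K h D V) := by
  intro z hz z' hz' heq
  have hp : pmask K z = pmask K z' := by
    funext j
    by_cases hj : j ∈ K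
    · simp [pmask, hj]
    · have := congrArg (fun w : Fin n → ℂ => ‖w j‖) heq
      simp only [shear_out hj] at this
      simp [pmask, hj, this]
  have hK : ∀ k ∈ K, z k = z' k := by
    intro k hk
    have e3 := congrFun heq k
    simp only [shear, if_pos hk] at e3
    have p1 : 0 < (ψ (z k) + (h (pmask K z) k : ℂ)).re := by simpa using hz.2.2 k hk
    have p2 : 0 < (ψ (z' k) + (h (pmask K z') k : ℂ)).re := by simpa using hz'.2.2 k hk
    have e1 := norm_sq_pol p1.le
    rw [e3, norm_sq_pol p2.le, hp] at e1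
    simp only [Complex.add_re, Complex.ofReal_re] at e1
    refine hinj (hz.1 k hk) (hz'.1 k hk) (Complex.ext (by linarith) ?_)
    rw [pol, pol] at e3
    rw [show (ψ (z k) + (h (pmask K z) k : ℂ)).re = (ψ (z' k) + (h (pmask K z') k : ℂ)).re by
        rw [hp]; simp; linarith,
      mul_right_inj' (by
        rw [Complex.ofReal_ne_zero]
        exact (Real.sqrt_pos.mpr (div_pos p2 Real.pi_pos)).ne')] at e3
    obtain ⟨m, hm⟩ := Complex.exp_eq_exp_iff_exists_int.mp e3
    have hm' := congrArg Complex.im hm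
    simp at hm'
    have hd : (ψ (z k)).im = (ψ (z' k)).im + m := by nlinarith [Real.pi_pos]
    have b1 := abs_lt.mp (him _ (hz.1 k hk))
    have b2 := abs_lt.mp (him _ (hz'.1 k hk))
    have h1 : (-1 : ℝ) < m := by linarith
    have h2 : (m : ℝ) < 1 := by linarith
    norm_cast at h1 h2
    rw [show m = 0 by omega] at hd
    simpa using hd
  funext j
  by_cases hj : j ∈ K
  · exact hK j hj
  · have ha : shearAngle ψ K h z j = shearAngle ψ K h z' j := by
      simp only [shearAngle, hp]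
      rw [Finset.sum_congr rfl fun k hk => by rw [hK k hk]]
    have e3 := congrFun heq j
    simp only [shear, if_neg hj, ha] at e3
    exact mul_right_cancel₀ (Complex.exp_ne_zero _) e3

end

end Vale.Agent.P209
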