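import Mathlib.Analysis.SpecialFunctions.Exp
import Mathlib.Algebra.Order.Antidiag.Pi
import Mathlib.Analysis.SpecialFunctions.Log.Basic
import Mathlib.Analysis.Complex.ExponentialBounds
import Mathlib.Data.Nat.Choose.Bounds
import Mathlib.Data.Sym.Card
import Mathlib.Algebra.BigOperators.Field
import Mathlib.Tactic.Linarith
import Mathlib.Tactic.Positivity
import Mathlib.Tactic.FieldSimp

/-!
# Weighted random compositions and bounded multiplicity
-/

namespace Vale.Agent.P209

open Finset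

/-- The weight of one part: `1` for an empty part and `(β - 1) β ^ (j - 1)` for a part `j`. -/
def partWeight (β : ℝ) : ℕ → ℝ
  | 0 => 1
  | j + 1 => (β - 1) * β ^ j

lemma sum_partWeight (β : ℝ) (t : ℕ) : ∑ j ∈ range (t + 1), partWeight β j = β ^ t := by
  induction t with
  | zero => simp [partWeight]
  | succ t ih => rw [sum_range_succ, ih, partWeight]; ring

lemma partWeight_nonneg {β : ℝ} (hβ : 1 ≤ β) : ∀ j, 0 ≤ partWeight β j
  | 0 => zero_le_one
  | _ + 1 => mul_nonneg (by linarith) (pow_nonneg (by linarith) _)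

/-- `k! ≤ e k (k / e) ^ k`. -/
lemma factorial_mul_exp_le : ∀ k : ℕ, 1 ≤ k →
    (k.factorial : ℝ) * Real.exp 1 ^ k ≤ Real.exp 1 * (k : ℝ) ^ (k + 1) := by
  intro k hk
  induction k, hk using Nat.le_induction with
  | base => simp
  | succ k _ ih =>
    have hk0 : (0 : ℝ) < k + 1 := by positivity
    have h1 : (k : ℝ) / (k + 1) ≤ Real.exp (-(1 / (k + 1))) := by
      refine le_trans (le_of_eq ?_) (Real.add_one_le_exp _)
      field_simp
      ring
    have h2 : Real.exp 1 * (k : ℝ) ^ (k + 1) ≤ ((k : ℝ) + 1) ^ (k + 1) := by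
      have h3 := pow_le_pow_left₀ (by positivity) h1 (k + 1)
      rw [← Real.exp_nat_mul, div_pow, div_le_iff₀ (by positivity)] at h3
      have e : ((k + 1 : ℕ) : ℝ) * -(1 / ((k : ℝ) + 1)) = -1 := by
        push_cast
        field_simp
      rw [e, Real.exp_neg] at h3
      calc _ ≤ Real.exp 1 * ((Real.exp 1)⁻¹ * ((k : ℝ) + 1) ^ (k + 1)) := by gcongr
        _ = _ := by rw [← mul_assoc, mul_inv_cancel₀ (Real.exp_ne_zero _), one_mul]
    rw [Nat.factorial_succ]
    push_cast
    calc ((k : ℝ) + 1) * k.factorial * Real.exp 1 ^ (k + 1)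
        = ((k : ℝ) + 1) * Real.exp 1 * (k.factorial * Real.exp 1 ^ k) := by ring
      _ ≤ ((k : ℝ) + 1) * Real.exp 1 * (Real.exp 1 * (k : ℝ) ^ (k + 1)) := by gcongr
      _ ≤ ((k : ℝ) + 1) * Real.exp 1 * ((k : ℝ) + 1) ^ (k + 1) := by gcongr
      _ = Real.exp 1 * ((k : ℝ) + 1) ^ (k + 1 + 1) := by ring

open Classical in
/-- The compositions with a given support already give this much weight. -/
lemma le_sum_compositions {a : ℕ} (d k : ℕ) (hk : 1 ≤ k) (hkd : k ≤ d) (β : ℝ) (hβ : 1 ≤ β) :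
    (a.choose k : ℝ) * ((d - 1).choose (k - 1) : ℝ) * ((β - 1) ^ k * β ^ (d - k)) ≤
      ∑ c ∈ piAntidiag (univ : Finset (Fin a)) d, ∏ j, partWeight β (c j) := by
  set P : Finset ((_ : Finset (Fin a)) × (Fin a → ℕ)) :=
    ((univ : Finset (Fin a)).powersetCard k).sigma fun s => piAntidiag s (d - k)
  let g : (_ : Finset (Fin a)) × (Fin a → ℕ) → Fin a → ℕ := fun x j =>
    x.2 j + if j ∈ x.1 then 1 else 0
  have hP : ∀ x ∈ P, x.1.card = k ∧ x.1.sum x.2 = d - k ∧ ∀ j, x.2 j ≠ 0 → j ∈ x.1 := by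
    intro x hx
    simp only [P, mem_sigma, mem_powersetCard, mem_piAntidiag] at hx
    exact ⟨hx.1.2, hx.2.1, hx.2.2⟩
  have hsupp : ∀ x ∈ P, ∀ j, j ∈ x.1 ↔ g x j ≠ 0 := by
    intro x hx j
    by_cases hj : j ∈ x.1
    · simp [g, hj]
    · have := (hP x hx).2.2 j
      simp only [g, hj, if_false, add_zero]
      tauto
  have hinj : Set.InjOn g P := by
    intro x hx y hy e
    have h1 : x.1 = y.1 := by
      ext j
      rw [hsupp x hx j, hsupp y hy j, e]
    obtain ⟨s, u⟩ := x
    obtain ⟨s', u'⟩ := y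
    obtain rfl : s = s' := h1
    have h2 : u = u' := funext fun j => by simpa [g] using congrFun e j
    rw [h2]
  have hsum : ∀ x ∈ P, ∑ j, g x j = d := by
    intro x hx
    obtain ⟨h1, h2, h3⟩ := hP x hx
    simp only [g, sum_add_distrib, sum_boole, filter_mem_eq_inter, univ_inter, Nat.cast_id]
    rw [← sum_subset (subset_univ x.1) fun j _ hj => by
      by_contra h
      exact hj (h3 j h), h2, h1]
    omega
  have hprod : ∀ x ∈ P, ∏ j, partWeight β (g x j) = (β - 1) ^ k * β ^ (d - k) := by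
    intro x hx
    obtain ⟨h1, h2, h3⟩ := hP x hx
    rw [← prod_subset (subset_univ x.1) fun j _ hj => by
        rw [(not_not.1 fun h => hj ((hsupp x hx j).2 h) : g x j = 0)]
        rfl]
    calc ∏ j ∈ x.1, partWeight β (g x j) = ∏ j ∈ x.1, ((β - 1) * β ^ x.2 j) :=
          prod_congr rfl fun j hj => by simp [g, hj, partWeight]
      _ = _ := by rw [prod_mul_distrib, prod_const, prod_pow_eq_pow_sum, h1, h2]
  have hcard : P.card = a.choose k * (d - 1).choose (k - 1) := by
    rw [card_sigma, sum_congr rfl (g := fun _ => (d - 1).choose (k - 1)), sum_const,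
      card_powersetCard, card_univ, Fintype.card_fin, smul_eq_mul]
    intro s hs
    have hs' := (mem_powersetCard.1 hs).2
    have hsym : (s.sym (d - k)).card = Nat.multichoose s.card (d - k) := by
      conv_lhs => rw [show s = s.attach.map (Function.Embedding.subtype (· ∈ s)) from
        (attach_map_val).symm]
      rw [sym_map, card_map, attach_eq_univ, sym_univ, card_univ, Sym.card_sym_eq_multichoose,
        Fintype.card_coe]
    rw [← map_sym_eq_piAntidiag, card_map, hsym, hs', Nat.multichoose_eq,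
      show k + (d - k) - 1 = d - 1 by omega]
    exact Nat.choose_symm_of_eq_add (by omega)
  calc _ = ∑ _x ∈ P, (β - 1) ^ k * β ^ (d - k) := by
        rw [sum_const, hcard, nsmul_eq_mul]
        push_cast
        ring
    _ = ∑ c ∈ P.image g, ∏ j, partWeight β (c j) := by
        rw [sum_image hinj]
        exact sum_congr rfl fun x hx => (hprod x hx).symm
    _ ≤ _ := by
        refine sum_le_sum_of_subset_of_nonneg ?_ fun c _ _ =>
          prod_nonneg fun j _ => partWeight_nonneg hβ _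
        intro c hc
        obtain ⟨x, hx, rfl⟩ := mem_image.1 hc
        exact mem_piAntidiag.2 ⟨hsum x hx, fun _ _ => mem_univ _⟩

open Classical in
/-- There is a probability distribution on compositions `c` of `L - m` into `a` parts under which
every `T` of total at most `L` dominates `c` with probability about `(m / L) ^ a`. -/
theorem exists_weights (a m L : ℕ) (ha : 1 ≤ a) (hm : a * a ≤ m) (hmL : 2 * m ≤ L)
    (hL : 4 * (a * a) ≤ L) :
    ∃ (Z : Finset (Fin a → ℕ)) (w : (Fin a → ℕ) → ℝ),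
      (∀ c ∈ Z, ∑ j, c j + m = L) ∧ (∀ c ∈ Z, 0 ≤ w c) ∧ ∑ c ∈ Z, w c = 1 ∧
      ∀ T : Fin a → ℕ, ∑ j, T j ≤ L →
        ∑ c ∈ Z.filter (fun c => ∀ j, c j ≤ T j), w c ≤ 20 * L * (a + 1) * ((m : ℝ) / L) ^ a := by
  have ha2 : a ≤ a * a := Nat.le_mul_self a
  have hm0 : 0 < m := lt_of_lt_of_le (Nat.mul_pos ha ha) hm
  obtain ⟨d, hd⟩ : ∃ d, L = d + m := ⟨L - m, by omega⟩
  have hmd : m ≤ d := by omega
  have hm' : (0 : ℝ) < m := by exact_mod_cast hm0
  have hd' : (0 : ℝ) < d := by exact_mod_cast (by omega : 0 < d)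
  set x : ℝ := (d : ℝ) / m with hx
  have hx1 : 1 ≤ x := (one_le_div hm').2 (by exact_mod_cast hmd)
  obtain ⟨k0, hk0, hmax⟩ := exists_max_image (range (a + 1))
    (fun k => (a.choose k : ℝ) * x ^ k) ⟨0, mem_range.2 (by omega)⟩
  have hbin : (1 + x) ^ a ≤ ((a : ℝ) + 1) * ((a.choose k0 : ℝ) * x ^ k0) := by
    rw [add_comm, add_pow]
    refine (sum_le_card_nsmul _ _ ((a.choose k0 : ℝ) * x ^ k0) fun k hk => ?_).trans
      (le_of_eq (by rw [card_range, nsmul_eq_mul]; push_cast; ring))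
    calc _ = (a.choose k : ℝ) * x ^ k := by rw [one_pow]; ring
      _ ≤ _ := hmax k hk
  obtain ⟨k, hk1, hka, hkmax⟩ : ∃ k, 1 ≤ k ∧ k ≤ a ∧
      (1 + x) ^ a ≤ ((a : ℝ) + 1) * ((a.choose k : ℝ) * x ^ k) := by
    rcases Nat.eq_zero_or_pos k0 with rfl | h
    · refine ⟨1, le_rfl, ha, hbin.trans (mul_le_mul_of_nonneg_left ?_ (by positivity))⟩
      rw [Nat.choose_zero_right, pow_zero, Nat.choose_one_right, pow_one, Nat.cast_one, one_mul]
      exact one_le_mul_of_one_le_of_one_le (by exact_mod_cast ha) hx1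
    · exact ⟨k0, h, Nat.lt_succ_iff.1 (mem_range.1 hk0), hbin⟩
  have hk2 : k * k ≤ a * a := Nat.mul_le_mul hka hka
  have hkd : k ≤ d := by omega
  set β : ℝ := 1 + k / m with hβ
  have hβ1 : 1 ≤ β := le_add_of_nonneg_right (by positivity)
  set V : ℝ := ∑ c ∈ piAntidiag (univ : Finset (Fin a)) d, ∏ j, partWeight β (c j) with hV
  have hlow := le_sum_compositions (a := a) d k hk1 hkd β hβ1
  rw [← hV] at hlow
  -- the binomial coefficient
  have hch : (((d - k : ℕ) : ℝ)) ^ k * k ≤ ((d - 1).choose (k - 1) : ℝ) * k.factorial * d := by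
    have h1 : (d - k) ^ k ≤ k.factorial * d.choose k := by
      rw [← Nat.descFactorial_eq_factorial_mul_choose]
      exact le_trans (Nat.pow_le_pow_left (by omega) k) (Nat.pow_sub_le_descFactorial d k)
    have h2 : d.choose k * k = d * (d - 1).choose (k - 1) := by
      obtain ⟨d', rfl⟩ : ∃ d', d = d' + 1 := ⟨d - 1, by omega⟩
      obtain ⟨k', rfl⟩ : ∃ k', k = k' + 1 := ⟨k - 1, by omega⟩
      simpa using (Nat.add_one_mul_choose_eq d' k').symm
    have h3 : (d - k) ^ k * k ≤ (d - 1).choose (k - 1) * k.factorial * d := by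
      calc _ ≤ k.factorial * d.choose k * k := Nat.mul_le_mul_right _ h1
        _ = _ := by rw [Nat.mul_assoc, h2]; ring
    exact_mod_cast h3
  have hC : Real.exp 1 ^ k * (((d - k : ℕ) : ℝ)) ^ k ≤
      Real.exp 1 * (k : ℝ) ^ k * (d * ((d - 1).choose (k - 1) : ℝ)) := by
    refine le_of_mul_le_mul_right ?_ (show (0 : ℝ) < k by exact_mod_cast hk1)
    calc Real.exp 1 ^ k * (((d - k : ℕ) : ℝ)) ^ k * k
        = Real.exp 1 ^ k * ((((d - k : ℕ) : ℝ)) ^ k * k) := by ring
      _ ≤ Real.exp 1 ^ k * (((d - 1).choose (k - 1) : ℝ) * k.factorial * d) := by gcongr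
      _ = (k.factorial * Real.exp 1 ^ k) * (((d - 1).choose (k - 1) : ℝ) * d) := by ring
      _ ≤ (Real.exp 1 * (k : ℝ) ^ (k + 1)) * (((d - 1).choose (k - 1) : ℝ) * d) :=
          mul_le_mul_of_nonneg_right (factorial_mul_exp_le k hk1) (by positivity)
      _ = _ := by ring
  have hhalf : (d : ℝ) ^ k ≤ 2 * (((d - k : ℕ) : ℝ)) ^ k := by
    have h1 := one_add_mul_le_pow (a := -((k : ℝ) / d)) (by
      have : (k : ℝ) / d ≤ 1 := (div_le_one hd').2 (by exact_mod_cast hkd)
      linarith) k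
    have h2 : (k : ℝ) * (k / d) ≤ 1 / 2 := by
      rw [← mul_div_assoc, div_le_iff₀ hd']
      have : ((2 * (k * k) : ℕ) : ℝ) ≤ (d : ℝ) := by exact_mod_cast (by omega : 2 * (k * k) ≤ d)
      push_cast at this
      linarith
    have e : (((d - k : ℕ) : ℝ)) ^ k = (d : ℝ) ^ k * (1 + -((k : ℝ) / d)) ^ k := by
      rw [← mul_pow, Nat.cast_sub hkd]
      congr 1
      field_simp
      ring
    have h3 : (1 : ℝ) / 2 ≤ (1 + -((k : ℝ) / d)) ^ k := by linarith
    rw [e]
    nlinarith [pow_pos hd' k]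
  have hek : β ^ m ≤ Real.exp 1 ^ k := by
    have h1 : β ≤ Real.exp ((k : ℝ) / m) := by
      rw [hβ, add_comm]
      exact Real.add_one_le_exp _
    refine (pow_le_pow_left₀ (by linarith) h1 m).trans (le_of_eq ?_)
    rw [← Real.exp_nat_mul, ← Real.exp_nat_mul]
    congr 1
    field_simp
  have hek2 : β ^ k ≤ Real.exp 1 := by
    have h1 : β ≤ Real.exp ((k : ℝ) / m) := by
      rw [hβ, add_comm]
      exact Real.add_one_le_exp _
    refine (pow_le_pow_left₀ (by linarith) h1 k).trans ?_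
    rw [← Real.exp_nat_mul]
    refine Real.exp_le_exp.2 ?_
    rw [← mul_div_assoc, div_le_one hm']
    exact_mod_cast hk2.trans hm
  have he2 : Real.exp 1 * Real.exp 1 ≤ 10 := by
    have := Real.exp_one_lt_d9
    nlinarith [Real.exp_pos (1 : ℝ)]
  have hkey : β ^ L * ((a.choose k : ℝ) * x ^ k) ≤ 20 * d * V := by
    have h0 : 0 ≤ (a.choose k : ℝ) * β ^ (d - k) := by positivity
    have eL : β ^ L = β ^ (d - k) * β ^ k * β ^ m := by
      rw [← pow_add, ← pow_add]
      congr 1
      omega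
    have ex : x ^ k = (d : ℝ) ^ k / (m : ℝ) ^ k := by rw [hx, div_pow]
    calc β ^ L * ((a.choose k : ℝ) * x ^ k)
        = (a.choose k : ℝ) * β ^ (d - k) * (β ^ k * β ^ m * (d : ℝ) ^ k) / (m : ℝ) ^ k := by
          rw [eL, ex]; ring
      _ ≤ (a.choose k : ℝ) * β ^ (d - k) *
            (Real.exp 1 * Real.exp 1 ^ k * (2 * (((d - k : ℕ) : ℝ)) ^ k)) / (m : ℝ) ^ k := by
          gcongr
      _ = (a.choose k : ℝ) * β ^ (d - k) *
            (2 * Real.exp 1 * (Real.exp 1 ^ k * (((d - k : ℕ) : ℝ)) ^ k)) / (m : ℝ) ^ k := by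
          ring
      _ ≤ (a.choose k : ℝ) * β ^ (d - k) *
            (2 * Real.exp 1 * (Real.exp 1 * (k : ℝ) ^ k * (d * ((d - 1).choose (k - 1) : ℝ)))) /
              (m : ℝ) ^ k := by
          gcongr
      _ = 2 * (Real.exp 1 * Real.exp 1) * d *
            ((a.choose k : ℝ) * ((d - 1).choose (k - 1) : ℝ) * ((β - 1) ^ k * β ^ (d - k))) := by
          rw [show β - 1 = (k : ℝ) / m by rw [hβ]; ring, div_pow]
          ring
      _ ≤ 2 * 10 * d * V := by gcongr
      _ = _ := by ring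
  have hCx : 0 < (a.choose k : ℝ) * x ^ k := by
    have : 0 < a.choose k := Nat.choose_pos hka
    positivity
  have hV0 : 0 < V := by
    have h1 : 0 < β ^ L * ((a.choose k : ℝ) * x ^ k) := by
      have : (0 : ℝ) < β := by linarith
      positivity
    nlinarith
  refine ⟨piAntidiag univ d, fun c => (∏ j, partWeight β (c j)) / V, fun c hc => ?_,
    fun c _ => div_nonneg (prod_nonneg fun j _ => partWeight_nonneg hβ1 _) hV0.le,
    by rw [← sum_div, ← hV, div_self hV0.ne'], fun T hT => ?_⟩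
  · rw [(mem_piAntidiag.1 hc).1]
    omega
  have hnum : ∑ c ∈ (piAntidiag univ d).filter (fun c => ∀ j, c j ≤ T j),
      ∏ j, partWeight β (c j) ≤ β ^ L := by
    calc _ ≤ ∑ c ∈ Fintype.piFinset (fun j => range (T j + 1)), ∏ j, partWeight β (c j) := by
          refine sum_le_sum_of_subset_of_nonneg ?_ fun c _ _ =>
            prod_nonneg fun j _ => partWeight_nonneg hβ1 _
          intro c hc
          rw [Fintype.mem_piFinset]
          exact fun j => mem_range.2 (Nat.lt_succ_iff.2 ((mem_filter.1 hc).2 j))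
      _ = ∏ j, ∑ i ∈ range (T j + 1), partWeight β i :=
          (prod_univ_sum (fun j => range (T j + 1)) fun _ i => partWeight β i).symm
      _ = β ^ ∑ j, T j := by simp [sum_partWeight, prod_pow_eq_pow_sum]
      _ ≤ β ^ L := pow_le_pow_right₀ hβ1 hT
  rw [← sum_div, div_le_iff₀ hV0]
  refine hnum.trans ?_
  have hml : ((m : ℝ) / L) ^ a * (1 + x) ^ a = 1 := by
    rw [← mul_pow, hx, hd]
    convert one_pow a
    push_cast
    field_simp
    ring
  have hdL : (d : ℝ) ≤ L := by exact_mod_cast (by omega : d ≤ L)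
  calc β ^ L = β ^ L * (((m : ℝ) / L) ^ a * (1 + x) ^ a) := by rw [hml, mul_one]
    _ ≤ β ^ L * (((m : ℝ) / L) ^ a * (((a : ℝ) + 1) * ((a.choose k : ℝ) * x ^ k))) := by
        gcongr
    _ = ((a : ℝ) + 1) * ((m : ℝ) / L) ^ a * (β ^ L * ((a.choose k : ℝ) * x ^ k)) := by ring
    _ ≤ ((a : ℝ) + 1) * ((m : ℝ) / L) ^ a * (20 * d * V) := by gcongr
    _ ≤ ((a : ℝ) + 1) * ((m : ℝ) / L) ^ a * (20 * L * V) := by gcongr
    _ = _ := by ring

open Classical in
/-- Independent choices with small expected incidences can avoid incidences above `M`. -/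
theorem exists_bounded_multiplicity {ι α τ : Type*} [Fintype ι] (Z : ι → Finset α)
    (w : ι → α → ℝ) (hw0 : ∀ i, ∀ x ∈ Z i, 0 ≤ w i x) (hw1 : ∀ i, ∑ x ∈ Z i, w i x = 1)
    (T : Finset τ) (rel : α → τ → Prop) (p : ι → ℝ)
    (hp : ∀ i, ∀ t ∈ T, ∑ x ∈ (Z i).filter (fun x => rel x t), w i x ≤ p i)
    (μ : ℝ) (hμ0 : 0 < μ) (hμ1 : μ ≤ 1) (hμ : ∑ i, p i ≤ μ) (M : ℕ)
    (hsmall : (T.card : ℝ) * (Real.exp 1 * μ) ^ (M + 1) < 1) :
    ∃ f : ι → α, (∀ i, f i ∈ Z i) ∧
      ∀ t ∈ T, (Finset.univ.filter fun i => rel (f i) t).card ≤ M := by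
  rcases T.eq_empty_or_nonempty with rfl | hT
  · have hne : ∀ i, (Z i).Nonempty := fun i => by
      rcases (Z i).eq_empty_or_nonempty with h | h
      · have := hw1 i
        simp [h] at this
      · exact h
    choose f hf using hne
    exact ⟨f, hf, by simp⟩
  set F := Fintype.piFinset Z with hF
  let W : (ι → α) → ℝ := fun f => ∏ i, w i (f i)
  let Φ : (ι → α) → ℝ := fun f => ∑ t ∈ T, ∏ i, if rel (f i) t then 1 / μ else 1
  have hW1 : ∑ f ∈ F, W f = 1 := by
    rw [hF, ← prod_univ_sum Z fun i x => w i x]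
    simp [hw1]
  have hWΦ : ∑ f ∈ F, W f * Φ f ≤ (T.card : ℝ) * Real.exp 1 := by
    simp only [W, Φ, mul_sum]
    rw [sum_comm, ← nsmul_eq_mul]
    refine sum_le_card_nsmul _ _ _ fun t ht => ?_
    simp only [← prod_mul_distrib]
    rw [hF, ← prod_univ_sum Z fun i x => w i x * if rel x t then 1 / μ else 1]
    calc _ ≤ ∏ i, Real.exp (p i / μ) := by
          refine prod_le_prod (fun i _ => sum_nonneg fun x hx => mul_nonneg (hw0 i x hx) ?_)
            fun i _ => ?_
          · split_ifs <;> positivity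
          refine le_trans ?_ (Real.add_one_le_exp _)
          calc ∑ x ∈ Z i, w i x * (if rel x t then 1 / μ else 1)
              ≤ ∑ x ∈ Z i, (w i x + if rel x t then w i x / μ else 0) := by
                refine sum_le_sum fun x hx => ?_
                have := hw0 i x hx
                split_ifs
                · rw [mul_one_div]; linarith
                · linarith
            _ = 1 + (∑ x ∈ (Z i).filter fun x => rel x t, w i x) / μ := by
                rw [sum_add_distrib, hw1, sum_div, sum_filter]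
            _ ≤ p i / μ + 1 := by
                rw [add_comm]
                gcongr
                exact hp i t ht
      _ = Real.exp ((∑ i, p i) / μ) := by rw [← Real.exp_sum, sum_div]
      _ ≤ Real.exp 1 := Real.exp_le_exp.2 ((div_le_one hμ0).2 hμ)
  obtain ⟨f, hfF, hf⟩ : ∃ f ∈ F, Φ f ≤ (T.card : ℝ) * Real.exp 1 := by
    by_contra h
    push Not at h
    have h1 : ∀ f ∈ F, 0 ≤ W f := fun f hf =>
      prod_nonneg fun i _ => hw0 i _ (Fintype.mem_piFinset.1 hf i)
    obtain ⟨f, hf, hf0⟩ := exists_ne_zero_of_sum_ne_zero (hW1 ▸ one_ne_zero)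
    have : ∑ f ∈ F, W f * ((T.card : ℝ) * Real.exp 1) < ∑ f ∈ F, W f * Φ f :=
      sum_lt_sum (fun g hg => mul_le_mul_of_nonneg_left (h g hg).le (h1 g hg))
        ⟨f, hf, mul_lt_mul_of_pos_left (h f hf) (lt_of_le_of_ne (h1 f hf) hf0.symm)⟩
    rw [← sum_mul, hW1, one_mul] at this
    linarith
  refine ⟨f, fun i => Fintype.mem_piFinset.1 hfF i, fun t ht => ?_⟩
  by_contra hM
  have h1 : (1 / μ) ^ (M + 1) ≤ Φ f := by
    refine le_trans ?_ (single_le_sum (f := fun t => ∏ i, if rel (f i) t then 1 / μ else 1)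
      (fun t _ => prod_nonneg fun i _ => by split_ifs <;> positivity) ht)
    rw [prod_ite, prod_const_one, mul_one, prod_const]
    exact pow_le_pow_right₀ ((one_le_div hμ0).2 hμ1) (by omega)
  rw [div_pow, one_pow, div_le_iff₀ (by positivity)] at h1
  have h2 : Real.exp 1 ≤ Real.exp 1 ^ (M + 1) :=
    le_self_pow₀ (Real.one_le_exp zero_le_one) (by omega)
  have h3 : (T.card : ℝ) * Real.exp 1 * μ ^ (M + 1) ≤
      (T.card : ℝ) * (Real.exp 1 * μ) ^ (M + 1) := by
    rw [mul_pow, mul_assoc]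
    gcongr
  have h4 : Φ f * μ ^ (M + 1) ≤ (T.card : ℝ) * Real.exp 1 * μ ^ (M + 1) := by gcongr
  linarith

end Vale.Agent.P209
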